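import Vale.Agent.P078.Quad.Defs
import Vale.Agent.P078.AllMasa.Core

/-! Approximate minimisers and the improvement to a state inside the window. -/

namespace Vale.Agent.P078.Quad

set_option linter.unusedSectionVars false

open Filter Topology ComplexOrder
open Vale.Agent.P078.Tracial Vale.Agent.P078.AllMasa

variable {M X : Type} [CStarAlgebra M] [PartialOrder M] [StarOrderedRing M]
variable [TopologicalSpace X] [CompactSpace X] [T2Space X] [TotallyDisconnectedSpace X]
variable {P : Prm M} {C : SCore M X} {r : ℕ}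

private theorem wt_apply (s : Col M X) (x : X) :
    P.wt s x = s.act x * s.W x + P.Wf * s.ass x := by
  simp [Prm.wt]

private theorem Wf_pos (P : Prm M) : 0 < P.Wf := by
  unfold Prm.Wf; linarith [P.κ_le]

private theorem Wf_lt_Wm (P : Prm M) : P.Wf < P.Wm := by
  unfold Prm.Wf Prm.Wm; linarith [P.κ_pos]

private theorem wt_nonneg {s : Col M X} (h : s.Ok P C) : 0 ≤ P.wt s :=
  ContinuousMap.le_def.2 fun x => by
    rw [wt_apply, ContinuousMap.zero_apply]
    have := (h.W_mem x).1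
    have := (Wf_pos P).le
    rcases h.act_01 x with ha | ha <;> rcases h.ass_01 x with he | he <;> rw [ha, he] <;> linarith

theorem Psi_nonneg (_hP : P.Ok C) {s : Config M X r} (hs : StateOk P C s) : 0 ≤ P.Psi C s := by
  refine add_nonneg (Finset.sum_nonneg fun c _ => ?_) (mul_nonneg (Real.sqrt_nonneg _)
    (add_nonneg ?_ (mul_nonneg (by positivity) ?_)))
  · exact add_nonneg (mul_nonneg P.l_pos.le (C.ig_nonneg (wt_nonneg (hs.col c))))
      (Finset.sum_nonneg fun i _ => add_nonneg (C.tr_nonneg ((hs.col c).Z_nonneg i))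
        (mul_nonneg P.lG_pos.le (C.tr_nonneg ((hs.col c).G_nonneg i))))
  · refine C.ig_nonneg (ContinuousMap.le_def.2 fun x => ?_)
    simp only [ContinuousMap.zero_apply, ContinuousMap.mul_apply]
    refine mul_nonneg ?_ (mul_self_nonneg _)
    rcases hs.U_01 x with h | h <;> simp [h]
  · exact C.ig_nonneg (ContinuousMap.le_def.2 fun x => by
      rcases hs.dead_01 x with h | h <;> simp [h])

theorem exists_near_min (hP : P.Ok C) {s0 : Config M X r} (h0 : StateOk P C s0) {ζ : ℝ}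
    (hζ : 0 < ζ) :
    ∃ s : Config M X r, StateOk P C s ∧ P.Psi C s ≤ P.Psi C s0 ∧ P.IsMin C s ζ := by
  set V := {v : ℝ | ∃ t : Config M X r, StateOk P C t ∧ P.Psi C t = v}
  have hne : V.Nonempty := ⟨_, s0, h0, rfl⟩
  have hbd : BddBelow V := ⟨0, by rintro v ⟨t, ht, rfl⟩; exact Psi_nonneg hP ht⟩
  obtain ⟨v, ⟨t, ht, rfl⟩, hv⟩ := exists_lt_of_csInf_lt hne (lt_add_of_pos_right (sInf V) hζ)
  by_cases hle : P.Psi C t ≤ P.Psi C s0
  · exact ⟨t, ht, hle, fun t' ht' => by linarith [csInf_le hbd ⟨t', ht', rfl⟩]⟩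
  · exact ⟨s0, h0, le_rfl, fun t' ht' => by linarith [csInf_le hbd ⟨t', ht', rfl⟩]⟩

/-- Lowering the weight enlarges the slack and lowers the potential of one colour. -/
private theorem pot_mono {s s' : Col M X} (hG : s'.G = s.G) (hZ : s'.Z = s.Z)
    (hw : P.wt s' ≤ P.wt s) :
    (∀ i, P.mat C s i ≤ P.mat C s' i) ∧ P.pot C s' ≤ P.pot C s := by
  refine ⟨fun i => ?_, ?_⟩
  · unfold Prm.mat
    rw [hG, hZ]
    exact sub_le_sub_left (add_le_add le_rfl (C.r_mono hw)) _
  · have h3 := mul_le_mul_of_nonneg_left (C.ig_mono hw) P.l_pos.le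
    unfold Prm.pot
    rw [hG, hZ]
    linarith

/-- The excess of one resolvent over the upper clipping level moves into the slack. -/
private theorem exists_clip {s : Col M X} (h : s.Ok P C) (i : Bool) :
    ∃ (G' : Mˣ) (Z' : M), 0 ≤ (G' : M) ∧ (G' : M) ≤ s.G i ∧ 0 ≤ Z' ∧
      (G' : M) ≤ algebraMap ℝ M P.Λ ∧ Z' - (↑G'⁻¹ : M) = s.Z i - ↑(s.G i)⁻¹ ∧
      C.tr Z' + P.lG * C.tr (G' : M) ≤ C.tr (s.Z i) + P.lG * C.tr (s.G i : M) := by
  set G := s.G i with hGdef
  have hG0 := h.G_nonneg i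
  have hsa : IsSelfAdjoint (G : M) := IsSelfAdjoint.of_nonneg hG0
  have hΛ := P.Λ_pos
  have hpos := fun t (ht : t ∈ spectrum ℝ (G : M)) => Core.spectrum_unit_pos hG0 ht
  have hne : ∀ t ∈ spectrum ℝ (G : M), min t P.Λ ≠ 0 :=
    fun t ht => (lt_min (hpos t ht) hΛ).ne'
  set G' := cfcUnits (fun t => min t P.Λ) (G : M) hne
  have hG'v : (G' : M) = cfc (fun t => min t P.Λ) (G : M) := val_cfcUnits _ _ hne
  have hG'i : (↑G'⁻¹ : M) = cfc (fun t => (min t P.Λ)⁻¹) (G : M) := val_inv_cfcUnits _ _ hne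
  have hcI : ContinuousOn (fun t : ℝ => (min t P.Λ)⁻¹) (spectrum ℝ (G : M)) :=
    ContinuousOn.inv₀ (by fun_prop) hne
  have hcG : ContinuousOn (fun t : ℝ => t⁻¹) (spectrum ℝ (G : M)) :=
    ContinuousOn.inv₀ continuousOn_id fun t ht => (hpos t ht).ne'
  have hinv : (↑G⁻¹ : M) = cfc (fun t : ℝ => t⁻¹) (G : M) := (cfc_inv_id G hsa).symm
  have hle : (G' : M) ≤ G := by
    rw [hG'v]
    calc cfc (fun t => min t P.Λ) (G : M) ≤ cfc (fun t => t) (G : M) :=
          cfc_mono fun t _ => min_le_left _ _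
      _ = G := cfc_id' ℝ (G : M)
  have hD0 : 0 ≤ (↑G'⁻¹ : M) - ↑G⁻¹ := by
    rw [hG'i, hinv, ← cfc_sub _ _ _ hcI hcG]
    exact cfc_nonneg fun t ht =>
      sub_nonneg.2 (inv_anti₀ (lt_min (hpos t ht) hΛ) (min_le_left _ _))
  have hD : (↑G'⁻¹ : M) - ↑G⁻¹ ≤ (1 / P.Λ ^ 2) • ((G : M) - G') := by
    rw [hG'i, hinv, hG'v, ← cfc_sub _ _ _ hcI hcG]
    nth_rewrite 2 [← cfc_id' ℝ (G : M)]
    rw [← cfc_sub (fun t : ℝ => t) (fun t => min t P.Λ) (G : M),
      ← cfc_smul (1 / P.Λ ^ 2) _ (G : M)]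
    refine cfc_mono (fun t ht => ?_) (hcI.sub hcG)
    have ht0 := hpos t ht
    rcases le_total t P.Λ with h1 | h1
    · simp [min_eq_left h1]
    · rw [min_eq_right h1, smul_eq_mul, inv_sub_inv hΛ.ne' ht0.ne', one_div_mul_eq_div]
      refine div_le_div_of_nonneg_left (by linarith) (by positivity) ?_
      rw [sq]; exact mul_le_mul_of_nonneg_left h1 hΛ.le
  refine ⟨G', s.Z i + ((↑G'⁻¹ : M) - ↑G⁻¹), ?_, hle, add_nonneg (h.Z_nonneg i) hD0, ?_,
    by abel, ?_⟩
  · rw [hG'v]; exact cfc_nonneg fun t ht => (lt_min (hpos t ht) hΛ).le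
  · rw [hG'v]
    exact cfc_le_algebraMap _ _ _ fun t _ => min_le_right _ _
  · have h1 := C.tr_mono hD
    rw [C.tr_smul, C.tr_sub (G : M)] at h1
    have h2 : 1 / P.Λ ^ 2 = P.lG := by
      rw [div_eq_iff (by positivity), P.lG_mul_Λ_sq]
    rw [h2] at h1
    rw [C.tr_add]
    linarith

private theorem short_le {s s' : Config M X r} {x : X}
    (h : (∑ c, P.bc C (s.col c)) x ≤ (∑ c, P.bc C (s'.col c)) x) :
    P.short C s' x ≤ P.short C s x := by
  show max (P.S - (∑ c, P.bc C (s'.col c)) x) 0 ≤ max (P.S - (∑ c, P.bc C (s.col c)) x) 0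
  exact max_le_max (by linarith) le_rfl

private theorem short_nonneg (s : Config M X r) (x : X) : 0 ≤ P.short C s x := le_max_right _ _

/-- Smaller costs give a smaller potential. -/
private theorem Psi_le {s s' : Config M X r}
    (hp : ∀ c, P.pot C (s'.col c) ≤ P.pot C (s.col c))
    (hx : ∀ x, s'.U x * (P.short C s' x * P.short C s' x) + P.S ^ 2 / 16 * s'.dead x
      ≤ s.U x * (P.short C s x * P.short C s x) + P.S ^ 2 / 16 * s.dead x) :
    P.Psi C s' ≤ P.Psi C s := by
  refine add_le_add (Finset.sum_le_sum fun c _ => hp c)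
    (mul_le_mul_of_nonneg_left ?_ (Real.sqrt_nonneg _))
  rw [← C.ig_smul, ← C.ig_add, ← C.ig_smul, ← C.ig_add]
  exact C.ig_mono (ContinuousMap.le_def.2 fun x => by simpa using hx x)

/-- Clipping the resolvents. -/
private theorem exists_clipped {s : Config M X r} (hs : StateOk P C s) :
    ∃ s' : Config M X r, StateOk P C s' ∧
      (∀ c i, ((s'.col c).G i : M) ≤ algebraMap ℝ M P.Λ) ∧ P.Psi C s' ≤ P.Psi C s := by
  choose G Z hG0 hle hZ0 hΛ hmat hcost using fun c i => exists_clip (hs.col c) i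
  set s' : Config M X r := ⟨fun c => ⟨(s.col c).act, (s.col c).ass, (s.col c).W, G c, Z c⟩, s.U⟩
    with hs'
  have hdead : s'.dead = s.dead := rfl
  have hT : ∀ c x, P.Tc C (s.col c) x ≤ P.Tc C (s'.col c) x := fun c x => by
    have hW := (hs.col c).W_mem x
    have hsF : 0 ≤ sF P.κ ((s.col c).W x) :=
      sF_nonneg P.κ_pos P.κ_le hW.1 (by have := hW.2; unfold Prm.Wa at this; exact this)
    have h1 := ContinuousMap.le_def.1 (C.Er_mono (hle c true)) x
    have h2 := ContinuousMap.le_def.1 (C.Er_mono (hle c false)) x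
    have h3 : P.Γc C (s'.col c) x ≤ P.Γc C (s.col c) x := by
      simp [Prm.Γc, Prm.γ, hs']
      linarith
    show TF P.κ _ ((s.col c).W x) ≤ TF P.κ _ ((s.col c).W x)
    unfold TF
    linarith [mul_le_mul_of_nonneg_right h3 hsF]
  have hmat' : ∀ c i, P.mat C (s'.col c) i = P.mat C (s.col c) i := fun c i => by
    have h := hmat c i
    rw [sub_eq_sub_iff_add_eq_add, ← sub_eq_zero] at h
    rw [← sub_eq_zero, ← h]
    show 1 + Z c i - ((↑(G c i)⁻¹ : M) + sgn i • P.y + C.r (P.wt (s.col c)))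
      - (1 + (s.col c).Z i - ((↑((s.col c).G i)⁻¹ : M) + sgn i • P.y + C.r (P.wt (s.col c)))) = _
    abel
  refine ⟨s', ⟨fun c => ⟨(hs.col c).act_01, (hs.col c).ass_01, (hs.col c).act_ass,
    (hs.col c).W_mem, hG0 c, hZ0 c, fun i => hmat' c i ▸ (hs.col c).mat_nonneg i,
    fun x hx => ((hs.col c).inv x hx).trans (hT c x)⟩, hs.U_01, hs.dead_01, hs.act_le⟩,
    hΛ, Psi_le (fun c => ?_) fun x => ?_⟩
  · exact add_le_add le_rfl (Finset.sum_le_sum fun i _ => hcost c i)
  · rw [hdead]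
    have hb : (∑ c, P.bc C (s.col c)) x ≤ (∑ c, P.bc C (s'.col c)) x := by
      rw [ContinuousMap.sum_apply, ContinuousMap.sum_apply]
      refine Finset.sum_le_sum fun c _ => ?_
      show (s.col c).act x * (P.Tc C (s.col c) x - 2 * P.b1)
        ≤ (s.col c).act x * (P.Tc C (s'.col c) x - 2 * P.b1)
      refine mul_le_mul_of_nonneg_left (by linarith [hT c x]) ?_
      rcases (hs.col c).act_01 x with h | h <;> simp [h]
    have hU : 0 ≤ s.U x := by rcases hs.U_01 x with h | h <;> simp [h]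
    exact add_le_add (mul_le_mul_of_nonneg_left
      (mul_self_le_mul_self (short_nonneg s' x) (short_le hb)) hU) le_rfl

/-- Colours heavier than the window are assigned. -/
private theorem exists_assign {s : Config M X r} (hs : StateOk P C s) :
    ∃ s' : Config M X r, StateOk P C s' ∧ (∀ c, (s'.col c).G = (s.col c).G) ∧
      P.Psi C s' ≤ P.Psi C s ∧ ∀ c x, (s'.col c).act x = 1 → (s'.col c).W x ≤ P.Wm := by
  have hUone : ∀ c x, (s.col c).act x = 1 → s.U x = 1 := fun c x hx => by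
    rcases hs.U_01 x with h' | h'
    · have := hs.act_le c x; linarith
    · exact h'
  have hass0 : ∀ x, s.U x = 1 → ∀ c, (s.col c).ass x = 0 := fun x hx c => by
    have h0 : ∀ d ∈ (Finset.univ : Finset (Fin r)), 0 ≤ (s.col d).ass x := fun d _ => by
      rcases (hs.col d).ass_01 x with h' | h' <;> simp [h']
    have h2 := Finset.single_le_sum h0 (Finset.mem_univ c)
    have h1 : 0 ≤ s.dead x := by rcases hs.dead_01 x with h' | h' <;> simp [h']
    simp [Config.dead, hx] at h1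
    have := h0 c (Finset.mem_univ c)
    linarith
  have hcl : ∀ c, ∃ V : Set X, IsClopen V ∧
      {x | 1 ≤ (s.col c).act x ∧ P.Wm ≤ (s.col c).W x} ⊆ V ∧
      V ⊆ {x | 1 / 2 < (s.col c).act x ∧ P.Wf < (s.col c).W x} := fun c => by
    refine exists_clopen_of_closed_subset_open ?_ ?_ ?_
    · exact (isClosed_le continuous_const ((s.col c).act.continuous)).inter
        (isClosed_le continuous_const ((s.col c).W.continuous))
    · exact (isOpen_lt continuous_const ((s.col c).act.continuous)).inter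
        (isOpen_lt continuous_const ((s.col c).W.continuous))
    · rintro x ⟨h1, h2⟩
      exact ⟨by linarith, lt_of_lt_of_le (Wf_lt_Wm P) h2⟩
  choose S hS hSge hSle using hcl
  obtain ⟨t, ht01, htS, htsum⟩ := exists_disjointify S hS
  have htact : ∀ c x, t c x = 1 → (s.col c).act x = 1 ∧ P.Wf ≤ (s.col c).W x := fun c x h => by
    obtain ⟨h1, h2⟩ := hSle c (htS c x h)
    rcases (hs.col c).act_01 x with h' | h'
    · linarith
    · exact ⟨h', h2.le⟩
  set T : C(X, ℝ) := 1 - ∑ c, t c with hTdef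
  have hT : ∀ x, (T x = 1 ∧ (∀ c, t c x = 0) ∧ ∀ c, x ∉ S c) ∨
      (T x = 0 ∧ s.U x = 1) := by
    intro x
    rcases htsum x with ⟨h0, hn⟩ | h1
    · refine Or.inl ⟨by simp [hTdef, h0], fun c => ?_, hn⟩
      rcases ht01 c x with h | h
      · exact h
      · exact absurd (htS c x h) (hn c)
    · refine Or.inr ⟨by simp [hTdef, h1], ?_⟩
      by_contra hU
      have : ∑ c, t c x = 0 := Finset.sum_eq_zero fun c _ => by
        rcases ht01 c x with h | h
        · exact h
        · exact absurd (hUone c x (htact c x h).1) hU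
      linarith
  set s' : Config M X r := ⟨fun c => ⟨(s.col c).act * T, (s.col c).ass + t c, (s.col c).W,
    (s.col c).G, (s.col c).Z⟩, s.U * T⟩ with hs'def
  have hdead : ∀ x, s'.dead x = s.dead x := fun x => by
    have hTx : T x = 1 - ∑ c, t c x := by simp [hTdef]
    have e : s'.dead x = s.dead x - (∑ c, t c x) + s.U x * (1 - T x) := by
      simp [Config.dead, hs'def, Finset.sum_add_distrib]; ring
    rw [e, hTx]
    rcases hT x with ⟨_, h, _⟩ | ⟨_, hU⟩
    · simp [h]
    · rw [hU]; ring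
  have hwt : ∀ c, P.wt (s'.col c) ≤ P.wt (s.col c) := fun c => by
    refine ContinuousMap.le_def.2 fun x => ?_
    rw [wt_apply, wt_apply]
    rcases hT x with ⟨h, h0, _⟩ | ⟨h, hU⟩
    · simp [hs'def, h, h0 c]
    · rcases ht01 c x with h' | h'
      · rcases (hs.col c).act_01 x with ha | ha
        · simp [hs'def, h, h', ha]
        · simp [hs'def, h, h', ha, hass0 x hU c]
          exact ((hs.col c).W_mem x).1
      · obtain ⟨ha, hb⟩ := htact c x h'
        simp [hs'def, h, h', ha, hass0 x hU c]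
        linarith
  have hmono := fun c => pot_mono (C := C) (s := s.col c) (s' := s'.col c) rfl rfl (hwt c)
  have hTc : ∀ c, P.Tc C (s'.col c) = P.Tc C (s.col c) := fun c => rfl
  have hbc : ∀ c x, T x = 1 → P.bc C (s'.col c) x = P.bc C (s.col c) x := fun c x h => by
    show (s.col c).act x * T x * (P.Tc C (s.col c) x - 2 * P.b1)
      = (s.col c).act x * (P.Tc C (s.col c) x - 2 * P.b1)
    rw [h, mul_one]
  refine ⟨s', ⟨fun c => ⟨fun x => ?_, fun x => ?_, fun x hx => ?_, (hs.col c).W_mem,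
      (hs.col c).G_nonneg, (hs.col c).Z_nonneg,
      fun i => ((hs.col c).mat_nonneg i).trans ((hmono c).1 i), fun x hx => ?_⟩,
      fun x => ?_, fun x => ?_, fun c x => ?_⟩,
    fun c => rfl, Psi_le (fun c => (hmono c).2) fun x => ?_, fun c x hx => ?_⟩
  · rcases hT x with ⟨h, _⟩ | ⟨h, _⟩
    · simpa [hs'def, h] using (hs.col c).act_01 x
    · simp [hs'def, h]
  · rcases ht01 c x with h | h
    · simpa [hs'def, h] using (hs.col c).ass_01 x
    · simp [hs'def, h, hass0 x (hUone c x (htact c x h).1) c]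
  · rcases hT x with ⟨h, h0, _⟩ | ⟨h, _⟩
    · simp [hs'def, h] at hx
      simp [hs'def, h0 c, (hs.col c).act_ass x hx]
    · simp [hs'def, h] at hx
  · rcases hT x with ⟨h, _⟩ | ⟨h, _⟩
    · simp [hs'def, h] at hx
      rw [hTc]
      exact (hs.col c).inv x hx
    · simp [hs'def, h] at hx
  · rcases hT x with ⟨h, _⟩ | ⟨h, _⟩
    · simpa [hs'def, h] using hs.U_01 x
    · simp [hs'def, h]
  · rw [hdead]; exact hs.dead_01 x
  · rcases hT x with ⟨h, _⟩ | ⟨h, _⟩
    · simpa [hs'def, h] using hs.act_le c x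
    · simp [hs'def, h]
  · rw [hdead]
    refine add_le_add ?_ le_rfl
    rcases hT x with ⟨h, _⟩ | ⟨h, hU⟩
    · have e : P.short C s' x = P.short C s x := by
        show max (P.S - (∑ c, P.bc C (s'.col c)) x) 0 = max (P.S - (∑ c, P.bc C (s.col c)) x) 0
        rw [ContinuousMap.sum_apply, ContinuousMap.sum_apply, Finset.sum_congr rfl fun c _ => hbc c x h]
      rw [e]
      simp [hs'def, h]
    · simp [hs'def, h, hU, mul_self_nonneg]
  · rcases hT x with ⟨h, _, hn⟩ | ⟨h, _⟩
    · simp [hs'def, h] at hx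
      by_contra hb
      exact hn c (hSge c ⟨hx.ge, le_of_lt (not_le.1 hb)⟩)
    · simp [hs'def, h] at hx

/-- Colours with a low level are deactivated. -/
private theorem exists_drop {s : Config M X r} (hs : StateOk P C s) :
    ∃ s' : Config M X r, StateOk P C s' ∧ (∀ c, (s'.col c).G = (s.col c).G) ∧
      (∀ c x, (s'.col c).act x = 1 →
        (s.col c).act x = 1 ∧ (s'.col c).W x = (s.col c).W x ∧
          3 / 2 * P.b1 ≤ P.Tc C (s'.col c) x) ∧ P.Psi C s' ≤ P.Psi C s := by
  have hcl : ∀ c, ∃ V : Set X, IsClopen V ∧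
      {x | 1 ≤ (s.col c).act x ∧ P.Tc C (s.col c) x ≤ 3 / 2 * P.b1} ⊆ V ∧
      V ⊆ {x | 1 / 2 < (s.col c).act x ∧ P.Tc C (s.col c) x < 2 * P.b1} := fun c => by
    refine exists_clopen_of_closed_subset_open ?_ ?_ ?_
    · exact (isClosed_le continuous_const ((s.col c).act.continuous)).inter
        (isClosed_le (P.Tc C (s.col c)).continuous continuous_const)
    · exact (isOpen_lt continuous_const ((s.col c).act.continuous)).inter
        (isOpen_lt (P.Tc C (s.col c)).continuous continuous_const)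
    · rintro x ⟨h1, h2⟩
      exact ⟨by linarith, lt_of_le_of_lt h2 (by linarith [P.b1_pos])⟩
  choose D hD hDge hDle using hcl
  set d : Fin r → C(X, ℝ) := fun c => ind (D c) (hD c) with hd
  set s' : Config M X r := ⟨fun c => ⟨(s.col c).act * (1 - d c), (s.col c).ass, (s.col c).W,
    (s.col c).G, (s.col c).Z⟩, s.U⟩ with hs'def
  have hTc : ∀ c, P.Tc C (s'.col c) = P.Tc C (s.col c) := fun c => rfl
  have hcase : ∀ c x, (x ∈ D c ∧ (s'.col c).act x = 0 ∧ (s.col c).act x = 1 ∧
      P.Tc C (s.col c) x < 2 * P.b1) ∨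
      (x ∉ D c ∧ (s'.col c).act x = (s.col c).act x) := fun c x => by
    by_cases h : x ∈ D c
    · refine Or.inl ⟨h, by simp [hs'def, hd, ind_mem _ h], ?_, (hDle c h).2⟩
      rcases (hs.col c).act_01 x with h' | h'
      · exact absurd (hDle c h).1 (by rw [h']; norm_num)
      · exact h'
    · exact Or.inr ⟨h, by simp [hs'def, hd, ind_notMem _ h]⟩
  have hback : ∀ c x, (s'.col c).act x = 1 → (s.col c).act x = 1 ∧ x ∉ D c := fun c x hx => by
    rcases hcase c x with ⟨_, h, _⟩ | ⟨hn, h⟩ <;> rw [h] at hx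
    · norm_num at hx
    · exact ⟨hx, hn⟩
  have hwt : ∀ c, P.wt (s'.col c) ≤ P.wt (s.col c) := fun c => by
    refine ContinuousMap.le_def.2 fun x => ?_
    rw [wt_apply, wt_apply]
    show (s'.col c).act x * (s.col c).W x + P.Wf * (s.col c).ass x ≤ _
    rcases hcase c x with ⟨_, h, ha, _⟩ | ⟨_, h⟩ <;> rw [h]
    rw [ha]
    linarith [((hs.col c).W_mem x).1]
  have hmono := fun c => pot_mono (C := C) (s := s.col c) (s' := s'.col c) rfl rfl (hwt c)
  have hdead : s'.dead = s.dead := rfl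
  refine ⟨s', ⟨fun c => ⟨fun x => ?_, (hs.col c).ass_01, fun x hx => ?_, (hs.col c).W_mem,
      (hs.col c).G_nonneg, (hs.col c).Z_nonneg,
      fun i => ((hs.col c).mat_nonneg i).trans ((hmono c).1 i), fun x hx => ?_⟩,
      hs.U_01, hs.dead_01, fun c x => ?_⟩,
    fun c => rfl, fun c x hx => ⟨(hback c x hx).1, rfl, ?_⟩, Psi_le (fun c => (hmono c).2) fun x => ?_⟩
  · rcases hcase c x with ⟨_, h, _⟩ | ⟨_, h⟩ <;> rw [h]
    · exact Or.inl rfl
    · exact (hs.col c).act_01 x
  · exact (hs.col c).act_ass x (hback c x hx).1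
  · exact (hs.col c).inv x (hback c x hx).1
  · rcases hcase c x with ⟨_, h, _⟩ | ⟨_, h⟩ <;> rw [h]
    · rcases hs.U_01 x with h' | h' <;> simp [hs'def, h']
    · exact hs.act_le c x
  · obtain ⟨h1, h2⟩ := hback c x hx
    by_contra hb
    exact h2 (hDge c ⟨h1.ge, le_of_lt (not_le.1 hb)⟩)
  · rw [hdead]
    have hb : (∑ c, P.bc C (s.col c)) x ≤ (∑ c, P.bc C (s'.col c)) x := by
      rw [ContinuousMap.sum_apply, ContinuousMap.sum_apply]
      refine Finset.sum_le_sum fun c _ => ?_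
      show (s.col c).act x * (P.Tc C (s.col c) x - 2 * P.b1)
        ≤ (s'.col c).act x * (P.Tc C (s'.col c) x - 2 * P.b1)
      rw [hTc]
      rcases hcase c x with ⟨_, h, ha, hlt⟩ | ⟨_, h⟩ <;> rw [h]
      rw [ha]
      linarith
    have hU : 0 ≤ s.U x := by rcases hs.U_01 x with h | h <;> simp [h]
    exact add_le_add (mul_le_mul_of_nonneg_left
      (mul_self_le_mul_self (short_nonneg s' x) (short_le hb)) hU) le_rfl

/-- Points with less than half of the budget are given up. -/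
private theorem exists_give_up {s : Config M X r} (hs : StateOk P C s) :
    ∃ s' : Config M X r, StateOk P C s' ∧ (∀ c, (s'.col c).G = (s.col c).G) ∧
      (∀ c x, (s'.col c).act x = 1 → (s.col c).act x = 1 ∧ (s'.col c).W x = (s.col c).W x ∧
        P.Tc C (s'.col c) x = P.Tc C (s.col c) x) ∧
      (∀ x, s'.U x = 1 → P.S / 2 ≤ (∑ c, P.bc C (s'.col c)) x) ∧
      P.Psi C s' ≤ P.Psi C s := by
  have hS := P.S_ge
  obtain ⟨V, hV, hVge, hVle⟩ := exists_clopen_of_closed_subset_open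
    (Z := {x | 1 ≤ s.U x ∧ (∑ c, P.bc C (s.col c)) x ≤ P.S / 2})
    (U := {x | 1 / 2 < s.U x ∧ (∑ c, P.bc C (s.col c)) x < 3 * P.S / 4})
    ((isClosed_le continuous_const s.U.continuous).inter
      (isClosed_le (∑ c, P.bc C (s.col c)).continuous continuous_const))
    ((isOpen_lt continuous_const s.U.continuous).inter
      (isOpen_lt (∑ c, P.bc C (s.col c)).continuous continuous_const))
    (by rintro x ⟨h1, h2⟩; exact ⟨by linarith, lt_of_le_of_lt h2 (by linarith)⟩)
  set v : C(X, ℝ) := ind V hV with hv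
  set s' : Config M X r := ⟨fun c => ⟨(s.col c).act * (1 - v), (s.col c).ass, (s.col c).W,
    (s.col c).G, (s.col c).Z⟩, s.U * (1 - v)⟩ with hs'def
  have hTc : ∀ c, P.Tc C (s'.col c) = P.Tc C (s.col c) := fun c => rfl
  have hcase : ∀ x, (x ∈ V ∧ v x = 1 ∧ s.U x = 1 ∧ (∑ c, P.bc C (s.col c)) x < 3 * P.S / 4) ∨
      (x ∉ V ∧ v x = 0) := fun x => by
    by_cases h : x ∈ V
    · refine Or.inl ⟨h, by simp [hv, ind_mem _ h], ?_, (hVle h).2⟩
      rcases hs.U_01 x with h' | h'
      · exact absurd (hVle h).1 (by rw [h']; norm_num)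
      · exact h'
    · exact Or.inr ⟨h, by simp [hv, ind_notMem _ h]⟩
  have hback : ∀ c x, (s'.col c).act x = 1 → (s.col c).act x = 1 ∧ x ∉ V := fun c x hx => by
    rcases hcase x with ⟨_, h, _⟩ | ⟨hn, h⟩ <;> simp [hs'def, h] at hx
    exact ⟨hx, hn⟩
  have hwt : ∀ c, P.wt (s'.col c) ≤ P.wt (s.col c) := fun c => by
    refine ContinuousMap.le_def.2 fun x => ?_
    rw [wt_apply, wt_apply]
    rcases hcase x with ⟨_, h, _⟩ | ⟨_, h⟩ <;> simp [hs'def, h]
    rcases (hs.col c).act_01 x with ha | ha <;> simp [ha, ((hs.col c).W_mem x).1]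
  have hmono := fun c => pot_mono (C := C) (s := s.col c) (s' := s'.col c) rfl rfl (hwt c)
  have hdead : ∀ x, s'.dead x = s.dead x + s.U x * v x := fun x => by
    simp [Config.dead, hs'def]; ring
  have hbc : ∀ c x, v x = 0 → P.bc C (s'.col c) x = P.bc C (s.col c) x := fun c x h => by
    show (s.col c).act x * (1 - v x) * (P.Tc C (s.col c) x - 2 * P.b1)
      = (s.col c).act x * (P.Tc C (s.col c) x - 2 * P.b1)
    rw [h, sub_zero, mul_one]
  refine ⟨s', ⟨fun c => ⟨fun x => ?_, (hs.col c).ass_01, fun x hx => ?_, (hs.col c).W_mem,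
      (hs.col c).G_nonneg, (hs.col c).Z_nonneg,
      fun i => ((hs.col c).mat_nonneg i).trans ((hmono c).1 i), fun x hx => ?_⟩,
      fun x => ?_, fun x => ?_, fun c x => ?_⟩,
    fun c => rfl, fun c x hx => ⟨(hback c x hx).1, rfl, rfl⟩, fun x hx => ?_,
    Psi_le (fun c => (hmono c).2) fun x => ?_⟩
  · rcases hcase x with ⟨_, h, _⟩ | ⟨_, h⟩ <;> simp [hs'def, h]
    exact (hs.col c).act_01 x
  · exact (hs.col c).act_ass x (hback c x hx).1
  · rw [hTc]; exact (hs.col c).inv x (hback c x hx).1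
  · rcases hcase x with ⟨_, h, _⟩ | ⟨_, h⟩ <;> simp [hs'def, h]
    exact hs.U_01 x
  · rw [hdead]
    rcases hcase x with ⟨_, h, hU, _⟩ | ⟨_, h⟩
    · rw [h, hU]
      refine Or.inr ?_
      have h1 : 0 ≤ s.dead x := by rcases hs.dead_01 x with h' | h' <;> simp [h']
      have h0 : 0 ≤ ∑ c, (s.col c).ass x := Finset.sum_nonneg fun c _ => by
        rcases (hs.col c).ass_01 x with h' | h' <;> simp [h']
      have e : s.dead x = 1 - (∑ c, (s.col c).ass x) - 1 := by simp [Config.dead, hU]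
      linarith
    · simpa [h] using hs.dead_01 x
  · rcases hcase x with ⟨_, h, _⟩ | ⟨_, h⟩ <;> simp [hs'def, h]
    exact hs.act_le c x
  · rcases hcase x with ⟨_, h, _⟩ | ⟨hn, h⟩
    · simp [hs'def, h] at hx
    · have hU : s.U x = 1 := by simpa [hs'def, h] using hx
      by_contra hb
      refine hn (hVge ⟨hU.ge, le_trans (le_of_eq ?_) (le_of_lt (not_le.1 hb))⟩)
      rw [ContinuousMap.sum_apply, ContinuousMap.sum_apply,
        Finset.sum_congr rfl fun c _ => hbc c x h]
  · rw [hdead]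
    rcases hcase x with ⟨_, h, hU, hlt⟩ | ⟨_, h⟩
    · have h2 : P.S / 4 ≤ P.short C s x := le_trans (by linarith) (le_max_left _ _)
      have h3 : P.S ^ 2 / 16 ≤ P.short C s x * P.short C s x := by
        refine le_trans (le_of_eq ?_) (mul_self_le_mul_self (by linarith) h2)
        ring
      simp [hs'def, h, hU]
      linarith
    · have e : P.short C s' x = P.short C s x := by
        show max (P.S - (∑ c, P.bc C (s'.col c)) x) 0 = max (P.S - (∑ c, P.bc C (s.col c)) x) 0
        rw [ContinuousMap.sum_apply, ContinuousMap.sum_apply, Finset.sum_congr rfl fun c _ => hbc c x h]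
      rw [e]
      simp [hs'def, h]

/-- Assigning, deactivating, giving up and clipping lead to a good state. -/
theorem exists_improve (_hP : P.Ok C) {s : Config M X r} (hs : StateOk P C s) :
    ∃ s' : Config M X r, StateOk P C s' ∧ P.Good C s' ∧ P.Psi C s' ≤ P.Psi C s := by
  obtain ⟨s1, hs1, hG, h1⟩ := exists_clipped hs
  obtain ⟨s2, hs2, hG2, h2, hhigh⟩ := exists_assign hs1
  obtain ⟨s3, hs3, hG3, hk3, h3⟩ := exists_drop hs2
  obtain ⟨s4, hs4, hG4, hk4, hhalf, h4⟩ := exists_give_up hs3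
  refine ⟨s4, hs4, ⟨fun c x hx => ?_, fun c x hx => ?_, fun c i => ?_, hhalf⟩,
    h4.trans (h3.trans (h2.trans h1))⟩
  · obtain ⟨hx3, e4, -⟩ := hk4 c x hx
    obtain ⟨hx2, e3, -⟩ := hk3 c x hx3
    rw [e4, e3]
    exact hhigh c x hx2
  · obtain ⟨hx3, -, e4⟩ := hk4 c x hx
    rw [e4]
    exact (hk3 c x hx3).2.2
  · rw [hG4, hG3, hG2]
    exact hG c i

end Vale.Agent.P078.Quad
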