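import Vale.Agent.P078.Quad.Cov.Contr

/-! Second moments of the weighted smoothed noise: their limits, the complement of the projection
as a contraction below the identity, and the residual of the budget. -/

namespace Vale.Agent.P078.Quad

set_option linter.unusedSectionVars false

open Filter Topology ComplexOrder
open Vale.Agent.P078.Tracial Vale.Agent.P078.AllMasa

variable {M X : Type} [CStarAlgebra M] [PartialOrder M] [StarOrderedRing M]
variable [TopologicalSpace X] [CompactSpace X] [T2Space X] [TotallyDisconnectedSpace X]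
variable {r : ℕ} {d : WData X r}

namespace WData

theorem norm_PW_le (hd : d.OkW) (m : ℕ) (u : Fin r → C(X, ℝ)) :
    ‖d.PW m u‖ ≤ 2 ^ m * ‖u‖ := by
  have hB := hd.base.B_pos.le
  have hK : ∀ c (f : C(X, ℝ)) x, |(d.F c).K f x| ≤ d.B * ‖f‖ := fun c f x => by
    have hpos : ∀ g : C(X, ℝ), 0 ≤ g → 0 ≤ (d.F c).K g x := fun g hg => by
      simpa using ContinuousMap.le_def.1 ((d.F c).K_nonneg (hd.base.symm c).g_nonneg hg) x
    have h1 := hpos (‖f‖ • 1 + f) (ContinuousMap.le_def.2 fun y => by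
      have := abs_le.1 (f.norm_coe_le_norm y)
      simp; linarith)
    have h2 := hpos (‖f‖ • 1 + (-1 : ℝ) • f) (ContinuousMap.le_def.2 fun y => by
      have := abs_le.1 (f.norm_coe_le_norm y)
      simp; linarith)
    simp only [Fam.K_add, Fam.K_smul, ContinuousMap.add_apply, ContinuousMap.smul_apply,
      smul_eq_mul] at h1 h2
    have h3 := mul_le_mul_of_nonneg_left (hd.base.K_le c x) (norm_nonneg f)
    exact abs_le.2 ⟨by linarith, by linarith⟩
  have hact : ∀ c (f : C(X, ℝ)), ‖d.act c * f‖ ≤ ‖f‖ := fun c f =>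
    (ContinuousMap.norm_le _ (norm_nonneg f)).2 fun x => by
      rcases hd.base.act_01 c x with h | h <;> simp [h]
      simpa using f.norm_coe_le_norm x
  have hLc : ∀ c (f : C(X, ℝ)), ‖d.toLData.Lc c f‖ ≤ 2 * d.B * ‖f‖ := fun c f => by
    rw [LData.Lc_apply]
    refine (hact c _).trans ((ContinuousMap.norm_le _ (by positivity)).2 fun x => ?_)
    have h1 := hK c (d.act c * f) x
    have h2 := (d.act c * f).norm_coe_le_norm x
    have h3 : |d.e c x| ≤ d.B := by
      have := ContinuousMap.le_def.1 (hd.base.e_nonneg c) x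
      rw [abs_of_nonneg (by simpa using this)]
      exact hd.base.e_le c x
    have h4 := hact c f
    simp only [ContinuousMap.sub_apply, ContinuousMap.mul_apply, Real.norm_eq_abs] at h1 h2 ⊢
    refine (abs_sub _ _).trans ?_
    rw [abs_mul (d.e c x)]
    nlinarith [mul_le_mul h3 h2 (abs_nonneg _) hB]
  have hmul : ∀ (g : C(X, ℝ)), (∀ x, |g x| ≤ d.B) → ∀ f : C(X, ℝ), ‖g * f‖ ≤ d.B * ‖f‖ :=
    fun g hg f => (ContinuousMap.norm_le _ (by positivity)).2 fun x => by
      rw [ContinuousMap.mul_apply, norm_mul]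
      exact mul_le_mul (hg x) (f.norm_coe_le_norm x) (norm_nonneg _) hB
  have h3 : ∀ (u v : C(X, ℝ)), (∀ x, |u x| ≤ d.B) → (∀ x, |v x| ≤ d.B) → ∀ c f,
      ‖u * d.toLData.Lc c (v * f)‖ ≤ 2 * d.B ^ 3 * ‖f‖ := fun u v hu hv c f => by
    refine (hmul u hu _).trans ?_
    have := mul_le_mul_of_nonneg_left ((hLc c (v * f)).trans
      (mul_le_mul_of_nonneg_left (hmul v hv f) (by positivity))) hB
    linarith
  have hLw : ∀ c f, ‖d.Lw c f‖ ≤ 2 * d.B ^ 3 * ‖f‖ := fun c f => by
    rw [Lw_apply]; exact h3 _ _ (abs_n_le hd c) (abs_μ_le hd c) c f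
  have hLt : ∀ c f, ‖d.Lt c f‖ ≤ 2 * d.B ^ 3 * ‖f‖ := fun c f => by
    rw [Lt_apply]; exact h3 _ _ (abs_μ_le hd c) (abs_n_le hd c) c f
  have hstep : ∀ w : Fin r → C(X, ℝ), ‖d.stepW w‖ ≤ 2 * ‖w‖ := fun w => by
    have hL : ‖d.LW w‖ ≤ 2 * d.B ^ 3 * r * ‖w‖ := by
      rw [LW_apply]
      refine (norm_sum_le _ _).trans ((Finset.sum_le_sum fun c _ => (hLw c _).trans
        (mul_le_mul_of_nonneg_left (norm_le_pi_norm w c) (by positivity))).trans_eq ?_)
      simp; ring
    refine (pi_norm_le_iff_of_nonneg (by positivity)).2 fun c => ?_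
    rw [stepW_apply]
    refine (norm_sub_le _ _).trans ?_
    have h1 := norm_le_pi_norm w c
    have h2 : ‖d.TW⁻¹ • d.Lt c (d.LW w)‖ ≤ ‖w‖ := by
      rw [norm_smul, norm_inv, Real.norm_of_nonneg (TW_pos hd).le,
        inv_mul_le_iff₀ (TW_pos hd)]
      refine (hLt c _).trans ((mul_le_mul_of_nonneg_left hL (by positivity)).trans ?_)
      rw [TW]
      nlinarith [mul_nonneg (sq_nonneg (2 * d.B ^ 3)) (norm_nonneg w)]
    linarith
  rw [PW, LinearMap.comp_apply]
  induction m with
  | zero =>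
    rw [pow_zero, pow_zero, Module.End.one_apply, one_mul]
    refine (pi_norm_le_iff_of_nonneg (norm_nonneg u)).2 fun c => ?_
    exact (hact c _).trans (norm_le_pi_norm u c)
  | succ n ih =>
    rw [pow_succ', Module.End.mul_apply, pow_succ']
    refine (hstep _).trans ?_
    rw [mul_assoc]
    linarith

theorem PW_supp (hd : d.OkW) (m : ℕ) (u : Fin r → C(X, ℝ)) (c : Fin r) :
    d.PW m u c * d.act c = d.PW m u c := by
  rw [mul_comm]; exact act_PW hd m u c

variable (C : SCore M X) (hF : ∀ c, (d.F c).FromNrm C)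

theorem coe_HW_cell (hd : d.OkW) (c : Fin r) (m : ℕ) (π : DiscreteQuotient X) (j : π) :
    (d.HW C hF c m : Module.End ℝ C(X, ℝ)) (cellFn π j)
      = d.act c * cellFn π j - d.PW (2 * m) (unitVec π c j) c := by
  simp [HW, RW, coe_rowW_apply hd, unitVec]

theorem act_mul_RW (hd : d.OkW) (c : Fin r) (m : ℕ) :
    C.mulS (d.act c) * d.RW C hF c m = d.RW C hF c m := by
  refine Subtype.ext (LinearMap.ext fun f => ?_)
  simp [RW, coe_rowW_apply hd, act_PW hd]

theorem act_mul_HW (hd : d.OkW) (c : Fin r) (m : ℕ) :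
    C.mulS (d.act c) * d.HW C hF c m = d.HW C hF c m := by
  have h := act_mul_RW C hF hd c (2 * m)
  refine Subtype.ext (LinearMap.ext fun f => ?_)
  have h' := LinearMap.congr_fun (congrArg Subtype.val h) f
  simp only [Subalgebra.coe_mul, SCore.coe_mulS, Module.End.mul_apply, mulC_apply] at h'
  simp only [HW, Subalgebra.coe_mul, Subalgebra.coe_sub, SCore.coe_mulS, Module.End.mul_apply,
    LinearMap.sub_apply, mulC_apply]
  rw [mul_sub, h', ← mul_assoc, LData.act_mul_act hd.base]

/-- The second moments of the smoothed noise of one colour, seen through two operators. -/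
theorem tendsto_two_rows (hd : d.OkW) (W V : C.ops) (c : Fin r) (m : ℕ) {G : M}
    (hG : IsSelfAdjoint G) (a : M) :
    Tendsto (fun π : DiscreteQuotient X => ∑ c', ∑ j : π,
      C.tr (a * (C.r ((W : Module.End ℝ C(X, ℝ)) (d.PW m (unitVec π c' j) c)) * G
        * C.r ((V : Module.End ℝ C(X, ℝ)) (d.PW m (unitVec π c' j) c))) * star a)) atBot
      (𝓝 (C.form G a (W * C.mulS (d.act c)) (V * d.RW C hF c (2 * m)))) := by
  rw [← (ipR_rowW (hF := hF) hd hG a W V c m).1, LData.ipR_apply]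
  refine (tendsto_finsetSum _ fun c' _ => C.tendsto_form G a (d.rowW C hF W c m c')
    (d.rowW C hF V c m c')).congr fun π => ?_
  simp only [SCore.cov_apply, coe_rowW_apply hd]
  rfl

theorem form_RW_symm (hd : d.OkW) (W V : C.ops) (c : Fin r) (m : ℕ) {G : M}
    (hG : IsSelfAdjoint G) (a : M) :
    C.form G a (W * C.mulS (d.act c)) (V * d.RW C hF c (2 * m))
      = C.form G a (W * d.RW C hF c (2 * m)) (V * C.mulS (d.act c)) := by
  rw [← (ipR_rowW (hF := hF) hd hG a W V c m).1, (ipR_rowW (hF := hF) hd hG a W V c m).2]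

/-- The complement of the smoothed projection is a contraction below itself. -/
theorem form_HW_le (hd : d.OkW) (W : C.ops) (c : Fin r) (m : ℕ) {G : M} (hG : 0 ≤ G) (a : M) :
    C.form G a (W * d.HW C hF c m) (W * d.HW C hF c m)
      ≤ C.form G a (W * C.mulS (d.act c)) (W * d.HW C hF c m) := by
  exact (form_HW_key hd W c m hG a).1

theorem form_HW_le_act (hd : d.OkW) (W : C.ops) (c : Fin r) (m : ℕ) {G : M} (hG : 0 ≤ G)
    (a : M) :
    C.form G a (W * d.HW C hF c m) (W * d.HW C hF c m)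
      ≤ C.form G a (W * C.mulS (d.act c)) (W * C.mulS (d.act c)) := by
  exact (form_HW_key hd W c m hG a).1.trans (form_HW_key hd W c m hG a).2

include hF in
/-- The linearised budget of the smoothed noise is small in mean square. -/
theorem eventually_residual_le (hd : d.OkW) {m : ℕ} (hm : 0 < m) {ε : ℝ} (hε : 0 < ε) :
    ∀ᶠ π : DiscreteQuotient X in atBot,
      ∑ c, ∑ j : π, C.ig (d.LW (d.PW m (unitVec π c j)) * d.LW (d.PW m (unitVec π c j)))
        ≤ d.TW / m * C.ig d.U + ε := by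
  have hlim : Tendsto (fun π : DiscreteQuotient X =>
      ∑ c, ∑ j : π, C.ig (d.LW (d.PW m (unitVec π c j)) * d.LW (d.PW m (unitVec π c j)))) atBot
      (𝓝 (∑ c, C.form (C.r 1) 1 (d.budW C hF m * d.lwS C hF c)
        (d.budW C hF m * d.lwS C hF c))) := by
    refine (tendsto_finsetSum _ fun c _ => C.tendsto_form (C.r 1) 1 (d.budW C hF m * d.lwS C hF c)
      (d.budW C hF m * d.lwS C hF c)).congr fun π => ?_
    refine Finset.sum_congr rfl fun c _ => ?_
    rw [C.cov_r_one]
    refine Finset.sum_congr rfl fun j _ => ?_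
    have h : d.LW (d.PW m (unitVec π c j)) =
        (d.budW C hF m : Module.End ℝ C(X, ℝ)) (d.Lw c (cellFn π j)) := by
      have h1 : d.LW (unitVec π c j) = d.Lw c (cellFn π j) := by
        rw [LW_apply, Finset.sum_eq_single c (fun b _ h => by simp [unitVec, Pi.single_eq_of_ne h])
          (by simp)]
        simp [unitVec]
      rw [PW, LinearMap.comp_apply, ← budW_LW (C := C) (hF := hF) hd, LW_cut hd, h1]
    simp [h, coe_lwS_apply]
  exact hlim.eventually_le_const (lt_add_of_le_of_pos (budget_le hd hm) hε)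

/-- A crude bound for any positive linear map, used for tails of kernels. -/
theorem exists_crude_le (hd : d.OkW) (m : ℕ) (c : Fin r) :
    ∃ Cst : ℝ, 0 ≤ Cst ∧ ∀ Q : C(X, ℝ) →ₗ[ℝ] C(X, ℝ), (∀ f, 0 ≤ f → 0 ≤ Q f) →
      ∀ π₀ : DiscreteQuotient X, ∀ᶠ π : DiscreteQuotient X in atBot,
        ∑ c', ∑ j : π, C.ig (Q (d.PW m (unitVec π c' j) c) * Q (d.PW m (unitVec π c' j) c))
          ≤ Cst * ∑ i : π₀, C.ig (Q (cellFn π₀ i) * Q (cellFn π₀ i)) := by
  choose K hK hb using fun c' =>
    exists_crude_of_mem_wtSpan C (rowOp_mem_wtSpan (d := d) c m c')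
  refine ⟨∑ c', K c', Finset.sum_nonneg fun c' _ => hK c', fun Q hQ π₀ => ?_⟩
  filter_upwards [eventually_all.2 fun c' => hb c' Q hQ π₀] with π hπ
  rw [Finset.sum_mul]
  refine Finset.sum_le_sum fun c' _ => le_trans (le_of_eq ?_) (hπ c')
  rfl

end WData

end Vale.Agent.P078.Quad
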