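import Vale.Agent.P078.AllMasa.Step.Alg
import Vale.Agent.P078.AllMasa.Cov.Form

/-! The kernel of a resolvent on fine cells: it has no diagonal, and its mean square is bounded by
the relative slack at either end. -/

namespace Vale.Agent.P078.Quad

set_option linter.unusedSectionVars false

open Filter Topology ComplexOrder
open Vale.Agent.P078.Tracial Vale.Agent.P078.AllMasa

variable {M X : Type} [CStarAlgebra M] [PartialOrder M] [StarOrderedRing M]
variable [TopologicalSpace X] [CompactSpace X] [T2Space X] [TotallyDisconnectedSpace X]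

/-- Schwarz inequality for the expectation. -/
lemma Er_sq_le' (C : SCore M X) {A u v w : M} (hA : 0 ≤ A) (h1 : star u * A * v = w) (h2 : star v * A * u = w)
    (x : X) : C.Er w x ^ 2 ≤ C.Er (star u * A * u) x * C.Er (star v * A * v) x := by
  have key : ∀ t : ℝ, 0 ≤ C.Er (star u * A * u) x * (t * t) + (2 * C.Er w x) * t
      + C.Er (star v * A * v) x := fun t => by
    have h := ContinuousMap.le_def.1 (C.Er_nonneg (star_left_conjugate_nonneg hA (t • u + v))) x
    have e : star (t • u + v) * A * (t • u + v) =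
        (t * t) • (star u * A * u) + t • w + t • w + star v * A * v := by
      rw [star_add, star_smul, star_trivial]
      simp only [add_mul, mul_add, smul_mul_assoc, mul_smul_comm, h1, h2]
      module
    rw [e, C.Er_add, C.Er_add, C.Er_add, C.Er_smul, C.Er_smul] at h
    simp at h ⊢
    linarith
  have := discrim_le_zero key
  rw [discrim] at this
  linarith

/-- The square of the map is paid through the inverse at the point of evaluation. -/
theorem K_sq_le_left (C : SCore M X) {G : Mˣ} (hG : 0 ≤ (G : M)) {z : M} (hz : IsSelfAdjoint z) (f : C(X, ℝ))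
    (x : X) : C.K z f x ^ 2 ≤ C.Er (z * (↑G⁻¹ : M) * z) x
      * C.Er (z * C.r f * (G : M) * C.r f * z) x := by
  have hGsa := IsSelfAdjoint.of_nonneg hG
  have hGi : (0 : M) ≤ (↑G⁻¹ : M) := CFC.inv_nonneg_of_nonneg G hG
  have := Er_sq_le' C (u := z) (v := (G : M) * C.r f * z) (w := z * C.r f * z) hGi
    (by simp [hz.star_eq, ← mul_assoc])
    (by simp [hz.star_eq, star_mul, hGsa.star_eq, C.star_r, mul_assoc]) x
  simpa [SCore.K, hz.star_eq, hGsa.star_eq, C.star_r, star_mul, mul_assoc] using this

/-- The square of the map is paid through the inverse at the cell. -/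
theorem K_sq_le_right (C : SCore M X) {G : Mˣ} (hG : 0 ≤ (G : M)) {z : M} (hz : IsSelfAdjoint z) (f : C(X, ℝ))
    (x : X) : C.K z f x ^ 2 ≤ C.Er (G : M) x
      * C.Er (z * C.r f * (z * (↑G⁻¹ : M) * z) * C.r f * z) x := by
  have hGi : (0 : M) ≤ (↑G⁻¹ : M) := CFC.inv_nonneg_of_nonneg G hG
  have hGisa := IsSelfAdjoint.of_nonneg hGi
  have := Er_sq_le' C (u := (1 : M)) (v := (↑G⁻¹ : M) * (z * C.r f * z))
    (w := z * C.r f * z) hG (by simp [← mul_assoc])
    (by simp [hz.star_eq, star_mul, hGisa.star_eq, C.star_r, mul_assoc]) x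
  simpa [SCore.K, hz.star_eq, hGisa.star_eq, C.star_r, star_mul, mul_assoc] using this

/-- Conjugations along cells tend to the expectation inside a weighted state. -/
theorem tendsto_cells (C : SCore M X) {z A : M} (hz : IsSelfAdjoint z) (hA : IsSelfAdjoint A) (g w : C(X, ℝ)) :
    Tendsto (fun π : DiscreteQuotient X => ∑ j : π,
      C.ig (w * C.Er (z * C.r (g * cellFn π j) * A * C.r (g * cellFn π j) * z)))
      atBot (𝓝 (C.ig (w * C.K z (g * g * C.Er A)))) := by
  set a := C.r w * z * C.r g
  set b := C.r g * z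
  have hsa : ∀ f : C(X, ℝ), IsSelfAdjoint (z * C.r f * A * C.r f * z) := fun f => by
    have := (hA.conjugate_self (C.r_isSelfAdjoint f)).conjugate_self hz
    simpa [mul_assoc] using this
  have e1 : ∀ π : DiscreteQuotient X, ∑ j : π,
      C.ig (w * C.Er (z * C.r (g * cellFn π j) * A * C.r (g * cellFn π j) * z))
      = (C.φ (a * (∑ j : π, C.ι (toC (cellFn π j)) * A * C.ι (toC (cellFn π j))) * b)).re := by
    intro π
    show _ = C.tr _
    simp only [Finset.mul_sum, Finset.sum_mul, C.tr_sum]
    refine Finset.sum_congr rfl fun j _ => ?_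
    rw [← C.tr_r_mul w (hsa _)]
    congr 1
    simp only [a, b, C.r_mul, mul_assoc]
    rw [← mul_assoc (C.r g) (C.r (cellFn π j)) z, C.r_comm g (cellFn π j)]
    simp only [mul_assoc, SCore.r]
  have e2 : C.ig (w * C.K z (g * g * C.Er A)) = (C.φ (a * C.ι (C.E A) * b)).re := by
    rw [C.E_eq_toC_Er hA, SCore.K, hz.star_eq,
      ← C.tr_r_mul w ((C.r_isSelfAdjoint _).conjugate_self hz)]
    show C.tr _ = C.tr _
    congr 1
    show C.r w * (z * C.r (g * g * C.Er A) * z) = a * C.r (C.Er A) * b
    rw [show g * g * C.Er A = g * C.Er A * g by ring]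
    simp only [a, b, C.r_mul, mul_assoc]
  simp only [e1, e2]
  exact (Complex.continuous_re.tendsto _).comp (C.pinch_tendsto a A b)

/-- A clopen indicator is constant on fine cells. -/
theorem eventually_const_on_cells {cl : C(X, ℝ)} (h01 : ∀ x, cl x = 0 ∨ cl x = 1) :
    ∀ᶠ π : DiscreteQuotient X in atBot, ∀ x y, π.proj x = π.proj y → cl x = cl y := by
  have hU : IsClopen {x | cl x = 1} := by
    refine ⟨isClosed_eq (map_continuous cl) continuous_const, ?_⟩
    have : {x | cl x = 1} = {x | (1 / 2 : ℝ) < cl x} := by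
      ext x; rcases h01 x with h | h <;> simp [h]; norm_num
    rw [this]
    exact isOpen_lt continuous_const (map_continuous cl)
  filter_upwards [eventually_le_atBot (DiscreteQuotient.ofIsClopen hU)] with π hπ x y hxy
  have h : (DiscreteQuotient.ofIsClopen hU).proj x = (DiscreteQuotient.ofIsClopen hU).proj y := by
    rw [← DiscreteQuotient.ofLE_proj hπ x, ← DiscreteQuotient.ofLE_proj hπ y, hxy]
  have h' : x ∈ {x | cl x = 1} ↔ y ∈ {x | cl x = 1} := Quotient.exact h
  simp only [Set.mem_ofPred_eq] at h'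
  rcases h01 x with a | a <;> rcases h01 y with b | b <;> simp_all

/-- The relative slack: the diagonal of `z G⁻¹ z` for the part `z` of `G` without diagonal. -/
noncomputable def Th (C : SCore M X) (G : Mˣ) : C(X, ℝ) :=
  C.Er (C.off (G : M) * (↑G⁻¹ : M) * C.off (G : M))

theorem Th_nonneg (C : SCore M X) {G : Mˣ} (hG : 0 ≤ (G : M)) : 0 ≤ Th C G := by
  refine C.Er_nonneg ?_
  exact (C.off_isSelfAdjoint (IsSelfAdjoint.of_nonneg hG)).conjugate_nonneg
    (CFC.inv_nonneg_of_nonneg G hG)

/-- The identity of the relative slack. -/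
theorem Th_eq (C : SCore M X) {G : Mˣ} (hG : 0 ≤ (G : M)) (x : X) :
    Th C G x = C.Er (G : M) x * (C.Er (G : M) x * C.Er (↑G⁻¹ : M) x - 1) := by
  have e : C.off (G : M) * (↑G⁻¹ : M) * C.off (G : M) = (G : M) - C.r (C.Er (G : M))
      - C.r (C.Er (G : M)) + C.r (C.Er (G : M)) * (↑G⁻¹ : M) * C.r (C.Er (G : M)) := by
    simp only [SCore.off, sub_mul, mul_sub, Units.mul_inv, Units.inv_mul, mul_assoc, mul_one,
      one_mul]
    abel
  unfold Th
  rw [e, C.Er_add, C.Er_sub, C.Er_sub, C.Er_r, C.Er_bimod]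
  simp only [ContinuousMap.add_apply, ContinuousMap.sub_apply, ContinuousMap.mul_apply]
  ring

/-- A kernel without diagonal disappears on the diagonal of fine cells. -/
theorem tendsto_diag_K (C : SCore M X) {z : M} (hz : IsSelfAdjoint z) (hE : C.Er z = 0)
    (f h : C(X, ℝ)) :
    Tendsto (fun π : DiscreteQuotient X =>
      ∑ j : π, C.ig (f * (cellFn π j * C.K z (h * cellFn π j)))) atBot (𝓝 0) := by
  set a := C.r f
  set b := C.r h * z
  have e1 : ∀ π : DiscreteQuotient X, ∑ j : π, C.ig (f * (cellFn π j * C.K z (h * cellFn π j)))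
      = (C.φ (a * (∑ j : π, C.ι (toC (cellFn π j)) * z * C.ι (toC (cellFn π j))) * b)).re := by
    intro π
    show _ = C.tr _
    simp only [Finset.mul_sum, Finset.sum_mul, C.tr_sum]
    refine Finset.sum_congr rfl fun j _ => ?_
    rw [← mul_assoc, SCore.K, hz.star_eq, ← C.tr_r_mul _ ((C.r_isSelfAdjoint _).conjugate_self hz)]
    congr 1
    simp only [a, b, C.r_mul, mul_assoc]
    rw [← mul_assoc (C.r h) (C.r (cellFn π j)) z, C.r_comm h (cellFn π j)]
    simp only [mul_assoc, SCore.r]
  simp only [e1]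
  have h := (Complex.continuous_re.tendsto _).comp (C.pinch_tendsto a z b)
  rw [C.E_eq_toC_Er hz, hE, toC_zero, map_zero, mul_zero, zero_mul, map_zero,
    Complex.zero_re] at h
  exact h

theorem eventually_sq_K_le_left (C : SCore M X) {G : Mˣ} (hG : 0 ≤ (G : M)) {f : C(X, ℝ)}
    (hf : 0 ≤ f) (h : C(X, ℝ)) {ε : ℝ} (hε : 0 < ε) :
    ∀ᶠ π : DiscreteQuotient X in atBot,
      ∑ j : π, C.ig (f * (C.K (C.off (G : M)) (h * cellFn π j)
          * C.K (C.off (G : M)) (h * cellFn π j)))
        ≤ C.ig (f * Th C G * C.K (C.off (G : M)) (h * h * C.Er (G : M))) + ε := by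
  have hz := C.off_isSelfAdjoint (IsSelfAdjoint.of_nonneg hG)
  have ht := tendsto_cells C hz (IsSelfAdjoint.of_nonneg hG) h (f * Th C G)
  filter_upwards [ht.eventually_le_const (lt_add_of_pos_right _ hε)] with π hπ
  refine le_trans (Finset.sum_le_sum fun j _ => C.ig_mono (ContinuousMap.le_def.2 fun x => ?_)) hπ
  simp only [ContinuousMap.mul_apply]
  rw [mul_assoc (f x), ← pow_two]
  exact mul_le_mul_of_nonneg_left (K_sq_le_left C hG hz _ x) (hf x)

theorem eventually_sq_K_le_right (C : SCore M X) {G : Mˣ} (hG : 0 ≤ (G : M)) {f : C(X, ℝ)}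
    (hf : 0 ≤ f) (h : C(X, ℝ)) {ε : ℝ} (hε : 0 < ε) :
    ∀ᶠ π : DiscreteQuotient X in atBot,
      ∑ j : π, C.ig (f * (C.K (C.off (G : M)) (h * cellFn π j)
          * C.K (C.off (G : M)) (h * cellFn π j)))
        ≤ C.ig (f * C.Er (G : M) * C.K (C.off (G : M)) (h * h * Th C G)) + ε := by
  have hz := C.off_isSelfAdjoint (IsSelfAdjoint.of_nonneg hG)
  have hT : IsSelfAdjoint (C.off (G : M) * (↑G⁻¹ : M) * C.off (G : M)) :=
    (IsSelfAdjoint.of_nonneg (CFC.inv_nonneg_of_nonneg G hG)).conjugate_self hz
  have ht := tendsto_cells C hz hT h (f * C.Er (G : M))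
  filter_upwards [ht.eventually_le_const (lt_add_of_pos_right _ hε)] with π hπ
  refine le_trans (Finset.sum_le_sum fun j _ => C.ig_mono (ContinuousMap.le_def.2 fun x => ?_)) hπ
  simp only [ContinuousMap.mul_apply]
  rw [mul_assoc (f x), ← pow_two]
  exact mul_le_mul_of_nonneg_left (K_sq_le_right C hG hz _ x) (hf x)

/-- On classes of the relative slack the smaller end is paid. -/
theorem eventually_sq_K_le_min (C : SCore M X) {G : Mˣ} (hG : 0 ≤ (G : M)) {ι : Type} [Fintype ι]
    (cl : ι → C(X, ℝ)) (hcl : ∀ i x, cl i x = 0 ∨ cl i x = 1) (hsum : ∑ i, cl i = 1) (A : ι → ℝ)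
    (hA : ∀ i x, cl i x * Th C G x ≤ A i * (cl i x * C.Er (G : M) x)) {f : C(X, ℝ)}
    (hf : 0 ≤ f) (h : C(X, ℝ)) {ε : ℝ} (hε : 0 < ε) :
    ∀ᶠ π : DiscreteQuotient X in atBot,
      ∑ j : π, C.ig (f * (C.K (C.off (G : M)) (h * cellFn π j)
          * C.K (C.off (G : M)) (h * cellFn π j)))
        ≤ (∑ i, ∑ k, min (A i) (A k) * C.ig (f * cl i * C.Er (G : M)
            * C.K (C.off (G : M)) (cl k * (h * h * C.Er (G : M))))) + ε := by
  set z := C.off (G : M)
  set g := C.Er (G : M)
  have hg : 0 ≤ g := C.Er_nonneg hG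
  have hcl0 : ∀ i x, 0 ≤ cl i x := fun i x => by rcases hcl i x with a | a <;> simp [a]
  have hfi : ∀ i, 0 ≤ f * cl i := fun i =>
    ContinuousMap.le_def.2 fun x => mul_nonneg (ContinuousMap.le_def.1 hf x) (hcl0 i x)
  set ε' := ε / ((Fintype.card ι : ℝ) ^ 2 + 1) with hε'
  have hε'0 : 0 < ε' := by positivity
  have sqk : ∀ k, cl k * h * (cl k * h) = cl k * (h * h) := fun k => by
    ext x
    rcases hcl k x with a | a <;> simp [a]
  have hev : ∀ i k, ∀ᶠ π : DiscreteQuotient X in atBot,
      ∑ j : π, C.ig (f * cl i * (C.K z (cl k * h * cellFn π j) * C.K z (cl k * h * cellFn π j)))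
        ≤ min (A i) (A k) * C.ig (f * cl i * g * C.K z (cl k * (h * h * g))) + ε' := by
    intro i k
    have hhg : 0 ≤ cl k * (h * h * g) := ContinuousMap.le_def.2 fun x =>
      mul_nonneg (hcl0 k x) (mul_nonneg (mul_self_nonneg (h x)) (ContinuousMap.le_def.1 hg x))
    rcases le_total (A i) (A k) with hik | hik
    · filter_upwards [eventually_sq_K_le_left C hG (hfi i) (cl k * h) hε'0] with π hπ
      refine hπ.trans (add_le_add ?_ le_rfl)
      rw [sqk k, mul_assoc (cl k), min_eq_left hik, ← C.ig_smul]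
      refine C.ig_mono (ContinuousMap.le_def.2 fun x => ?_)
      simp only [ContinuousMap.mul_apply, ContinuousMap.smul_apply, smul_eq_mul]
      have := mul_le_mul_of_nonneg_left (hA i x)
        (mul_nonneg (ContinuousMap.le_def.1 hf x) (ContinuousMap.le_def.1 (StepAux.K_nonneg (C := C) z hhg) x))
      linarith
    · filter_upwards [eventually_sq_K_le_right C hG (hfi i) (cl k * h) hε'0] with π hπ
      refine hπ.trans (add_le_add ?_ le_rfl)
      rw [sqk k, mul_assoc (cl k), min_eq_right hik, ← C.ig_smul]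
      have hKm : C.K z (cl k * (h * h * Th C G)) ≤ A k • C.K z (cl k * (h * h * g)) := by
        rw [← StepAux.K_smul]
        refine StepAux.apply_mono (StepAux.Klin C z) (fun a ha => StepAux.K_nonneg (C := C) z ha)
          (ContinuousMap.le_def.2 fun x => ?_)
        simp only [ContinuousMap.mul_apply, ContinuousMap.smul_apply, smul_eq_mul]
        have := mul_le_mul_of_nonneg_left (hA k x) (mul_self_nonneg (h x))
        linarith
      refine C.ig_mono (ContinuousMap.le_def.2 fun x => ?_)
      have hx := ContinuousMap.le_def.1 hKm x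
      simp only [ContinuousMap.mul_apply, ContinuousMap.smul_apply, smul_eq_mul] at hx ⊢
      have := mul_le_mul_of_nonneg_left hx
        (mul_nonneg (mul_nonneg (ContinuousMap.le_def.1 hf x) (hcl0 i x)) (ContinuousMap.le_def.1 hg x))
      linarith
  filter_upwards [eventually_all.2 fun i => eventually_all.2 fun k => hev i k,
    eventually_all.2 fun i => eventually_const_on_cells (hcl i)] with π hπ hc
  have key : ∀ j : π, f * (C.K z (h * cellFn π j) * C.K z (h * cellFn π j)) =
      ∑ i, ∑ k, f * cl i * (C.K z (cl k * h * cellFn π j) * C.K z (cl k * h * cellFn π j)) := by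
    intro j
    obtain ⟨y, rfl⟩ := π.proj_surjective j
    have hk : ∀ k, cl k * h * cellFn π (π.proj y) = cl k y • (h * cellFn π (π.proj y)) := by
      intro k
      ext x
      classical
      simp only [ContinuousMap.mul_apply, ContinuousMap.smul_apply, smul_eq_mul, cellFn_apply]
      split_ifs with hx
      · rw [hc k x y hx]; ring
      · simp
    have hid : ∀ k, cl k y * cl k y = cl k y := fun k => by
      rcases hcl k y with a | a <;> simp [a]
    have hs : ∀ x, ∑ i, cl i x = 1 := fun x => by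
      simpa using congrArg (fun u : C(X, ℝ) => u x) hsum
    simp only [hk, StepAux.K_smul]
    ext x
    simp only [ContinuousMap.sum_apply, ContinuousMap.mul_apply, ContinuousMap.smul_apply,
      smul_eq_mul]
    rw [← Finset.sum_comm]
    calc f x * (C.K z (h * cellFn π (π.proj y)) x * C.K z (h * cellFn π (π.proj y)) x)
        = (∑ k, cl k y) * ((∑ i, cl i x) *
            (f x * (C.K z (h * cellFn π (π.proj y)) x * C.K z (h * cellFn π (π.proj y)) x))) := by
          rw [hs, hs]; ring
      _ = _ := by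
          simp only [Finset.sum_mul]
          simp only [Finset.mul_sum]
          refine Finset.sum_congr rfl fun k _ => Finset.sum_congr rfl fun i _ => ?_
          linear_combination
            -(f x * cl i x * C.K z (h * cellFn π (π.proj y)) x ^ 2) * hid k
  calc _ = ∑ j : π, ∑ i, ∑ k,
        C.ig (f * cl i * (C.K z (cl k * h * cellFn π j) * C.K z (cl k * h * cellFn π j))) := by
        simp only [key, C.ig_sum]
    _ = ∑ i, ∑ k, ∑ j : π,
        C.ig (f * cl i * (C.K z (cl k * h * cellFn π j) * C.K z (cl k * h * cellFn π j))) := by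
        rw [Finset.sum_comm]
        exact Finset.sum_congr rfl fun i _ => Finset.sum_comm
    _ ≤ ∑ i, ∑ k, (min (A i) (A k) * C.ig (f * cl i * g * C.K z (cl k * (h * h * g))) + ε') :=
        Finset.sum_le_sum fun i _ => Finset.sum_le_sum fun k _ => hπ i k
    _ ≤ _ := by
        simp only [Finset.sum_add_distrib, Finset.sum_const, Finset.card_univ, nsmul_eq_mul]
        gcongr
        rw [← mul_assoc, ← pow_two, hε', ← mul_div_assoc, div_le_iff₀ (by positivity)]
        nlinarith

end Vale.Agent.P078.Quad
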