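import Vale.Agent.P078.Quad.Cov
import Vale.Agent.P078.Quad.Kernel
import Vale.Agent.P078.AllMasa.Family
import Vale.Agent.P078.AllMasa.Step.Alg

/-! The cross term of the noise, by symmetry of the rows and one Cauchy-Schwarz inequality. -/

namespace Vale.Agent.P078.Quad

set_option linter.unusedSectionVars false

open Filter Topology ComplexOrder
open Vale.Agent.P078.Tracial Vale.Agent.P078.AllMasa

variable {M X : Type} [CStarAlgebra M] [PartialOrder M] [StarOrderedRing M]
variable [TopologicalSpace X] [CompactSpace X] [T2Space X] [TotallyDisconnectedSpace X]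
variable {r : ℕ} {d : WData X r}

/-- Weighted Cauchy-Schwarz, pointwise. -/
theorem abs_mul_le_weighted {φ a b w iw ω : ℝ} (hω : 0 < ω) (hw : 0 < w) (hiw : iw * w = 1) :
    |φ * (a * b)| ≤ ω * (w * (a * a)) + (φ * φ * iw * (b * b)) / (4 * ω) := by
  rw [eq_div_of_mul_eq hw.ne' hiw, ← sub_nonneg]
  have key : ω * (w * (a * a)) + φ * φ * (1 / w) * (b * b) / (4 * ω) - |φ * (a * b)|
      = (2 * ω * w * |a| - |φ * b|) ^ 2 / (4 * ω * w) := by
    rw [abs_mul φ b, abs_mul φ (a * b), abs_mul a b]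
    field_simp
    rw [← sq_abs φ, ← sq_abs a, ← sq_abs b]
    ring
  rw [key]
  positivity

theorem eventually_cross_le (C : SCore M X) (hF : ∀ c, (d.F c).FromNrm C) (hd : d.OkW)
    (c : Fin r) (m : ℕ) {z : M} (hz : IsSelfAdjoint z) (hE : C.Er z = 0) (f h : C(X, ℝ))
    (hh : 0 ≤ h) {cw icw : C(X, ℝ)} (hcw : ∀ x, 0 < cw x) (hicw : icw * cw = 1) {ω : ℝ}
    (hω : 0 < ω) {A : ℝ}
    (hA : ∀ᶠ π : DiscreteQuotient X in atBot,
      ∑ j : π, C.ig (f * f * icw * (C.K z (h * d.act c * cellFn π j)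
          * C.K z (h * d.act c * cellFn π j))) ≤ A) {ε : ℝ} (hε : 0 < ε) :
    ∀ᶠ π : DiscreteQuotient X in atBot,
      |∑ c', ∑ j : π, C.ig (f * (d.PW m (unitVec π c' j) c
          * C.K z (h * d.PW m (unitVec π c' j) c)))|
        ≤ ω * C.form (C.r cw) 1 (C.mulS (d.act c)) (d.HW C hF c m) + A / (4 * ω) + ε := by
  classical
  have hicw' : ∀ x, icw x * cw x = 1 := fun x => by
    simpa using congrArg (fun k : C(X, ℝ) => k x) hicw
  have hact : ∀ x, 0 ≤ d.act c x := fun x => by
    rcases hd.base.act_01 c x with h' | h' <;> rw [h'] <;> norm_num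
  have rows : ∀ (V : C.ops) (g : C(X, ℝ)), Tendsto (fun π : DiscreteQuotient X => ∑ c', ∑ j : π,
      C.ig (g * (d.PW m (unitVec π c' j) c
        * (V : Module.End ℝ C(X, ℝ)) (d.PW m (unitVec π c' j) c)))) atBot
      (𝓝 (C.form (C.r g) 1 (C.mulS (d.act c)) (V * d.RW C hF c (2 * m)))) := fun V g => by
    have := WData.tendsto_two_rows C hF hd 1 V c m (C.r_isSelfAdjoint g) 1
    rw [one_mul] at this
    refine this.congr fun π => Finset.sum_congr rfl fun c' _ => Finset.sum_congr rfl fun j _ => ?_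
    simp only [one_mul, star_one, mul_one, ← C.r_mul, SCore.ig, OneMemClass.coe_one,
      Module.End.one_apply]
    congr 2
    ring
  -- the tail of the kernel
  set B₁ := C.form (C.r (f * f)) 1 (C.mulS (d.act c)) (1 * d.RW C hF c (2 * m)) + 1 with hB₁
  obtain ⟨t, ht, htB⟩ : ∃ t : ℝ, 0 < t ∧ t * B₁ ≤ ε / 4 := by
    refine ⟨ε / 4 / (|B₁| + 1), by positivity, ?_⟩
    rw [div_mul_eq_mul_div, div_le_iff₀ (by positivity)]
    exact mul_le_mul_of_nonneg_left (by linarith [le_abs_self B₁]) (by linarith)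
  obtain ⟨Cst, hC0, hCst⟩ := WData.exists_crude_le C hd m c
  obtain ⟨F, hFs, hFN, hFK, hFt⟩ := exists_family C hz hE
    (show 0 < ε / 4 * t / ((Cst + 1) * (‖h‖ * ‖h‖ + 1)) by positivity)
  set Q : C(X, ℝ) →ₗ[ℝ] C(X, ℝ) := StepAux.Klin C z - StepAux.Flin F with hQ
  have hQ0 : ∀ g, 0 ≤ g → 0 ≤ Q g := fun g hg => by
    simp only [hQ, LinearMap.sub_apply, StepAux.Klin_apply, StepAux.Flin_apply, sub_nonneg]
    exact hFK g hg
  have etail : ∀ᶠ π : DiscreteQuotient X in atBot, ∑ c', ∑ j : π,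
      C.ig (Q (h * d.PW m (unitVec π c' j) c) * Q (h * d.PW m (unitVec π c' j) c))
        ≤ ε / 4 * t := by
    obtain ⟨π₀, hπ₀⟩ := hFt.exists
    have hQh : ∀ g, 0 ≤ g → 0 ≤ (Q.comp (LinearMap.mulLeft ℝ h)) g := fun g hg =>
      hQ0 _ (mul_nonneg hh hg)
    refine (hCst _ hQh π₀).mono fun π hπ => le_trans (le_of_eq (by rfl)) (hπ.trans ?_)
    have h1 : ∀ i : π₀, C.ig ((Q.comp (LinearMap.mulLeft ℝ h)) (cellFn π₀ i)
        * (Q.comp (LinearMap.mulLeft ℝ h)) (cellFn π₀ i))
          ≤ (‖h‖ * ‖h‖) * C.ig ((C.K z (cellFn π₀ i) - F.K (cellFn π₀ i))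
            * (C.K z (cellFn π₀ i) - F.K (cellFn π₀ i))) := fun i => by
      rw [← C.ig_smul]
      refine C.ig_mono (ContinuousMap.le_def.2 fun x => ?_)
      have hc0 : (0 : C(X, ℝ)) ≤ cellFn π₀ i := cellFn_nonneg π₀ i
      have hle : h * cellFn π₀ i ≤ ‖h‖ • cellFn π₀ i := ContinuousMap.le_def.2 fun y => by
        simpa using mul_le_mul_of_nonneg_right ((le_abs_self _).trans (h.norm_coe_le_norm y))
          (ContinuousMap.le_def.1 hc0 y)
      have u1 := StepAux.apply_mono Q hQ0 hle x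
      have u0 := ContinuousMap.le_def.1 (hQ0 _ (mul_nonneg hh hc0)) x
      rw [map_smul] at u1
      simp only [ContinuousMap.smul_apply, smul_eq_mul, ContinuousMap.zero_apply] at u0 u1
      have e : (C.K z (cellFn π₀ i) - F.K (cellFn π₀ i)) = Q (cellFn π₀ i) := rfl
      rw [e]
      simp only [LinearMap.comp_apply, LinearMap.mulLeft_apply, ContinuousMap.mul_apply,
        ContinuousMap.smul_apply, smul_eq_mul]
      exact (mul_self_le_mul_self u0 u1).trans_eq (by ring)
    refine (mul_le_mul_of_nonneg_left ((Finset.sum_le_sum fun i _ => h1 i).trans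
      ((Finset.mul_sum _ _ _).symm.trans_le (mul_le_mul_of_nonneg_left hπ₀
        (mul_self_nonneg _)))) hC0).trans ?_
    rw [← mul_assoc, ← mul_div_assoc, div_le_iff₀ (by positivity)]
    have : 0 ≤ ε / 4 * t := by positivity
    nlinarith [mul_self_nonneg ‖h‖]
  -- the family part
  set V : C.ops := F.toOps C hFN * C.mulS h with hV
  have hVap : ∀ g, (V : Module.End ℝ C(X, ℝ)) g = F.K (h * g) := fun g => by
    simp [hV, Fam.coe_toOps]
  have hlim := rows V f
  have hW := WData.form_RW_symm C hF hd 1 V c m (C.r_isSelfAdjoint f) 1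
  rw [one_mul, one_mul] at hW
  have hsub : ∀ U U' : C.ops, U - U' = U + (-1 : ℝ) • U' := fun U U' =>
    Subtype.ext (LinearMap.ext fun f => by simp [sub_eq_add_neg])
  have hRW : d.RW C hF c (2 * m) = C.mulS (d.act c) - d.HW C hF c m :=
    Subtype.ext (LinearMap.ext fun g => by simp [WData.HW])
  have hsplit : C.form (C.r f) 1 (C.mulS (d.act c)) (V * d.RW C hF c (2 * m))
      = C.form (C.r f) 1 (C.mulS (d.act c)) (V * C.mulS (d.act c))
        - C.form (C.r f) 1 (d.HW C hF c m) (V * C.mulS (d.act c)) := by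
    rw [hW, hRW, hsub, map_add, map_smul, LinearMap.add_apply, LinearMap.smul_apply, smul_eq_mul]
    ring
  have hFpos : ∀ g, 0 ≤ g → 0 ≤ F.K g := fun g hg => F.K_nonneg hFs.g_nonneg hg
  have hga : ∀ (π : DiscreteQuotient X) (j : π) x, 0 ≤ d.act c x * cellFn π j x := fun π j x =>
    mul_nonneg (hact x) (by simpa using ContinuousMap.le_def.1 (cellFn_nonneg π j) x)
  have hdiag : C.form (C.r f) 1 (C.mulS (d.act c)) (V * C.mulS (d.act c)) = 0 := by
    refine tendsto_nhds_unique (C.tendsto_form _ _ _ _) ?_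
    let fa : C(X, ℝ) := ⟨fun x => |f x| * d.act c x, by fun_prop⟩
    refine squeeze_zero_norm (fun π => ?_) (tendsto_diag_K C hz hE fa (h * d.act c))
    rw [C.cov_r_one, Real.norm_eq_abs]
    refine (Finset.abs_sum_le_sum_abs _ _).trans (Finset.sum_le_sum fun j _ => ?_)
    rw [abs_le, ← C.ig_neg]
    simp only [SCore.coe_mulS, Subalgebra.coe_mul, Module.End.mul_apply, mulC_apply, hVap,
      ← mul_assoc h]
    have hg0 : (0 : C(X, ℝ)) ≤ h * d.act c * cellFn π j := ContinuousMap.le_def.2 fun x => by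
      simpa [mul_assoc] using mul_nonneg (ContinuousMap.le_def.1 hh x) (hga π j x)
    have k0 := ContinuousMap.le_def.1 (hFpos _ hg0)
    have k1 := ContinuousMap.le_def.1 (hFK _ hg0)
    have key : ∀ x, |f x * (d.act c x * cellFn π j x * F.K (h * d.act c * cellFn π j) x)|
        ≤ |f x| * d.act c x * (cellFn π j x * C.K z (h * d.act c * cellFn π j) x) := fun x => by
      rw [abs_mul, abs_of_nonneg (mul_nonneg (hga π j x) (by simpa using k0 x))]
      rw [show |f x| * d.act c x * (cellFn π j x * C.K z (h * d.act c * cellFn π j) x)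
        = |f x| * (d.act c x * cellFn π j x * C.K z (h * d.act c * cellFn π j) x) by ring]
      exact mul_le_mul_of_nonneg_left (mul_le_mul_of_nonneg_left (k1 x) (hga π j x)) (abs_nonneg _)
    constructor <;> refine C.ig_mono (ContinuousMap.le_def.2 fun x => ?_) <;>
      simp only [ContinuousMap.neg_apply, ContinuousMap.mul_apply, fa, ContinuousMap.coe_mk]
    · exact (abs_le.1 (key x)).1
    · exact (abs_le.1 (key x)).2
  have hcs : |C.form (C.r f) 1 (d.HW C hF c m) (V * C.mulS (d.act c))|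
      ≤ ω * C.form (C.r cw) 1 (d.HW C hF c m) (d.HW C hF c m) + A / (4 * ω) := by
    refine le_of_tendsto_of_tendsto (C.tendsto_form _ _ _ _).abs
      (((C.tendsto_form (C.r cw) 1 _ _).const_mul ω).add_const _) (hA.mono fun π hπ => ?_)
    simp only [C.cov_r_one]
    refine (Finset.abs_sum_le_sum_abs _ _).trans ?_
    refine le_trans ?_ (add_le_add le_rfl (div_le_div_of_nonneg_right hπ (by positivity)))
    rw [Finset.mul_sum, Finset.sum_div, ← Finset.sum_add_distrib]
    refine Finset.sum_le_sum fun j _ => ?_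
    rw [← C.ig_smul, div_eq_inv_mul, ← C.ig_smul, ← C.ig_add, abs_le, ← C.ig_neg]
    simp only [SCore.coe_mulS, Subalgebra.coe_mul, Module.End.mul_apply, mulC_apply, hVap,
      ← mul_assoc h]
    set a := (d.HW C hF c m : Module.End ℝ C(X, ℝ)) (cellFn π j)
    have hg0 : (0 : C(X, ℝ)) ≤ h * d.act c * cellFn π j := ContinuousMap.le_def.2 fun x => by
      simpa [mul_assoc] using mul_nonneg (ContinuousMap.le_def.1 hh x) (hga π j x)
    set kz := C.K z (h * d.act c * cellFn π j)
    set b := F.K (h * d.act c * cellFn π j)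
    have hb0 : ∀ x, 0 ≤ b x := fun x => by simpa using ContinuousMap.le_def.1 (hFpos _ hg0) x
    have hbk : ∀ x, b x ≤ kz x := ContinuousMap.le_def.1 (hFK _ hg0)
    have key : ∀ x, |f x * (a x * b x)| ≤ ω * (cw x * (a x * a x))
        + (4 * ω)⁻¹ * (f x * f x * icw x * (kz x * kz x)) := fun x => by
      refine (abs_mul_le_weighted hω (hcw x) (hicw' x)).trans (add_le_add le_rfl ?_)
      rw [div_eq_inv_mul]
      refine mul_le_mul_of_nonneg_left (mul_le_mul_of_nonneg_left
        (mul_self_le_mul_self (hb0 x) (hbk x)) ?_) (by positivity)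
      rw [eq_div_of_mul_eq (hcw x).ne' (hicw' x)]
      exact mul_nonneg (mul_self_nonneg _) (one_div_pos.2 (hcw x)).le
    constructor <;> refine C.ig_mono (ContinuousMap.le_def.2 fun x => ?_) <;>
      simp only [ContinuousMap.neg_apply, ContinuousMap.add_apply, ContinuousMap.smul_apply,
        ContinuousMap.mul_apply, smul_eq_mul]
    · exact (abs_le.1 (key x)).1
    · exact (abs_le.1 (key x)).2
  have hHW := WData.form_HW_le C hF hd 1 c m (C.r_nonneg (ContinuousMap.le_def.2 fun x =>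
    by simpa using (hcw x).le)) 1
  rw [one_mul, one_mul] at hHW
  have hL0 : |C.form (C.r f) 1 (C.mulS (d.act c)) (V * d.RW C hF c (2 * m))|
      < ω * C.form (C.r cw) 1 (C.mulS (d.act c)) (d.HW C hF c m) + A / (4 * ω) + ε / 4 := by
    rw [hsplit, hdiag, zero_sub, abs_neg]
    linarith [mul_le_mul_of_nonneg_left hHW hω.le]
  filter_upwards [hlim.abs.eventually_lt_const hL0, etail,
    (rows 1 (f * f)).eventually_le_const (lt_add_one _)] with π hmain htl hsq
  simp only [OneMemClass.coe_one, Module.End.one_apply] at hsq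
  have hsum : ∀ c' (j : π), f * (d.PW m (unitVec π c' j) c * C.K z (h * d.PW m (unitVec π c' j) c))
      = f * (d.PW m (unitVec π c' j) c
          * (V : Module.End ℝ C(X, ℝ)) (d.PW m (unitVec π c' j) c))
        + f * (d.PW m (unitVec π c' j) c * Q (h * d.PW m (unitVec π c' j) c)) := fun c' j => by
    simp only [hVap, hQ, LinearMap.sub_apply, StepAux.Klin_apply, StepAux.Flin_apply]
    ring
  simp only [hsum, C.ig_add, Finset.sum_add_distrib]
  refine (abs_add_le _ _).trans ?_
  have htail : |∑ c', ∑ j : π, C.ig (f * (d.PW m (unitVec π c' j) c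
      * Q (h * d.PW m (unitVec π c' j) c)))| ≤ t * B₁ + ε / 4 := by
    refine (Finset.abs_sum_le_sum_abs _ _).trans ((Finset.sum_le_sum fun c' _ =>
      Finset.abs_sum_le_sum_abs _ _).trans ?_)
    have h2 : t⁻¹ * (ε / 4 * t) = ε / 4 := by field_simp
    refine le_trans ?_ (add_le_add (mul_le_mul_of_nonneg_left hsq ht.le)
      ((mul_le_mul_of_nonneg_left htl (inv_nonneg.2 ht.le)).trans_eq h2))
    simp only [Finset.mul_sum, ← Finset.sum_add_distrib]
    refine Finset.sum_le_sum fun c' _ => Finset.sum_le_sum fun j _ => ?_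
    rw [← C.ig_smul, ← C.ig_smul, ← C.ig_add, abs_le, ← C.ig_neg]
    have key : ∀ a b φ : ℝ, |φ * (a * b)| ≤ t * (φ * φ * (a * a)) + t⁻¹ * (b * b) := fun a b φ => by
      have h1 : 2 * |φ * (a * b)| ≤ t * (φ * φ * (a * a)) + t⁻¹ * (b * b) := by
        rw [← mul_le_mul_iff_right₀ ht]
        calc t * (2 * |φ * (a * b)|) = 2 * (t * |φ * a|) * |b| := by simp only [abs_mul]; ring
          _ ≤ (t * |φ * a|) ^ 2 + |b| ^ 2 := two_mul_le_add_sq _ _
          _ = t * (t * (φ * φ * (a * a)) + t⁻¹ * (b * b)) := by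
            rw [mul_pow, sq_abs, sq_abs]; field_simp
      linarith [abs_nonneg (φ * (a * b))]
    constructor <;> refine C.ig_mono (ContinuousMap.le_def.2 fun x => ?_) <;>
      simp only [ContinuousMap.neg_apply, ContinuousMap.add_apply, ContinuousMap.smul_apply,
        ContinuousMap.mul_apply, smul_eq_mul]
    · exact (abs_le.1 (key _ _ _)).1
    · exact (abs_le.1 (key _ _ _)).2
  linarith

end Vale.Agent.P078.Quad
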