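import Vale.Agent.P078.Quad.Defect.Bound

/-! The weighted defect of the smoothed projection. A charge on the complement of the projection
costs the rank of the top levels times the charge, plus the low levels times the weights: no root
of the number of colours appears. -/

namespace Vale.Agent.P078.Quad

set_option linter.unusedSectionVars false

open Filter Topology MeasureTheory
open Vale.Agent.P078.Tracial Vale.Agent.P078.AllMasa

variable {X : Type} [TopologicalSpace X] [CompactSpace X] [T2Space X] [TotallyDisconnectedSpace X]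
variable [MeasurableSpace X] [BorelSpace X]

theorem eventually_charge_le {ν : Measure X} [IsFiniteMeasure ν] [ν.Regular] {r : ℕ}
    {d : WData X r} (hd : d.OkW) (hnull : ∀ c k, ((d.F c).p k).NullPres ν) {τ0 : ℝ} (hτ0 : 0 < τ0)
    (hsuper : ∀ c (f : C(X, ℝ)), 0 ≤ f →
      (∫ x, d.act c x * d.n c x * (d.F c).K (d.act c * f) x ∂ν) + τ0 * ∫ x, d.act c x * f x ∂ν
        ≤ ∫ x, d.e c x * d.n c x * (d.act c x * f x) ∂ν)
    (f : Fin r → C(X, ℝ)) (hf : ∀ c x, 0 ≤ f c x) {fmax c2 : ℝ}
    (hfmax : ∀ c x, f c x ≤ fmax)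
    (hc2 : ∀ c x, d.act c x = 1 → f c x * d.μ c x ^ 2 ≤ c2 * d.n c x ^ 2)
    (hc20 : 0 ≤ c2) (hfmax0 : 0 ≤ fmax) {R : ℝ} (hR : 1 ≤ R) (m : ℕ) {ε : ℝ} (hε : 0 < ε) :
    ∀ᶠ π : DiscreteQuotient X in atBot,
      ∑ c, ∑ j : π, ∫ x, f c x * (cellFn π j x
          * (d.act c x * cellFn π j x - d.PW (2 * m) (unitVec π c j) c x)) ∂ν
        ≤ 2 * (fmax * R * (∫ x, d.U x ∂ν)
            + c2 / R * ∑ c, ∫ x, d.act c x * (d.n c x ^ 2 / d.μ c x ^ 2) ∂ν) + ε := by
  have hns : ∀ c k, ((d.F c).p k).NS ν := fun c k => Lift.ns_of_symm hd.base hnull c k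
  have hroot := tendsto_finsetSum (Finset.univ : Finset (Fin r)) fun c _ =>
    Defect.tendsto_root (hf c) (mul_mem (mul_mem (Defect.Bop_mem ν d hns c)
      (Defect.qW_mem ν d hns m)) (star_mem (Defect.Bop_mem ν d hns c)))
  rw [Finset.sum_const_zero] at hroot
  have hlim := (Defect.tendsto_linkW hd hns f m).add hroot
  rw [add_zero] at hlim
  filter_upwards [Defect.eventually_lifted_charge_le hd hnull hns hτ0 hsuper f hf hfmax hc2 hc20
      hfmax0 hR m (half_pos hε),
    NormedAddGroup.tendsto_nhds_zero.1 hlim (ε / 2) (half_pos hε)] with π h1 h2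
  have h3 := (abs_le.1 ((Complex.abs_re_le_norm _).trans h2.le)).2
  simp only [Finset.sum_sub_distrib, Complex.add_re, Complex.sub_re, Complex.ofReal_re] at h3
  linarith

end Vale.Agent.P078.Quad
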