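import Vale.Agent.P078.Quad.Profile
import Vale.Agent.P078.AllMasa.Ops

/-! The states and the potential of the quadratic argument: two signs share one weight, the slack
of each sign is paid in the state, and a missing budget is paid by a quadratic penalty. -/

namespace Vale.Agent.P078.Quad

set_option linter.unusedSectionVars false

open Filter Topology ComplexOrder
open Vale.Agent.P078.Tracial Vale.Agent.P078.AllMasa

/-- The sign of an index. -/
def sgn (i : Bool) : ℝ := if i then 1 else -1

/-- The parameters: the element, its bound, the budget and the small constant. -/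
structure Prm (M : Type) where
  y : M
  β : ℝ
  S : ℝ
  l : ℝ
  β_pos : 0 < β
  β_le : β ≤ 1 / 1000000
  S_ge : 1 ≤ S
  l_pos : 0 < l
  l_le : l ≤ 1

namespace Prm

variable {M : Type} (P : Prm M)

/-- The scale of the excess. -/
noncomputable def κ : ℝ := 6 * P.β ^ 2

/-- The margin of the level. -/
noncomputable def b1 : ℝ := P.κ / 8

/-- The cap of the weight. -/
noncomputable def Wa : ℝ := 1 - 100000000 * P.κ

/-- The window of the weight. -/
noncomputable def Wm : ℝ := 1 - 150000000 * P.κ

/-- The weight of an assigned colour. -/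
noncomputable def Wf : ℝ := 1 - 200000000 * P.κ

/-- The cost of a resolvent. -/
noncomputable def lG : ℝ := P.l ^ 4

/-- The upper clipping level of a resolvent. -/
noncomputable def Λ : ℝ := 1 / P.l ^ 2

theorem κ_pos : 0 < P.κ := by unfold κ; have := P.β_pos; positivity

theorem κ_le : 100000000 * P.κ ≤ 1 / 100 := by
  unfold κ; nlinarith [P.β_pos, P.β_le]

theorem b1_pos : 0 < P.b1 := by unfold b1; linarith [P.κ_pos]

theorem lG_pos : 0 < P.lG := by unfold lG; have := P.l_pos; positivity

theorem Λ_pos : 0 < P.Λ := by unfold Λ; have := P.l_pos; positivity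

theorem lG_mul_Λ_sq : P.lG * P.Λ ^ 2 = 1 := by
  unfold lG Λ; have := P.l_pos; field_simp

end Prm

variable {M X : Type} [CStarAlgebra M] [PartialOrder M] [StarOrderedRing M]
variable [TopologicalSpace X] [CompactSpace X] [T2Space X] [TotallyDisconnectedSpace X]

/-- The data of one colour. -/
structure Col (M X : Type) [Monoid M] [TopologicalSpace X] where
  act : C(X, ℝ)
  ass : C(X, ℝ)
  W : C(X, ℝ)
  G : Bool → Mˣ
  Z : Bool → M

/-- A colouring in progress: the colours and the live unassigned set. -/
structure Config (M X : Type) [Monoid M] [TopologicalSpace X] (r : ℕ) where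
  col : Fin r → Col M X
  U : C(X, ℝ)

/-- The part given up. -/
noncomputable def Config.dead {r : ℕ} (s : Config M X r) : C(X, ℝ) :=
  1 - ∑ c, (s.col c).ass - s.U

namespace Prm

variable (P : Prm M) (C : SCore M X)

/-- The diagonal of one resolvent. -/
noncomputable def γ (_P : Prm M) (C : SCore M X) (s : Col M X) (i : Bool) : C(X, ℝ) :=
  C.Er (s.G i : M)

/-- The mean of the two diagonals. -/
noncomputable def Γc (s : Col M X) : C(X, ℝ) :=
  (1 / 2 : ℝ) • (P.γ C s true + P.γ C s false)

/-- The profile at the weight. -/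
noncomputable def sc (s : Col M X) : C(X, ℝ) :=
  ⟨fun x => sF P.κ (s.W x), (continuous_sF P.κ_pos).comp (map_continuous s.W)⟩

/-- The derivative of the profile at the weight. -/
noncomputable def s1c (s : Col M X) : C(X, ℝ) :=
  ⟨fun x => s1 P.κ (s.W x), (continuous_s1 P.κ_pos).comp (map_continuous s.W)⟩

/-- The second derivative of the profile at the weight. -/
noncomputable def s2c (s : Col M X) : C(X, ℝ) :=
  ⟨fun x => s2 P.κ (s.W x), (continuous_s2 P.κ_pos).comp (map_continuous s.W)⟩

/-- The scale `κ / ξ` at the weight. -/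
noncomputable def uc (s : Col M X) : C(X, ℝ) :=
  ⟨fun x => uF P.κ (s.W x), (continuous_uF P.κ_pos).comp (map_continuous s.W)⟩

/-- Half the profile: the multiplier of the kernels of the two signs. -/
noncomputable def nc (s : Col M X) : C(X, ℝ) := (1 / 2 : ℝ) • P.sc s

/-- The level of one colour. -/
noncomputable def Tc (s : Col M X) : C(X, ℝ) :=
  ⟨fun x => TF P.κ (P.Γc C s x) (s.W x), by
    unfold TF
    exact (map_continuous s.W).sub
      ((map_continuous _).mul ((continuous_sF P.κ_pos).comp (map_continuous s.W)))⟩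

/-- The slope of the level in the weight. -/
noncomputable def Dc (s : Col M X) : C(X, ℝ) :=
  ⟨fun x => DF P.κ (P.Γc C s x) (s.W x), by
    unfold DF
    exact continuous_const.sub
      ((map_continuous _).mul ((continuous_s1 P.κ_pos).comp (map_continuous s.W)))⟩

/-- The budget delivered by one colour. -/
noncomputable def bc (s : Col M X) : C(X, ℝ) :=
  s.act * (P.Tc C s - ContinuousMap.const X (2 * P.b1))

/-- The weight of one colour. -/
noncomputable def wt (s : Col M X) : C(X, ℝ) := s.act * s.W + P.Wf • s.ass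

/-- The slack of one colour and one sign. -/
noncomputable def mat (s : Col M X) (i : Bool) : M :=
  1 + s.Z i - ((↑(s.G i)⁻¹ : M) + sgn i • P.y + C.r (P.wt s))

/-- The potential of one colour. -/
noncomputable def pot (s : Col M X) : ℝ :=
  P.l * C.ig (P.wt s) + ∑ i, (C.tr (s.Z i) + P.lG * C.tr (s.G i : M))

/-- The missing budget. -/
noncomputable def short {r : ℕ} (s : Config M X r) : C(X, ℝ) :=
  ⟨fun x => max (P.S - (∑ c, P.bc C (s.col c)) x) 0, by fun_prop⟩

/-- The total potential. -/
noncomputable def Psi {r : ℕ} (s : Config M X r) : ℝ :=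
  (∑ c, P.pot C (s.col c))
    + √P.l * (C.ig (s.U * (P.short C s * P.short C s)) + P.S ^ 2 / 16 * C.ig s.dead)

/-- The price of the budget. -/
noncomputable def price {r : ℕ} (s : Config M X r) : C(X, ℝ) :=
  (2 * √P.l) • (s.U * P.short C s)

/-- The weight of the kernels in the stationarity inequality. -/
noncomputable def Nfn {r : ℕ} (s : Config M X r) (c : Fin r) : C(X, ℝ) :=
  P.price C s * (s.col c).act * P.nc (s.col c) + ContinuousMap.const X P.lG

end Prm

/-- The hypotheses on the element. -/
structure Prm.Ok (P : Prm M) (C : SCore M X) : Prop where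
  y_sa : IsSelfAdjoint P.y
  Er_y : C.Er P.y = 0
  norm_y : ‖P.y‖ ≤ P.β

/-- Validity of the data of one colour. -/
structure Col.Ok (s : Col M X) (P : Prm M) (C : SCore M X) : Prop where
  act_01 : ∀ x, s.act x = 0 ∨ s.act x = 1
  ass_01 : ∀ x, s.ass x = 0 ∨ s.ass x = 1
  act_ass : ∀ x, s.act x = 1 → s.ass x = 0
  W_mem : ∀ x, 0 ≤ s.W x ∧ s.W x ≤ P.Wa
  G_nonneg : ∀ i, 0 ≤ (s.G i : M)
  Z_nonneg : ∀ i, 0 ≤ s.Z i
  mat_nonneg : ∀ i, 0 ≤ P.mat C s i
  inv : ∀ x, s.act x = 1 → P.b1 ≤ P.Tc C s x

/-- Validity of a state. -/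
structure StateOk {r : ℕ} (P : Prm M) (C : SCore M X) (s : Config M X r) : Prop where
  col : ∀ c, (s.col c).Ok P C
  U_01 : ∀ x, s.U x = 0 ∨ s.U x = 1
  dead_01 : ∀ x, s.dead x = 0 ∨ s.dead x = 1
  act_le : ∀ c x, (s.col c).act x ≤ s.U x

/-- A state inside the window, with clipped resolvents and at least half of the budget. -/
structure Prm.Good (P : Prm M) (C : SCore M X) {r : ℕ} (s : Config M X r) : Prop where
  high : ∀ c x, (s.col c).act x = 1 → (s.col c).W x ≤ P.Wm
  low : ∀ c x, (s.col c).act x = 1 → 3 / 2 * P.b1 ≤ P.Tc C (s.col c) x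
  G_le : ∀ c i, ((s.col c).G i : M) ≤ algebraMap ℝ M P.Λ
  half : ∀ x, s.U x = 1 → P.S / 2 ≤ (∑ c, P.bc C (s.col c)) x

/-- The state is an approximate minimiser. -/
def Prm.IsMin (P : Prm M) (C : SCore M X) {r : ℕ} (s : Config M X r) (ζ : ℝ) : Prop :=
  ∀ u : Config M X r, StateOk P C u → P.Psi C s ≤ P.Psi C u + ζ

end Vale.Agent.P078.Quad
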