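import Vale.Agent.P078.AllMasa.Stationary

/-! An inequality up to a small error between finitely many weakly continuous functionals holds
exactly outside a small clopen set. -/

namespace Vale.Agent.P078.Quad

set_option linter.unusedSectionVars false

open Filter Topology ComplexOrder
open Vale.Agent.P078.Tracial Vale.Agent.P078.AllMasa

variable {M X : Type} [CStarAlgebra M] [PartialOrder M] [StarOrderedRing M]
variable [TopologicalSpace X] [CompactSpace X] [T2Space X] [TotallyDisconnectedSpace X]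

theorem exists_good_set_sum (C : SCore M X) {ι : Type} [Fintype ι] (a b : ι → M)
    (q w : C(X, ℝ)) {act : C(X, ℝ)} (ha : ∀ x, act x = 0 ∨ act x = 1) {ε τ : ℝ} (hε : 0 ≤ ε)
    (hτ : 0 < τ) (hw : ∀ x, 1 ≤ w x)
    (h : ∀ f, (∀ x, 0 ≤ f x ∧ f x ≤ act x) →
      ∑ i, C.tr (a i * C.r f * b i) ≤ C.ig (q * f) + ε) :
    ∃ good : C(X, ℝ), (∀ x, good x = 0 ∨ good x = 1) ∧ (∀ x, good x ≤ act x) ∧
      (∀ f, 0 ≤ f → f * good = f →
        ∑ i, C.tr (a i * C.r f * b i) ≤ C.ig ((q + τ • w) * f)) ∧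
      C.ig (act - good) ≤ 4 * ε / τ := by
  set ν : C(X, ℝ) → ℝ := fun f => (∑ i, C.tr (a i * C.r f * b i)) - C.ig ((q + τ • w) * f) with hν
  have hν0 : ν 0 = 0 := by simp [hν, C.r_zero, C.tr_zero, C.ig_zero]
  have hνadd : ∀ (f g : C(X, ℝ)) (u : ℝ), ν (f + u • g) = ν f + u * ν g := fun f g u => by
    simp only [hν, C.r_add, C.r_smul, mul_add, add_mul, mul_smul_comm, smul_mul_assoc, C.tr_add,
      C.tr_smul, C.ig_add, C.ig_smul, Finset.sum_add_distrib, ← Finset.mul_sum]
    ring
  set A := {f : C(X, ℝ) | ∀ x, 0 ≤ f x ∧ f x ≤ act x} with hA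
  have hact : ∀ x, 0 ≤ act x ∧ act x ≤ 1 := fun x => by rcases ha x with h | h <;> simp [h]
  have hA0 : (0 : C(X, ℝ)) ∈ A := fun x => by simp [(hact x).1]
  have hAb : ∀ f ∈ A, (∑ i, C.tr (a i * C.r f * b i)) - C.ig (q * f) ≤ ε ∧ 0 ≤ C.ig (w * f) ∧
      C.ig f ≤ C.ig (w * f) ∧ ν f = (∑ i, C.tr (a i * C.r f * b i)) - C.ig (q * f) - τ * C.ig (w * f) :=
    fun f hf => by
      have h1 : C.ig f ≤ C.ig (w * f) := C.ig_mono (ContinuousMap.le_def.2 fun x => by
        simpa using le_mul_of_one_le_left (hf x).1 (hw x))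
      have h2 := C.ig_nonneg (f := f) (ContinuousMap.le_def.2 fun x => (hf x).1)
      refine ⟨by linarith [h f hf], by linarith, h1, ?_⟩
      simp only [hν, add_mul, smul_mul_assoc, C.ig_add, C.ig_smul]
      ring
  have hne : (ν '' A).Nonempty := ⟨_, 0, hA0, rfl⟩
  have hbd : BddAbove (ν '' A) := by
    refine ⟨ε, ?_⟩
    rintro v ⟨f, hf, rfl⟩
    obtain ⟨h1, h2, _, h3⟩ := hAb f hf
    have := mul_nonneg hτ.le h2
    linarith
  set m := sSup (ν '' A) with hm
  have hseq : ∀ n : ℕ, ∃ f ∈ A, m - 1 / ((n : ℝ) + 1) ≤ ν f := fun n => by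
    obtain ⟨_, ⟨f, hf, rfl⟩, hlt⟩ :=
      exists_lt_of_lt_csSup hne (sub_lt_self m (Nat.one_div_pos_of_nat (α := ℝ) (n := n)))
    exact ⟨f, hf, hlt.le⟩
  choose fn hfn hfm using hseq
  let U : Ultrafilter ℕ := Ultrafilter.of atTop
  have hU : (U : Filter ℕ) ≤ atTop := Ultrafilter.of_le _
  have hfn1 : ∀ n, ‖C.r (fn n)‖ ≤ 1 := fun n => (C.norm_r_le _).trans
    ((ContinuousMap.norm_le _ zero_le_one).2 fun x => by
      rw [Real.norm_of_nonneg (hfn n x).1]; exact (hfn n x).2.trans (hact x).2)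
  obtain ⟨v, _, hv⟩ := C.weakLimit U (fun n => C.r (fn n)) 1 hfn1
  have hcomm : ∀ g, C.r g * v = v * C.r g := fun g => by
    refine C.ext_weak fun a' b' => tendsto_nhds_unique
      (f := fun n => C.φ (a' * C.r g * C.r (fn n) * b')) (l := (U : Filter ℕ)) ?_ ?_
    · simpa only [mul_assoc] using hv (a' * C.r g) b'
    · refine Tendsto.congr (fun n => ?_) (by simpa only [mul_assoc] using hv a' (C.r g * b'))
      congr 1
      simp only [← mul_assoc]
      rw [mul_assoc a' (C.r (fn n)), mul_assoc a' (C.r g), C.r_comm]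
  have hvι := C.eq_ι_E_of_comm hcomm
  have him : ∀ g : C(X, ℝ), (C.φ (C.r g)).im = 0 := fun g => by
    have hpos : ∀ k : C(X, ℝ), 0 ≤ k → (C.φ (C.r k)).im = 0 := fun k hk => by
      obtain ⟨u, hu⟩ := CStarAlgebra.nonneg_iff_eq_star_mul_self.1 (C.r_nonneg hk)
      rw [hu]
      exact (Complex.le_def.1 (C.φ_pos u)).2.symm
    have e : g = (g + ‖g‖ • 1) - ‖g‖ • (1 : C(X, ℝ)) := by rw [add_sub_cancel_right]
    have h1 := hpos (g + ‖g‖ • 1) (ContinuousMap.le_def.2 fun x => by
      have := (abs_le.1 (g.norm_coe_le_norm x)).1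
      simp only [ContinuousMap.zero_apply, ContinuousMap.add_apply, ContinuousMap.smul_apply,
        ContinuousMap.one_apply, smul_eq_mul, mul_one]
      linarith)
    have h2 := hpos (‖g‖ • 1) (ContinuousMap.le_def.2 fun x => by simp)
    rw [e, C.r_sub, map_sub, Complex.sub_im, h1, h2, sub_zero]
  set hc := C.E v with hhc
  set f0 := reC hc with hf0
  set fi : C(X, ℝ) := ⟨fun x => (hc x).im, by fun_prop⟩ with hfi
  have hdec : hc = toC f0 + Complex.I • toC fi := by
    ext x
    simp only [hf0, hfi, ContinuousMap.add_apply, ContinuousMap.smul_apply, toC_apply, reC_apply,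
      smul_eq_mul, ContinuousMap.coe_mk]
    exact (mul_comm Complex.I _ ▸ (Complex.re_add_im (hc x)).symm)
  have hlim : ∀ g : C(X, ℝ), Tendsto (fun n => C.φ (C.r (g * fn n))) U
      (𝓝 (C.φ (C.r (g * f0)) + Complex.I * C.φ (C.r (g * fi)))) := fun g => by
    have := hv (C.r g) 1
    simp only [mul_one] at this
    have e : C.φ (C.r g * v) = C.φ (C.r (g * f0)) + Complex.I * C.φ (C.r (g * fi)) := by
      rw [hvι, hdec, map_add, map_smul, mul_add, mul_smul_comm, map_add, map_smul,
        smul_eq_mul]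
      simp only [SCore.r, toC_mul, map_mul]
    rw [e] at this
    exact this.congr fun n => by rw [C.r_mul]
  have hre : ∀ g : C(X, ℝ), Tendsto (fun n => C.ig (g * fn n)) U (𝓝 (C.ig (g * f0))) ∧
      C.ig (g * fi) = 0 := fun g => by
    constructor
    · have h1 := ((Complex.continuous_re.tendsto _).comp (hlim g))
      simpa [Complex.add_re, Complex.mul_re, him, SCore.ig, SCore.tr, Function.comp_def] using h1
    · have h1 := ((Complex.continuous_im.tendsto _).comp (hlim g))
      simp only [Function.comp_def, him, Complex.add_im, Complex.mul_im, Complex.I_re,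
        Complex.I_im, zero_mul, one_mul, zero_add] at h1
      exact (tendsto_nhds_unique h1 tendsto_const_nhds).trans rfl
  have hfi0 : fi = 0 := by
    have h1 := C.eq_zero_of_ig_eq_zero (f := fi * fi)
      (ContinuousMap.le_def.2 fun x => by simpa using mul_self_nonneg (fi x)) (hre fi).2
    ext x
    have := congrArg (fun k : C(X, ℝ) => k x) h1
    simpa using this
  have hv0 : v = C.r f0 := by
    rw [hvι, hdec, hfi0, toC_zero, smul_zero, add_zero]; rfl
  have hneg : ∀ k : C(X, ℝ),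
      (∀ g : C(X, ℝ), 0 ≤ g → 0 ≤ C.ig (g * k)) → ∀ x, 0 ≤ k x := fun k hk x => by
    set g : C(X, ℝ) := ⟨fun x => max (-k x) 0, by fun_prop⟩ with hg
    have hg0 : 0 ≤ g := ContinuousMap.le_def.2 fun x => le_max_right _ _
    have e : g * k = -(g * g) := by
      ext x
      simp only [hg, ContinuousMap.mul_apply, ContinuousMap.neg_apply, ContinuousMap.coe_mk]
      rcases le_total 0 (k x) with h1 | h1
      · simp [max_eq_right (neg_nonpos.2 h1)]
      · rw [max_eq_left (neg_nonneg.2 h1)]; ring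
    have h1 := hk g hg0
    rw [e, C.ig_neg] at h1
    have h2 : 0 ≤ g * g := ContinuousMap.le_def.2 fun x => by simpa using mul_self_nonneg (g x)
    have h3 := C.eq_zero_of_ig_eq_zero h2 (le_antisymm (by linarith) (C.ig_nonneg h2))
    have h4 : g x = 0 := by
      have := congrArg (fun k : C(X, ℝ) => k x) h3
      simpa using this
    have h5 : -k x ≤ g x := le_max_left _ _
    linarith
  have hf0A : f0 ∈ A := fun x => by
    refine ⟨hneg f0 (fun g hg => ge_of_tendsto' (hre g).1 fun n =>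
      C.ig_nonneg (ContinuousMap.le_def.2 fun x => ?_)) x, ?_⟩
    · simpa using mul_nonneg (ContinuousMap.le_def.1 hg x) (hfn n x).1
    · have h1 := hneg (act - f0) (fun g hg => by
        rw [mul_sub, C.ig_sub, sub_nonneg]
        refine le_of_tendsto' (hre g).1 fun n => C.ig_mono (ContinuousMap.le_def.2 fun x => ?_)
        simpa using mul_le_mul_of_nonneg_left (hfn n x).2 (ContinuousMap.le_def.1 hg x)) x
      simpa using h1
  have hνlim : Tendsto (fun n => ν (fn n)) U (𝓝 (ν f0)) := by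
    have h1 := tendsto_finsetSum (Finset.univ : Finset ι)
      fun i _ => (Complex.continuous_re.tendsto _).comp (hv (a i) (b i))
    rw [hv0] at h1
    exact h1.sub (hre (q + τ • w)).1
  have hm0 : ν f0 = m := by
    refine le_antisymm (le_csSup hbd ⟨f0, hf0A, rfl⟩) ?_
    have h1 : Tendsto (fun n : ℕ => m - 1 / ((n : ℝ) + 1)) U (𝓝 m) := by
      simpa using (tendsto_const_nhds.sub
        ((tendsto_one_div_add_atTop_nhds_zero_nat (𝕜 := ℝ)).mono_left hU))
    exact le_of_tendsto_of_tendsto' h1 hνlim hfm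
  have hig : C.ig f0 ≤ ε / τ := by
    obtain ⟨h1, _, h3, h4⟩ := hAb f0 hf0A
    have h5 : 0 ≤ ν f0 := hm0 ▸ hν0 ▸ le_csSup hbd ⟨0, hA0, rfl⟩
    rw [le_div_iff₀ hτ]
    have := mul_le_mul_of_nonneg_left h3 hτ.le
    linarith
  obtain ⟨V, hV, hVge, hVle⟩ := exists_clopen_of_closed_subset_open
    (isClosed_le continuous_const (map_continuous f0) : IsClosed {x | 1 / 2 ≤ f0 x})
    (isOpen_lt continuous_const (map_continuous f0) : IsOpen {x | 1 / 4 < f0 x})
    (fun x (hx : 1 / 2 ≤ f0 x) => show 1 / 4 < f0 x by linarith)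
  set good := act * (1 - ind V hV) with hgood
  have hgv : ∀ x, (x ∈ V ∧ good x = 0 ∧ act x = 1 ∧ 1 / 4 < f0 x) ∨
      (x ∉ V ∧ good x = act x ∧ f0 x < 1 / 2) := fun x => by
    by_cases hx : x ∈ V
    · refine Or.inl ⟨hx, by simp [hgood, ind_mem _ hx], ?_, hVle hx⟩
      have h1 : 1 / 4 < f0 x := hVle hx
      rcases ha x with h' | h'
      · linarith [(hf0A x).2]
      · exact h'
    · exact Or.inr ⟨hx, by simp [hgood, ind_notMem _ hx], not_le.1 fun h' => hx (hVge h')⟩
  refine ⟨good, fun x => ?_, fun x => ?_, fun f hf hfg => ?_, ?_⟩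
  · rcases hgv x with ⟨_, h1, _⟩ | ⟨_, h1, _⟩
    · exact Or.inl h1
    · rw [h1]; exact ha x
  · rcases hgv x with ⟨_, h1, h2, _⟩ | ⟨_, h1, _⟩ <;> rw [h1]
    exact (hact x).1
  · set u := 1 / (2 * (‖f‖ + 1)) with hu
    have hu0 : 0 < u := by positivity
    have hmem : f0 + u • f ∈ A := fun x => by
      have h1 := ContinuousMap.le_def.1 hf x
      simp only [ContinuousMap.zero_apply] at h1
      have h2 : u * f x ≤ 1 / 2 := by
        have : f x ≤ ‖f‖ + 1 := by linarith [(abs_le.1 (f.norm_coe_le_norm x)).2]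
        calc u * f x ≤ u * (‖f‖ + 1) := mul_le_mul_of_nonneg_left this hu0.le
          _ = 1 / 2 := by rw [hu]; field_simp
      simp only [ContinuousMap.add_apply, ContinuousMap.smul_apply, smul_eq_mul]
      refine ⟨by linarith [(hf0A x).1, mul_nonneg hu0.le h1], ?_⟩
      have hx := congrArg (fun k : C(X, ℝ) => k x) hfg
      simp only [ContinuousMap.mul_apply] at hx
      rcases hgv x with ⟨_, hg, _⟩ | ⟨_, hg, hlt⟩ <;> rw [hg] at hx
      · rw [mul_zero] at hx
        rw [← hx]
        linarith [(hf0A x).2]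
      · rcases ha x with h' | h' <;> rw [h'] at hx ⊢
        · rw [mul_zero] at hx
          rw [← hx]
          linarith [(hf0A x).2]
        · linarith
    have h1 := le_csSup hbd ⟨_, hmem, rfl⟩
    rw [hνadd, ← hm, hm0] at h1
    have h2 : ν f ≤ 0 := by
      by_contra hc
      have := mul_pos hu0 (not_le.1 hc)
      linarith
    simp only [hν] at h2
    linarith
  · have h1 : C.ig (act - good) ≤ 4 * C.ig f0 := by
      rw [← C.ig_smul]
      refine C.ig_mono (ContinuousMap.le_def.2 fun x => ?_)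
      simp only [ContinuousMap.sub_apply, ContinuousMap.smul_apply, smul_eq_mul]
      rcases hgv x with ⟨_, hg, h', h''⟩ | ⟨_, hg, _⟩ <;> rw [hg]
      · linarith
      · linarith [(hf0A x).1]
    have h2 : 4 * ε / τ = 4 * (ε / τ) := mul_div_assoc _ _ _
    linarith

end Vale.Agent.P078.Quad
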