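import Vale.Agent.P078.Quad.Cov

/-! The loss of one colour is bounded by the contraction: the smoothed noise loses no more than
the noise on all active points. -/

namespace Vale.Agent.P078.Quad

set_option linter.unusedSectionVars false

open Filter Topology ComplexOrder
open Vale.Agent.P078.Tracial Vale.Agent.P078.AllMasa

variable {M X : Type} [CStarAlgebra M] [PartialOrder M] [StarOrderedRing M]
variable [TopologicalSpace X] [CompactSpace X] [T2Space X] [TotallyDisconnectedSpace X]
variable {r : ℕ} {d : WData X r}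

/-- A state sandwiched by a kernel. -/
theorem tr_sandwich (C : SCore M X) (s k : C(X, ℝ)) {z : M} (hz : IsSelfAdjoint z) :
    C.tr (C.r s * z * C.r k * star (C.r s * z)) = C.ig (s * s * C.K z k) := by
  have hsa : IsSelfAdjoint (z * C.r k * z) := (C.r_isSelfAdjoint k).conjugate_self hz
  rw [SCore.K, hz.star_eq, ← C.tr_r_mul _ hsa, star_mul, C.star_r, hz.star_eq]
  rw [show C.r s * z * C.r k * (z * C.r s) = C.r s * (z * C.r k * z * C.r s) by
    simp only [mul_assoc], C.tr_r_comm, mul_assoc (z * C.r k * z), ← C.r_mul, ← C.tr_r_comm]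

/-- The block of the smoothed projection is the active part less the complement. -/
theorem RW_eq (C : SCore M X) (hF : ∀ c, (d.F c).FromNrm C) (c : Fin r) (m : ℕ) :
    d.RW C hF c (2 * m) = C.mulS (d.act c) + (-1 : ℝ) • d.HW C hF c m :=
  Subtype.ext (LinearMap.ext fun f => by simp [WData.HW])

/-- The smoothed noise of one colour loses no more than the noise on all active points. -/
theorem eventually_loss_le (C : SCore M X) (hF : ∀ c, (d.F c).FromNrm C) (hd : d.OkW) (c : Fin r)
    (m : ℕ) (w : C(X, ℝ)) {G : M} (hG : 0 ≤ G) (a : M) {ε : ℝ} (hε : 0 < ε) :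
    ∀ᶠ π : DiscreteQuotient X in atBot,
      ∑ c', ∑ j : π, C.tr (a * (C.r (w * d.PW m (unitVec π c' j) c) * G
          * C.r (w * d.PW m (unitVec π c' j) c)) * star a)
        ≤ C.tr (a * C.r (w * w * d.act c * C.Er G) * star a) + ε := by
  have hGsa := IsSelfAdjoint.of_nonneg hG
  have hlim := WData.tendsto_two_rows C hF hd (C.mulS w) (C.mulS w) c m hGsa a
  set W := C.mulS w with hW
  set H := d.HW C hF c m with hH
  have hR : d.RW C hF c (2 * m) = C.mulS (d.act c) + (-1 : ℝ) • H := by
    rw [hH]; exact RW_eq C hF c m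
  have hH0 : 0 ≤ C.form G a (W * C.mulS (d.act c)) (W * H) :=
    ((C.isSemi_form hG a).nonneg (W * H)).trans (WData.form_HW_le C hF hd W c m hG a)
  have hact : C.form G a (W * C.mulS (d.act c)) (W * C.mulS (d.act c))
      = C.tr (a * C.r (w * w * d.act c * C.Er G) * star a) := by
    rw [hW, C.mulS_mul, C.form_mulS _ _ hGsa]
    congr 4
    ext x
    rcases hd.base.act_01 c x with h | h <;>
      simp only [ContinuousMap.mul_apply, h] <;> ring
  have hle : C.form G a (W * C.mulS (d.act c)) (W * d.RW C hF c (2 * m))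
      ≤ C.tr (a * C.r (w * w * d.act c * C.Er G) * star a) := by
    rw [hR, mul_add, mul_smul_comm, map_add, map_smul, smul_eq_mul, hact]
    linarith
  exact (hlim.eventually_le_const (lt_add_of_le_of_pos hle hε)).mono fun π hπ => by
    simpa [hW] using hπ

/-- The smoothed noise loses exactly the diagonal of the complement of the projection. -/
theorem eventually_sq_eq (C : SCore M X) (hF : ∀ c, (d.F c).FromNrm C) (hd : d.OkW) (c : Fin r)
    (m : ℕ) (f : C(X, ℝ)) {ε : ℝ} (hε : 0 < ε) :
    ∀ᶠ π : DiscreteQuotient X in atBot,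
      |∑ c', ∑ j : π, C.ig (f * (d.PW m (unitVec π c' j) c * d.PW m (unitVec π c' j) c))
          - (C.ig (f * d.act c) - C.form (C.r f) 1 (C.mulS (d.act c)) (d.HW C hF c m))| ≤ ε := by
  have hlim := WData.tendsto_two_rows C hF hd 1 1 c m (C.r_isSelfAdjoint f) 1
  have hR : d.RW C hF c (2 * m) = C.mulS (d.act c) + (-1 : ℝ) • d.HW C hF c m :=
    RW_eq C hF c m
  have hact : C.form (C.r f) 1 (C.mulS (d.act c)) (C.mulS (d.act c)) = C.ig (f * d.act c) := by
    rw [C.form_mulS _ _ (C.r_isSelfAdjoint f), one_mul, star_one, mul_one, C.Er_r]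
    show C.ig _ = _
    congr 1
    ext x
    rcases hd.base.act_01 c x with h | h <;>
      simp only [ContinuousMap.mul_apply, h] <;> ring
  rw [one_mul, one_mul, hR, map_add, map_smul, smul_eq_mul, hact, neg_one_mul,
    ← sub_eq_add_neg] at hlim
  refine ((Metric.tendsto_nhds.1 hlim) ε hε).mono fun π hπ => le_trans (le_of_eq ?_) hπ.le
  rw [Real.dist_eq]
  congr 2
  refine Finset.sum_congr rfl fun c' _ => Finset.sum_congr rfl fun j _ => ?_
  simp only [one_mul, star_one, mul_one, OneMemClass.coe_one, Module.End.one_apply, ← C.r_mul]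
  show C.ig _ = C.ig _
  congr 1
  ring

/-- The form of the complement is a limit of diagonals of cells. -/
theorem tendsto_charge (C : SCore M X) (hF : ∀ c, (d.F c).FromNrm C) (hd : d.OkW) (c : Fin r)
    (m : ℕ) (f : C(X, ℝ)) :
    Tendsto (fun π : DiscreteQuotient X => ∑ j : π, C.ig (f * (cellFn π j
        * (d.act c * cellFn π j - d.PW (2 * m) (unitVec π c j) c)))) atBot
      (𝓝 (C.form (C.r f) 1 (C.mulS (d.act c)) (d.HW C hF c m))) := by
  refine (C.tendsto_form (C.r f) 1 (C.mulS (d.act c)) (d.HW C hF c m)).congr fun π => ?_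
  rw [C.cov_r_one]
  refine Finset.sum_congr rfl fun j _ => ?_
  have h := congrArg (fun T : C.ops => (T : Module.End ℝ C(X, ℝ)) (cellFn π j))
    (WData.act_mul_HW C hF hd c m)
  simp only [MulMemClass.coe_mul, Module.End.mul_apply, SCore.coe_mulS, mulC_apply] at h
  rw [WData.coe_HW_cell C hF hd] at h ⊢
  simp only [SCore.coe_mulS, mulC_apply]
  have e : d.act c * cellFn π j * (d.act c * cellFn π j - d.PW (2 * m) (unitVec π c j) c)
      = cellFn π j * (d.act c * (d.act c * cellFn π j - d.PW (2 * m) (unitVec π c j) c)) := by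
    ring
  rw [e, h]

end Vale.Agent.P078.Quad
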