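import Vale.Agent.P078.Quad.Defs
import Vale.Agent.P078.AllMasa.Main

/-! The initial state and the extraction of a paving from a final state. -/

namespace Vale.Agent.P078.Quad

set_option linter.unusedSectionVars false
set_option linter.unusedVariables false

open Filter Topology ComplexOrder
open Vale.Agent.P078.Tracial Vale.Agent.P078.AllMasa

variable {M X : Type} [CStarAlgebra M] [PartialOrder M] [StarOrderedRing M]
variable [TopologicalSpace X] [CompactSpace X] [T2Space X] [TotallyDisconnectedSpace X]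
variable {P : Prm M} {C : SCore M X} {r : ℕ}

private theorem norm_sgn_smul (i : Bool) (z : M) : ‖sgn i • z‖ = ‖z‖ := by
  cases i <;> simp [sgn]

private theorem sgn_smul_sq (i : Bool) (z : M) : (sgn i • z) * (sgn i • z) = z * z := by
  cases i <;> simp [sgn]

private theorem Wf_bounds (P : Prm M) : 0 ≤ P.Wf ∧ P.Wf ≤ 1 := by
  have := P.κ_le
  have := P.κ_pos
  unfold Prm.Wf
  constructor <;> linarith

/-- The resolvent of one sign at the weight one half, with its diagonal bound. -/
private theorem exists_resolvent (hP : P.Ok C) (i : Bool) :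
    ∃ G : Mˣ, 0 ≤ (G : M) ∧ (↑G⁻¹ : M) = algebraMap ℝ M (1 / 2) - sgn i • P.y ∧
      ∀ x, C.Er (G : M) x ≤ 2 + 2 * P.κ := by
  have hb := P.β_pos
  have hb1 := P.β_le
  set z := sgn i • P.y with hz
  have hzsa : IsSelfAdjoint z := IsSelfAdjoint.smul (.all _) hP.y_sa
  have hzn : ‖z‖ ≤ P.β := by rw [hz, norm_sgn_smul]; exact hP.norm_y
  have hlow : algebraMap ℝ M (1 / 4) ≤ algebraMap ℝ M (1 / 2) - z := by
    refine le_trans ?_ (sub_le_sub_left (IsSelfAdjoint.le_algebraMap_norm_self hzsa) _)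
    rw [← map_sub]
    exact algebraMap_mono M (by linarith)
  have hsp : IsStrictlyPositive (algebraMap ℝ M (1 / 2) - z) :=
    (isStrictlyPositive_algebraMap (by norm_num : (0:ℝ) < 1 / 4)).of_le hlow
  obtain ⟨u, hu⟩ := hsp.isUnit
  have hu0 : 0 ≤ (u : M) := hu ▸ hsp.nonneg
  set G : Mˣ := u⁻¹ with hG
  have hG0 : 0 ≤ (G : M) := CFC.inv_nonneg_of_nonneg u hu0
  have hGsa := IsSelfAdjoint.of_nonneg hG0
  have hinv : (↑G⁻¹ : M) = algebraMap ℝ M (1 / 2) - z := by rw [hG, inv_inv, hu]
  refine ⟨G, hG0, hinv, fun x => ?_⟩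
  have e1 : (1 / 2 : ℝ) • (G : M) = 1 + (G : M) * z := by
    have h : (G : M) * (algebraMap ℝ M (1 / 2) - z) = 1 := by rw [← hu, hG]; exact u.inv_mul
    rw [mul_sub, Algebra.algebraMap_eq_smul_one, mul_smul_comm, mul_one, sub_eq_iff_eq_add] at h
    exact h
  have hGn : ‖(G : M)‖ ≤ 2001 / 1000 := by
    have h := congrArg (fun t => ‖t‖) e1
    simp only [norm_smul, Real.norm_of_nonneg (by norm_num : (0:ℝ) ≤ 1 / 2)] at h
    have h1 : ‖(1 : M)‖ ≤ 1 := by
      rcases subsingleton_or_nontrivial M with _ | _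
      · simp [Subsingleton.elim (1 : M) 0]
      · simp
    have h2 := mul_le_mul_of_nonneg_left hzn (norm_nonneg (G : M))
    have h3 := (norm_add_le (1 : M) ((G : M) * z)).trans
      (add_le_add h1 ((norm_mul_le _ _).trans h2))
    rw [← h] at h3
    nlinarith [mul_le_mul_of_nonneg_left hb1 (norm_nonneg (G : M))]
  have e2 : (1 / 4 : ℝ) • (G : M) = algebraMap ℝ M (1 / 2) + z + (G : M) * P.y * P.y := by
    rw [show (1 / 4 : ℝ) = 1 / 2 * (1 / 2) by norm_num, mul_smul, e1, smul_add, ← smul_mul_assoc,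
      e1, Algebra.algebraMap_eq_smul_one, add_mul, one_mul, mul_assoc _ z z, hz, sgn_smul_sq,
      ← mul_assoc, add_assoc]
  have hsaGy : IsSelfAdjoint ((G : M) * P.y * P.y) := by
    rw [show (G : M) * P.y * P.y = (1 / 4 : ℝ) • (G : M) - algebraMap ℝ M (1 / 2) - z by
      rw [e2]; abel]
    exact ((IsSelfAdjoint.smul (.all _) hGsa).sub
      (IsSelfAdjoint.algebraMap M (.all _))).sub hzsa
  have h := congrArg (fun t => C.Er t x) e2
  simp only [C.Er_smul, C.Er_add, C.Er_algebraMap, hz, hP.Er_y, smul_zero,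
    ContinuousMap.smul_apply, ContinuousMap.add_apply, ContinuousMap.const_apply, add_zero,
    smul_eq_mul] at h
  have h1 : C.Er ((G : M) * P.y * P.y) x ≤ 2001 / 1000 * P.β * P.β := by
    refine ((le_abs_self _).trans ((C.Er _).norm_coe_le_norm x)).trans ?_
    refine (C.norm_Er_le hsaGy).trans ((norm_mul_le _ _).trans ?_)
    refine mul_le_mul ((norm_mul_le _ _).trans ?_) hP.norm_y (norm_nonneg _) (by positivity)
    exact mul_le_mul hGn hP.norm_y (norm_nonneg _) (by norm_num)
  unfold Prm.κ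
  nlinarith

theorem exists_start (hP : P.Ok C) (hr : 0 < r) (hS : P.S ≤ r * P.κ) :
    ∃ s : Config M X r, StateOk P C s ∧ P.Psi C s ≤ 8 * r * P.l := by
  have hκ := P.κ_pos
  have hκ1 := P.κ_le
  choose G hG0 hGinv hGe using fun i => exists_resolvent hP i
  set s0 : Col M X := ⟨1, 0, ContinuousMap.const X (1 / 2), G, fun _ => 0⟩ with hs0
  have hwt : P.wt s0 = ContinuousMap.const X (1 / 2) := by
    ext x; simp [Prm.wt, hs0]
  have hmat : ∀ i, P.mat C s0 i = 0 := by
    intro i
    have e : algebraMap ℝ M (1 / 2) + algebraMap ℝ M (1 / 2) = 1 := by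
      rw [← map_add]; norm_num
    rw [Prm.mat, hwt, C.r_const, show s0.Z i = 0 from rfl, show s0.G i = G i from rfl, hGinv,
      sub_add_cancel, e, add_zero, sub_self]
  have hT : ∀ x, 3 / 2 * P.κ ≤ P.Tc C s0 x := by
    intro x
    show 3 / 2 * P.κ ≤ TF P.κ (P.Γc C s0 x) (1 / 2)
    have hΓ : P.Γc C s0 x ≤ 2 + 2 * P.κ := by
      have := hGe true x
      have := hGe false x
      simp [Prm.Γc, Prm.γ, hs0]
      linarith
    have hc := cF_nonneg hκ hκ1 (by norm_num : (0:ℝ) ≤ 1 / 2)
    have hs := sF_nonneg hκ hκ1 (by norm_num : (0:ℝ) ≤ 1 / 2) (by linarith)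
    have h2 := mul_le_mul_of_nonneg_right hΓ hs
    have h3 : sF P.κ (1 / 2) ≤ 1 / 4 - P.κ := by unfold sF; linarith
    have h4 := mul_le_mul_of_nonneg_left h3 (by linarith : (0:ℝ) ≤ 2 + 2 * P.κ)
    unfold TF
    nlinarith [mul_pos hκ hκ]
  have hok : s0.Ok P C := {
    act_01 := fun x => Or.inr rfl
    ass_01 := fun x => Or.inl rfl
    act_ass := fun x _ => rfl
    W_mem := fun x => by
      show (0:ℝ) ≤ 1 / 2 ∧ (1 / 2 : ℝ) ≤ P.Wa
      unfold Prm.Wa
      constructor <;> linarith
    G_nonneg := hG0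
    Z_nonneg := fun _ => le_rfl
    mat_nonneg := fun i => (hmat i).symm.le
    inv := fun x _ => by
      have := hT x
      unfold Prm.b1
      linarith }
  have hdead : Config.dead (⟨fun _ => s0, 1⟩ : Config M X r) = 0 := by
    simp [Config.dead, hs0]
  refine ⟨⟨fun _ => s0, 1⟩,
    ⟨fun _ => hok, fun x => Or.inr rfl, fun x => Or.inl (by rw [hdead]; rfl), fun _ x => le_rfl⟩,
    ?_⟩
  have hb : ∀ x, P.κ ≤ P.bc C s0 x := by
    intro x
    have := hT x
    simp [Prm.bc, hs0, Prm.b1] at this ⊢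
    linarith
  have hshort : P.short C (⟨fun _ => s0, 1⟩ : Config M X r) = 0 := by
    ext x
    simp only [Prm.short, ContinuousMap.coe_mk, ContinuousMap.zero_apply]
    refine max_eq_right ?_
    have h := Finset.sum_le_sum fun (c : Fin r) (_ : c ∈ Finset.univ) => hb x
    simp at h ⊢
    linarith
  have hlG : P.lG ≤ P.l := by
    unfold Prm.lG
    exact pow_le_of_le_one P.l_pos.le P.l_le (by norm_num)
  have hpot : P.pot C s0 ≤ 8 * P.l := by
    have htr : ∀ i, C.tr (G i : M) ≤ 3 := fun i => by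
      rw [← C.ig_Er (IsSelfAdjoint.of_nonneg (hG0 i))]
      exact C.ig_le_of_le fun x => (hGe i x).trans (by linarith)
    have h1 : ∀ i, P.lG * C.tr (G i : M) ≤ P.l * 3 := fun i =>
      mul_le_mul hlG (htr i) (C.tr_nonneg (hG0 i)) P.l_pos.le
    rw [Prm.pot, hwt, C.ig_const, Fintype.sum_bool]
    simp only [hs0, C.tr_zero, zero_add]
    linarith [h1 true, h1 false, P.l_pos]
  rw [Prm.Psi, hshort, hdead]
  simp only [mul_zero, C.ig_zero, add_zero]
  refine (Finset.sum_le_sum fun c _ => hpot).trans_eq ?_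
  simp
  ring

private theorem r_sq {f : C(X, ℝ)} (h : ∀ x, f x = 0 ∨ f x = 1) :
    C.r f * C.r f = C.r f := by
  rw [← C.r_mul]
  congr 1
  ext x
  rcases h x with h | h <;> simp [h]

private theorem tr_compress_le {f : C(X, ℝ)} (h : ∀ x, f x = 0 ∨ f x = 1) {Z : M} (hZ : 0 ≤ Z) :
    C.tr (C.r f * Z * C.r f) ≤ C.tr Z := by
  have hsa := IsSelfAdjoint.of_nonneg hZ
  have e : C.tr (C.r f * Z * C.r f) = C.ig (f * C.Er Z) := by
    have h1 := C.tr_r_comm f (C.r f * Z)
    rw [← h1, ← mul_assoc, r_sq h, C.tr_r_mul f hsa]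
  rw [e, ← C.ig_Er hsa]
  refine C.ig_mono (ContinuousMap.le_def.2 fun x => ?_)
  have h2 : 0 ≤ C.Er Z x := by simpa using ContinuousMap.le_def.1 (C.Er_nonneg hZ) x
  rcases h x with h | h <;> simp [h, h2]

/-- A state gives a two-sided paving up to the cost of the slack and the unassigned part. -/
theorem exists_paving_of_state (hP : P.Ok C) {s : Config M X r} (hs : StateOk P C s) :
    ∃ (p : Fin (r + 1) → C(X, ℝ)) (Z : M), IsCol p ∧ 0 ≤ Z ∧
      C.tr Z ≤ P.Psi C s + P.β * (C.ig s.U + 16 * P.Psi C s / (√P.l * P.S ^ 2)) ∧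
      C.spinch p P.y ≤ algebraMap ℝ M (1 - P.Wf) + Z ∧
      -(algebraMap ℝ M (1 - P.Wf) + Z) ≤ C.spinch p P.y := by
  obtain ⟨hWf, hWf1⟩ := Wf_bounds P
  set V := s.U + s.dead with hV
  have hV' : V = 1 - ∑ c, (s.col c).ass := by rw [hV, Config.dead]; abel
  have hass : ∀ c x, 0 ≤ (s.col c).ass x := fun c x => by
    rcases (hs.col c).ass_01 x with h | h <;> simp [h]
  have hV01 : ∀ x, V x = 0 ∨ V x = 1 := by
    intro x
    have h1 : V x ≤ 1 := by
      rw [hV']
      simp only [ContinuousMap.sub_apply, ContinuousMap.one_apply, ContinuousMap.sum_apply]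
      linarith [Finset.sum_nonneg fun c (_ : c ∈ Finset.univ) => hass c x]
    have e : V x = s.U x + s.dead x := rfl
    rw [e] at h1 ⊢
    rcases hs.U_01 x with a | a <;> rcases hs.dead_01 x with b | b <;> rw [a, b] at h1 ⊢
    exacts [Or.inl (add_zero 0), Or.inr (zero_add 1), Or.inr (add_zero 1), absurd h1 (by norm_num)]
  have hV0 : 0 ≤ V := ContinuousMap.le_def.2 fun x => by rcases hV01 x with h | h <;> simp [h]
  have hU0 : 0 ≤ s.U := ContinuousMap.le_def.2 fun x => by
    rcases hs.U_01 x with h | h <;> simp [h]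
  have hD0 : 0 ≤ s.dead := ContinuousMap.le_def.2 fun x => by
    rcases hs.dead_01 x with h | h <;> simp [h]
  set e : Fin r → M := fun c => C.r (s.col c).ass with he
  have he0 : ∀ c, 0 ≤ e c := fun c => C.r_nonneg <| ContinuousMap.le_def.2 fun x => by
    simpa using hass c x
  set Y : Fin r → M := fun c => (s.col c).Z true + (s.col c).Z false with hY
  have hY0 : ∀ c, 0 ≤ Y c := fun c =>
    add_nonneg ((hs.col c).Z_nonneg true) ((hs.col c).Z_nonneg false)
  have hYle : ∀ c i, (s.col c).Z i ≤ Y c := fun c i => by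
    cases i
    · exact le_add_of_nonneg_left ((hs.col c).Z_nonneg true)
    · exact le_add_of_nonneg_right ((hs.col c).Z_nonneg false)
  set p : Fin (r + 1) → C(X, ℝ) := Fin.snoc (fun c => (s.col c).ass) V with hp
  set Z := (∑ c, e c * Y c * e c) + P.β • C.r V with hZ
  have hone : ∀ i : Bool, C.spinch p (sgn i • P.y) ≤ algebraMap ℝ M (1 - P.Wf) + Z := by
    intro i
    have hcol : ∀ c, e c * (sgn i • P.y) * e c ≤ (1 - P.Wf) • e c + e c * Y c * e c := by
      intro c
      have hc := hs.col c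
      have hee : e c * e c = e c := r_sq hc.ass_01
      have h1 : sgn i • P.y ≤ 1 + Y c - C.r (P.wt (s.col c)) := by
        refine le_trans ?_ (sub_le_sub_right (add_le_add le_rfl (hYle c i)) _)
        have h := add_nonneg (hc.mat_nonneg i)
          (CFC.inv_nonneg_of_nonneg ((s.col c).G i) (hc.G_nonneg i))
        rw [← sub_nonneg]
        convert h using 1
        rw [Prm.mat]; abel
      have h2 := conjugate_le_conjugate_of_nonneg h1 (he0 c)
      have h3 : e c * C.r (P.wt (s.col c)) * e c = P.Wf • e c := by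
        simp only [he, ← C.r_mul, ← C.r_smul]
        congr 1
        ext x
        rcases hc.ass_01 x with h | h
        · simp [h]
        · rcases hc.act_01 x with ha | ha
          · simp [Prm.wt, h, ha]
          · simp [hc.act_ass x ha] at h
      refine h2.trans_eq ?_
      rw [mul_sub, sub_mul, mul_add, add_mul, mul_one, hee, h3, sub_smul, one_smul]
      abel
    have hu : C.r V * (sgn i • P.y) * C.r V ≤ P.β • C.r V := by
      have h1 : sgn i • P.y ≤ algebraMap ℝ M P.β :=
        (IsSelfAdjoint.le_algebraMap_norm_self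
          (IsSelfAdjoint.smul (.all _) hP.y_sa)).trans
          (algebraMap_mono M (by rw [norm_sgn_smul]; exact hP.norm_y))
      refine (conjugate_le_conjugate_of_nonneg h1 (C.r_nonneg hV0)).trans_eq ?_
      rw [Algebra.algebraMap_eq_smul_one, mul_smul_comm, mul_one, smul_mul_assoc, r_sq hV01]
    have hsum : (1 - P.Wf) • ∑ c, e c ≤ algebraMap ℝ M (1 - P.Wf) := by
      rw [Algebra.algebraMap_eq_smul_one]
      refine smul_le_smul_of_nonneg_left ?_ (by linarith)
      rw [he, ← C.r_sum, ← C.r_one, show ∑ c, (s.col c).ass = 1 - V by rw [hV']; abel]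
      exact C.r_mono (sub_le_self _ hV0)
    rw [SCore.spinch, Fin.sum_univ_castSucc, hp]
    simp only [Fin.snoc_castSucc, Fin.snoc_last]
    calc (∑ c, e c * (sgn i • P.y) * e c) + C.r V * (sgn i • P.y) * C.r V
        ≤ (∑ c, ((1 - P.Wf) • e c + e c * Y c * e c)) + P.β • C.r V :=
          add_le_add (Finset.sum_le_sum fun c _ => hcol c) hu
      _ ≤ _ := by
          rw [Finset.sum_add_distrib, ← Finset.smul_sum, add_assoc]
          exact add_le_add hsum le_rfl
  refine ⟨p, Z, ⟨fun i => ?_, ?_⟩, ?_, ?_, ?_, ?_⟩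
  · refine Fin.lastCases ?_ (fun c => ?_) i
    · simpa [hp] using hV01
    · simpa [hp] using (hs.col c).ass_01
  · simp [hp, Fin.sum_univ_castSucc, hV']
  · exact add_nonneg (Finset.sum_nonneg fun c _ => conjugate_nonneg_of_nonneg (hY0 c) (he0 c))
      (smul_nonneg P.β_pos.le (C.r_nonneg hV0))
  · have hsl : 0 < √P.l := Real.sqrt_pos.2 P.l_pos
    have hS : 0 < P.S := lt_of_lt_of_le one_pos P.S_ge
    have hwt : ∀ c, 0 ≤ C.ig (P.wt (s.col c)) := fun c => by
      refine C.ig_nonneg (ContinuousMap.le_def.2 fun x => ?_)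
      have hW := ((hs.col c).W_mem x).1
      simp only [Prm.wt, ContinuousMap.zero_apply, ContinuousMap.add_apply,
        ContinuousMap.mul_apply, ContinuousMap.smul_apply, smul_eq_mul]
      rcases (hs.col c).act_01 x with h | h <;> rw [h] <;>
        nlinarith [mul_nonneg hWf (hass c x)]
    have hsum : ∑ c, C.tr (Y c) ≤ ∑ c, P.pot C (s.col c) := by
      refine Finset.sum_le_sum fun c _ => ?_
      rw [Prm.pot, Fintype.sum_bool, hY, C.tr_add]
      nlinarith [mul_nonneg P.l_pos.le (hwt c),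
        mul_nonneg P.lG_pos.le (C.tr_nonneg ((hs.col c).G_nonneg true)),
        mul_nonneg P.lG_pos.le (C.tr_nonneg ((hs.col c).G_nonneg false))]
    have hY1 : 0 ≤ ∑ c, C.tr (Y c) := Finset.sum_nonneg fun c _ => C.tr_nonneg (hY0 c)
    have hA : 0 ≤ C.ig (s.U * (P.short C s * P.short C s)) := by
      refine C.ig_nonneg (ContinuousMap.le_def.2 fun x => ?_)
      simpa using mul_nonneg (ContinuousMap.le_def.1 hU0 x) (mul_self_nonneg (P.short C s x))
    have hD1 : 0 ≤ C.ig s.dead := C.ig_nonneg hD0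
    have hdead : C.ig s.dead ≤ 16 * P.Psi C s / (√P.l * P.S ^ 2) := by
      rw [le_div_iff₀ (by positivity), Prm.Psi]
      nlinarith [mul_nonneg hsl.le hA]
    have hpot : (∑ c, P.pot C (s.col c)) ≤ P.Psi C s := by
      rw [Prm.Psi]
      have : 0 ≤ √P.l * (C.ig (s.U * (P.short C s * P.short C s))
          + P.S ^ 2 / 16 * C.ig s.dead) := by positivity
      linarith
    rw [hZ, C.tr_add, C.tr_smul, C.tr_sum, show C.tr (C.r V) = C.ig V from rfl, hV, C.ig_add]
    refine add_le_add ((Finset.sum_le_sum fun c _ =>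
      tr_compress_le (hs.col c).ass_01 (hY0 c)).trans (hsum.trans hpot)) ?_
    exact mul_le_mul_of_nonneg_left (add_le_add le_rfl hdead) P.β_pos.le
  · simpa [sgn] using hone true
  · have h := hone false
    rw [show sgn false • P.y = -P.y by simp [sgn], C.spinch_neg] at h
    exact neg_le.1 h

end Vale.Agent.P078.Quad
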