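import Vale.Agent.P078.Quad.Step.Colour
import Vale.Agent.P078.Quad.Step.Charge
import Vale.Agent.P078.Quad.Step.Resid
import Vale.Agent.P078.Quad.Step.Union
import Vale.Agent.P078.Tracial.Signs
import Vale.Agent.P078.AllMasa.Step

/-! An approximate minimiser has a small unassigned set. -/

namespace Vale.Agent.P078.Quad

set_option linter.unusedSectionVars false

open Filter Topology ComplexOrder
open Vale.Agent.P078.Tracial Vale.Agent.P078.AllMasa

namespace StepMain

variable {M X : Type} [CStarAlgebra M] [PartialOrder M] [StarOrderedRing M]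
variable [TopologicalSpace X] [CompactSpace X] [T2Space X] [TotallyDisconnectedSpace X]
variable {P : Prm M} {C : SCore M X} {r : ℕ} {s : Config M X r} {δ : ℝ}

theorem ig01 (C : SCore M X) {f : C(X, ℝ)} (h : ∀ x, f x = 0 ∨ f x = 1) : 0 ≤ C.ig f :=
  C.ig_nonneg (ContinuousMap.le_def.2 fun x => by rcases h x with h | h <;> simp [h])

/-- The slack is paid in the potential. -/
theorem sum_tr_Z_le (hs : StateOk P C s) :
    ∑ c, ∑ i, C.tr ((s.col c).Z i) ≤ P.Psi C s := by
  have hpot : ∀ c, ∑ i, C.tr ((s.col c).Z i) ≤ P.pot C (s.col c) := fun c => by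
    have hwt : 0 ≤ C.ig (P.wt (s.col c)) := C.ig_nonneg (ContinuousMap.le_def.2 fun x => by
      have hW := ((hs.col c).W_mem x).1
      have hWf : 0 ≤ P.Wf := by unfold Prm.Wf; linarith [P.κ_le]
      rcases (hs.col c).act_01 x with h | h <;> rcases (hs.col c).ass_01 x with h' | h' <;>
        simp [Prm.wt, h, h'] <;> linarith)
    rw [Prm.pot, Finset.sum_add_distrib]
    have h2 : 0 ≤ ∑ i, P.lG * C.tr ((s.col c).G i : M) := Finset.sum_nonneg fun i _ =>
      mul_nonneg P.lG_pos.le (C.tr_nonneg ((hs.col c).G_nonneg i))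
    linarith [mul_nonneg P.l_pos.le hwt]
  refine (Finset.sum_le_sum fun c _ => hpot c).trans (le_add_of_nonneg_right ?_)
  refine mul_nonneg (Real.sqrt_nonneg _) (add_nonneg (C.ig_nonneg ?_)
    (mul_nonneg (by positivity) (ig01 C hs.dead_01)))
  exact ContinuousMap.le_def.2 fun x => by
    rcases hs.U_01 x with h | h <;> simp [h]
    exact mul_self_nonneg _

theorem act_bounds (hs : StateOk P C s) (ctx : Ctx P C s δ) (c : Fin r) (x : X) :
    0 ≤ (s.col c).act x - ctx.good c x ∧ 0 ≤ ctx.reg c x ∧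
      (s.col c).act x - ctx.reg c x
        ≤ (s.col c).act x - ctx.good c x + (s.col c).act x * ctx.bad c x ∧
      ctx.good c x ≤ ctx.reg c x + (s.col c).act x * ctx.bad c x := by
  have h := ctx.good_le c x
  simp only [Ctx.reg, ContinuousMap.mul_apply, ContinuousMap.sub_apply, ContinuousMap.one_apply]
  rcases (hs.col c).act_01 x with ha | ha <;> rcases ctx.good_01 c x with hg | hg <;>
    rcases ctx.bad_01 c x with hb | hb <;> simp only [ha, hg, hb] at h ⊢ <;> norm_num
  all_goals linarith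

/-- A live point with a small price has a colour that is not exact. -/
theorem one_le_nongood (hP : P.Ok C) (hs : StateOk P C s) (hg : P.Good C s) (ctx : Ctx P C s δ)
    {x : X} (hx : s.U x = 1) (hp : P.price C s x < P.pmin) :
    1 ≤ ∑ c, ((s.col c).act x - ctx.good c x) := by
  obtain ⟨c, hc⟩ : ∃ c, (s.col c).act x = 1 := by
    by_contra hne
    push Not at hne
    have h := hg.half x hx
    have h0 : (∑ c, P.bc C (s.col c)) x = 0 := by
      rw [ContinuousMap.coe_sum, Finset.sum_apply]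
      refine Finset.sum_eq_zero fun c _ => ?_
      rcases (hs.col c).act_01 x with ha | ha
      · simp [Prm.bc, ha]
      · exact absurd ha (hne c)
    linarith [P.S_ge]
  have hgc : ctx.good c x = 0 := by
    rcases ctx.good_01 c x with h | h
    · exact h
    · linarith [(ctx.good_facts hP hs hg h).2.2.1]
  refine le_trans (le_of_eq ?_) (Finset.single_le_sum
    (f := fun c => (s.col c).act x - ctx.good c x) (fun d _ => (act_bounds hs ctx d x).1)
    (Finset.mem_univ c))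
  simp [hc, hgc]

theorem gainC_le_one (s : Col M X) (x : X) : 0 ≤ P.gainC s x ∧ P.gainC s x ≤ 1 := by
  obtain ⟨h1, h2⟩ := uF_rpow_bounds P.κ_pos (s.W x) (by norm_num : (0:ℝ) ≤ 11 / 20)
  exact ⟨h1.le, h2⟩

/-- The integrated budget: the gain beats the live set, up to the bad and the inexact points. -/
theorem integrated (hP : P.Ok C) (hs : StateOk P C s) (hg : P.Good C s) (ctx : Ctx P C s δ) :
    let Bd := ∑ c, C.ig ((s.col c).act * ctx.bad c)
    let Ip := C.ig (P.price C s * s.U)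
    P.S / 46 * Ip ≤ ∑ c, C.ig (P.price C s * ctx.reg c * P.gainC (s.col c))
        + P.pmax r * (Bd + r * δ) ∧
      (∑ c, C.ig (P.price C s * ctx.good c * P.gainC (s.col c))
        ≤ ∑ c, C.ig (P.price C s * ctx.reg c * P.gainC (s.col c)) + P.pmax r * Bd) ∧
      C.ig (P.pc C s * s.U) ≤ Ip + P.pmin * (r * δ) ∧
      P.pmin * C.ig s.U ≤ Ip + P.pmin * (r * δ) := by
  intro Bd Ip
  have hpb : ∀ x, 0 ≤ P.price C s x ∧ P.price C s x ≤ P.pmax r := fun x => by
    obtain ⟨h1, h2, -⟩ := price_bounds hs x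
    exact ⟨h1, h2.trans (le_add_of_nonneg_right P.pmin_pos.le)⟩
  have hng : ∑ c, C.ig ((s.col c).act - ctx.good c) ≤ r * δ :=
    (Finset.sum_le_sum fun c _ => ctx.good_small c).trans_eq (by simp)
  have hab : ∀ c x, 0 ≤ (s.col c).act x * ctx.bad c x := fun c x => by
    rcases (hs.col c).act_01 x with h | h <;> rcases ctx.bad_01 c x with h' | h' <;> simp [h, h']
  have hpM : 0 ≤ P.pmax r := by
    have := P.pmin_pos; have := P.S_ge
    unfold Prm.pmax; positivity
  refine ⟨?_, ?_, ?_, ?_⟩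
  · have hpt : (P.S / 46) • (P.price C s * s.U)
        ≤ (∑ c, P.price C s * ctx.reg c * P.gainC (s.col c))
          + P.pmax r • ((∑ c, (s.col c).act * ctx.bad c) + ∑ c, ((s.col c).act - ctx.good c)) := by
      refine ContinuousMap.le_def.2 fun x => ?_
      have h := ctx.budget_le hP hs hg x
      have h1 : ∑ c, ((s.col c).act x - ctx.reg c x)
          ≤ (∑ c, (s.col c).act x * ctx.bad c x) + ∑ c, ((s.col c).act x - ctx.good c x) := by
        rw [← Finset.sum_add_distrib]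
        exact Finset.sum_le_sum fun c _ => by linarith [(act_bounds hs ctx c x).2.2.1]
      have h0 : 0 ≤ (∑ c, (s.col c).act x * ctx.bad c x)
          + ∑ c, ((s.col c).act x - ctx.good c x) :=
        add_nonneg (Finset.sum_nonneg fun c _ => hab c x)
          (Finset.sum_nonneg fun c _ => (act_bounds hs ctx c x).1)
      simp only [ContinuousMap.smul_apply, ContinuousMap.mul_apply, ContinuousMap.add_apply,
        ContinuousMap.coe_sum, Finset.sum_apply, ContinuousMap.sub_apply, smul_eq_mul]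
      obtain ⟨hp0, hp1⟩ := hpb x
      rw [← Finset.mul_sum] at h
      have h2 := mul_le_mul_of_nonneg_left (h.trans (add_le_add le_rfl h1)) hp0
      have h3 := mul_le_mul_of_nonneg_right hp1 h0
      have h4 : ∑ c, P.price C s x * ctx.reg c x * P.gainC (s.col c) x
          = P.price C s x * ∑ c, ctx.reg c x * P.gainC (s.col c) x := by
        rw [Finset.mul_sum]; exact Finset.sum_congr rfl fun c _ => by ring
      rw [h4]
      have h5 := mul_nonneg hpM h0
      linarith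
    have := C.ig_mono hpt
    rw [C.ig_smul, C.ig_add, C.ig_sum, C.ig_smul, C.ig_add, C.ig_sum, C.ig_sum] at this
    linarith [mul_le_mul_of_nonneg_left hng hpM]
  · rw [Finset.mul_sum, ← Finset.sum_add_distrib]
    refine Finset.sum_le_sum fun c _ => ?_
    rw [← C.ig_smul, ← C.ig_add]
    refine C.ig_mono (ContinuousMap.le_def.2 fun x => ?_)
    simp only [ContinuousMap.smul_apply, ContinuousMap.mul_apply, ContinuousMap.add_apply,
      smul_eq_mul]
    obtain ⟨hg0, hg1⟩ := gainC_le_one (P := P) (s.col c) x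
    obtain ⟨hp0, hp1⟩ := hpb x
    have h1 := mul_le_mul_of_nonneg_left
      (mul_le_mul_of_nonneg_right (act_bounds hs ctx c x).2.2.2 hg0) hp0
    have h2 : P.price C s x * (((s.col c).act x * ctx.bad c x) * P.gainC (s.col c) x)
        ≤ P.pmax r * ((s.col c).act x * ctx.bad c x) :=
      mul_le_mul hp1 (mul_le_of_le_one_right (hab c x) hg1) (mul_nonneg (hab c x) hg0) hpM
    linarith
  all_goals
    refine le_trans ?_ (add_le_add le_rfl (mul_le_mul_of_nonneg_left hng P.pmin_pos.le))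
    rw [← C.ig_sum]
    simp only [← C.ig_smul, show Ip = C.ig (P.price C s * s.U) from rfl, ← C.ig_add]
  all_goals
    refine C.ig_mono (ContinuousMap.le_def.2 fun x => ?_)
    simp only [ContinuousMap.smul_apply, ContinuousMap.mul_apply, ContinuousMap.add_apply,
      ContinuousMap.coe_sum, Finset.sum_apply, ContinuousMap.sub_apply, smul_eq_mul]
    have h0 : 0 ≤ P.pmin * ∑ c, ((s.col c).act x - ctx.good c x) :=
      mul_nonneg P.pmin_pos.le (Finset.sum_nonneg fun c _ => (act_bounds hs ctx c x).1)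
    have hp0 := (hpb x).1
    show _ ≤ _
    rcases hs.U_01 x with hU | hU <;> rw [hU]
    · simp only [mul_zero, zero_add]; exact h0
    · rcases lt_or_ge (P.price C s x) P.pmin with hp | hp
      · have := mul_le_mul_of_nonneg_left (one_le_nongood hP hs hg ctx hU hp) P.pmin_pos.le
        first
          | linarith
          | (show max (P.price C s x) P.pmin * 1 ≤ _; rw [max_eq_right hp.le]; linarith)
      · first
          | linarith
          | (show max (P.price C s x) P.pmin * 1 ≤ _; rw [max_eq_left hp]; linarith)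

theorem μc_bound (hs : StateOk P C s) (c : Fin r) {B : ℝ} {F : Fin r → Fam X}
    {ctx : Ctx P C s δ} (hd : (ctx.data F B).OkW) (f : C(X, ℝ)) :
    ‖P.μc (s.col c) * f‖ ≤ B * ‖f‖ := by
  refine Tracial.norm_le_of_abs (mul_nonneg hd.base.B_pos.le (norm_nonneg _)) fun x => ?_
  rw [ContinuousMap.mul_apply, abs_mul]
  refine mul_le_mul ?_ (f.norm_coe_le_norm x) (abs_nonneg _) hd.base.B_pos.le
  exact (abs_of_pos (hd.μ_pos c x)).le.trans (hd.μ_le c x)

/-- The sum of the slack and of the bad points in terms of the potential. -/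
theorem small_bounds (hs : StateOk P C s) (ctx : Ctx P C s δ) {T : ℝ} (hT : P.Psi C s ≤ T) :
    let Bd := ∑ c, C.ig ((s.col c).act * ctx.bad c)
    let Zs := ∑ c, ∑ i, C.tr ((s.col c).Z i)
    0 ≤ Bd ∧ 0 ≤ Zs ∧ Bd ≤ 40 / P.κ * T ∧ Zs ≤ T := by
  intro Bd Zs
  have hZ : Zs ≤ T := (sum_tr_Z_le hs).trans hT
  refine ⟨Finset.sum_nonneg fun c _ => ig01 C fun x => ?_,
    Finset.sum_nonneg fun c _ => Finset.sum_nonneg fun i _ =>
      C.tr_nonneg ((hs.col c).Z_nonneg i), ?_, hZ⟩
  · rcases (hs.col c).act_01 x with h | h <;> rcases ctx.bad_01 c x with h' | h' <;> simp [h, h']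
  · refine (Finset.sum_le_sum fun c _ => ctx.bad_small c).trans ?_
    rw [← Finset.mul_sum]
    exact mul_le_mul_of_nonneg_left hZ (by have := P.κ_pos; positivity)

/-- The second variation on the averaged kernel, all colours summed. -/
theorem test_kernels (hP : P.Ok C) (hs : StateOk P C s) (hg : P.Good C s) (ctx : Ctx P C s δ)
    (hl3 : P.l ^ 3 ≤ P.κ ^ 8) {B a ω η : ℝ} (hB : 1 ≤ B) (ha : 0 < a) (hω : 1 ≤ ω) (hη : 0 < η)
    {F : Fin r → Fam X} (hd : (ctx.data F B).OkW) (hFN : ∀ c, (F c).FromNrm C)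
    (hFK : ∀ c (f : C(X, ℝ)), 0 ≤ f → (F c).K f ≤ ∑ i, C.K (C.off ((s.col c).G i : M)) f)
    (hFt : ∀ c, ∀ᶠ π : DiscreteQuotient X in atBot,
      ∑ j : π, C.ig (((∑ i, C.K (C.off ((s.col c).G i : M)) (cellFn π j)) - (F c).K (cellFn π j))
        * ((∑ i, C.K (C.off ((s.col c).G i : M)) (cellFn π j)) - (F c).K (cellFn π j))) ≤ a)
    {m : ℕ} (hm : 0 < m)
    (hW : 2 * ((ctx.data F B).TW / m) + 64 * (r : ℝ) ^ 2 * (1 + P.Λ) ^ 8 * B ^ 4 * (a + δ)
      ≤ 3 * η)
    (hsecond : ∀ v : Fin r → C(X, ℝ), (∀ c, ‖v c‖ ≤ B * 2 ^ m) →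
      (∀ c, v c * (s.col c).act = v c) → 0 ≤ P.quad C s v + η) :
    0 ≤ -(1 / 4 - (10 : ℝ) ^ 14 / ω)
          * (∑ c, C.ig (P.price C s * ctx.reg c * P.gainC (s.col c)))
        + (10 : ℝ) ^ 14 * ω * (∑ c, C.form (C.r (P.price C s * ctx.reg c * P.chargeC (s.col c))) 1
            (C.mulS (ctx.good c)) ((ctx.data F B).HW C hFN c m))
        + ω * (1 / P.κ) ^ 80 * P.pmax r
            * ((∑ c, C.ig ((s.col c).act * ctx.bad c)) + ∑ c, ∑ i, C.tr ((s.col c).Z i))
        + 6 * η := by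
  classical
  set ε2 : ℝ := η / ((r : ℝ) + 1) with hε2def
  have hε2 : 0 < ε2 := by positivity
  have hr2 : (r : ℝ) * ε2 ≤ η ∧ ε2 ≤ η := by
    constructor
    · rw [hε2def, ← mul_div_assoc, div_le_iff₀ (by positivity)]; linarith
    · rw [hε2def]; exact div_le_self hη.le (le_add_of_nonneg_left (Nat.cast_nonneg r))
  obtain ⟨π, hπc, hπr⟩ := ((eventually_all.2 fun c =>
    ctx.eventually_colour_le hP hs hg hl3 F B hd hFN c m hω hε2).and
      (ctx.eventually_resid_le hP hs hg F hB hd hFN hFK ha hFt hm hε2)).exists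
  set d := ctx.data F B with hddef
  set k : Fin r × π → Fin r → C(X, ℝ) := fun ci c =>
    P.μc (s.col c) * d.PW m (unitVec π ci.1 ci.2) c with hkdef
  obtain ⟨sg, hsg, hle⟩ := Tracial.exists_signs (P.quad C s) (quad_parallelogram s) k Finset.univ
  set u : Fin r → C(X, ℝ) := ∑ ci : Fin r × π, sg ci • unitVec π ci.1 ci.2 with hudef
  set v : Fin r → C(X, ℝ) := fun c => P.μc (s.col c) * d.PW m u c with hvdef
  have hveq : ∑ ci : Fin r × π, sg ci • k ci = v := by
    funext c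
    simp only [hvdef, hudef, hkdef, map_sum, map_smul, Finset.sum_apply, Pi.smul_apply,
      Finset.mul_sum, mul_smul_comm]
  rw [hveq] at hle
  have hvn : ∀ c, ‖v c‖ ≤ B * 2 ^ m := fun c => by
    refine (μc_bound hs c hd _).trans (mul_le_mul_of_nonneg_left ?_ (by linarith))
    exact (norm_le_pi_norm _ c).trans ((WData.norm_PW_le hd m u).trans
      (mul_le_of_le_one_right (by positivity) (StepAux.norm_signed_le hsg)))
  have hva : ∀ c, v c * (s.col c).act = v c := fun c => by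
    ext x
    have h := congrArg (fun f : C(X, ℝ) => f x) (WData.PW_supp hd m u c)
    have hle := ctx.good_le c x
    simp only [ContinuousMap.mul_apply] at h
    simp only [hvdef, ContinuousMap.mul_apply]
    rcases (hs.col c).act_01 x with ha | ha <;> rw [ha] at hle ⊢
    · rcases ctx.good_01 c x with h' | h'
      · rw [show d.act c x = 0 from h', mul_zero] at h
        rw [← h]; simp
      · linarith
    · rw [mul_one]
  have h0 := hsecond v hvn hva
  have hsum : ∑ ci : Fin r × π, P.quad C s (k ci)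
      = (∑ c, ∑ c', ∑ j : π, P.quadC C s c (P.μc (s.col c) * d.PW m (unitVec π c' j) c))
        + √P.l * ∑ c', ∑ j : π, C.ig (s.U
            * (P.resid C s (fun c => P.μc (s.col c) * d.PW m (unitVec π c' j) c)
              * P.resid C s (fun c => P.μc (s.col c) * d.PW m (unitVec π c' j) c))) := by
    rw [Fintype.sum_prod_type]
    simp only [Prm.quad, hkdef, Finset.sum_add_distrib, Finset.mul_sum]
    congr 1
    conv_lhs => enter [2, c']; rw [Finset.sum_comm]
    rw [Finset.sum_comm]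
  rw [hsum] at hle
  have hc := Finset.sum_le_sum fun c (_ : c ∈ Finset.univ) => hπc c
  simp only [Finset.sum_add_distrib, ← Finset.mul_sum, Finset.sum_const, Finset.card_univ,
    Fintype.card_fin, nsmul_eq_mul] at hc
  have hres : √P.l * ∑ c', ∑ j : π, C.ig (s.U
      * (P.resid C s (fun c => P.μc (s.col c) * d.PW m (unitVec π c' j) c)
        * P.resid C s (fun c => P.μc (s.col c) * d.PW m (unitVec π c' j) c))) ≤ 4 * η := by
    refine (mul_le_of_le_one_left ?_ (Real.sqrt_le_one.2 P.l_le)).trans (hπr.trans ?_)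
    · refine Finset.sum_nonneg fun c' _ => Finset.sum_nonneg fun j _ =>
        C.ig_nonneg (ContinuousMap.le_def.2 fun x => ?_)
      rcases hs.U_01 x with h | h <;> simp [h]
      exact mul_self_nonneg _
    linarith [hr2.2]
  linarith [hr2.1]

/-- The scalar end of the argument. -/
theorem arith {G G' H Ip Ipc U Bd Zs S pmax pmin η rδ Q K : ℝ}
    (hc : 0 ≤ -(3 / 16) * G + H + K * (Bd + Zs) + 6 * η)
    (hH : H ≤ Q * Ipc + 1 / 16 * G')
    (i1 : S / 46 * Ip ≤ G + pmax * (Bd + rδ)) (i2 : G' ≤ G + pmax * Bd)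
    (i3 : Ipc ≤ Ip + pmin * rδ) (i4 : pmin * U ≤ Ip + pmin * rδ)
    (hQ : 0 ≤ Q) (hS : Q + 1 ≤ S / 368) (hIp : 0 ≤ Ip) (hBd : 0 ≤ Bd) (hp : 0 ≤ pmax)
    (hpm : 0 ≤ pmin) (hrδ0 : 0 ≤ rδ) (hrδ : rδ * (pmax + (Q + 2) * pmin) ≤ η) :
    pmin * U ≤ K * (Bd + Zs) + 2 * (pmax * Bd) + 9 * η := by
  have h1 := mul_le_mul_of_nonneg_left i3 hQ
  have h2 := mul_le_mul_of_nonneg_right hS hIp
  have h3 : 0 ≤ pmax * Bd := mul_nonneg hp hBd
  have h4 : 0 ≤ pmax * rδ := mul_nonneg hp hrδ0
  have h5 : 0 ≤ pmin * rδ := mul_nonneg hpm hrδ0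
  have h6 : 0 ≤ Q * (pmin * rδ) := mul_nonneg hQ h5
  linarith

/-- The cost of the bad points and of the slack. -/
theorem cost {K Bd Zs T pmax κ A : ℝ} (hK : 0 ≤ K) (hκ : 0 < κ) (hp : 0 ≤ pmax)
    (hpA : pmax ≤ A) (hT : 0 ≤ T) (hBd : Bd ≤ 40 / κ * T) (hZ : Zs ≤ T) :
    K * pmax * (Bd + Zs) + 2 * (pmax * Bd) ≤ A * ((K * 2 + 2) * (40 / κ + 1) * T) := by
  have h40 : 0 ≤ 40 / κ * T := by positivity
  calc K * pmax * (Bd + Zs) + 2 * (pmax * Bd)
      = pmax * (K * (Bd + Zs) + 2 * Bd) := by ring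
    _ ≤ pmax * ((K * 2 + 2) * (40 / κ + 1) * T) := by
        refine mul_le_mul_of_nonneg_left ?_ hp
        have h1 := mul_le_mul_of_nonneg_left (add_le_add hBd hZ) hK
        have h2 := mul_nonneg hK h40
        have h3 := mul_nonneg hK hT
        nlinarith
    _ ≤ _ := mul_le_mul_of_nonneg_right hpA (by positivity)

end StepMain

open StepMain in
theorem U_small :
    ∃ S0 : ℝ, 1 ≤ S0 ∧ ∀ β : ℝ, 0 < β → β ≤ 1 / 1000000 → ∀ (r : ℕ) {ε : ℝ}, 0 < ε →
      ∃ l0 : ℝ, 0 < l0 ∧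
        ∀ {M X : Type} [CStarAlgebra M] [PartialOrder M] [StarOrderedRing M]
          [TopologicalSpace X] [CompactSpace X] [T2Space X] [TotallyDisconnectedSpace X]
          (C : SCore M X) (P : Prm M), P.Ok C → P.β = β → P.S = S0 → P.l ≤ l0 →
          ∃ ζ > 0, ∀ s : Config M X r, StateOk P C s → P.Good C s → P.IsMin C s ζ →
            P.Psi C s ≤ 8 * r * P.l → C.ig s.U ≤ ε := by
  refine ⟨10 ^ 90, by norm_num, fun β hβ hβ1 r ε hε => ?_⟩
  obtain ⟨ω, hω1, hcoef, hS⟩ : ∃ ω : ℝ, 1 ≤ ω ∧ 1 / 4 - (10 : ℝ) ^ 14 / ω = 3 / 16 ∧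
      (10 : ℝ) ^ 14 * ω * 10 ^ 10 * (16 * ((10 : ℝ) ^ 14 * ω * 10 ^ 10)) + 1
        ≤ (10 : ℝ) ^ 90 / 368 :=
    ⟨16 * 10 ^ 14, by norm_num, by norm_num, by norm_num⟩
  set κ : ℝ := 6 * β ^ 2 with hκdef
  have hκ : 0 < κ := by positivity
  set C2 : ℝ := (10 : ℝ) ^ 14 * ω * 10 ^ 10 with hC2def
  have hC2 : 1 ≤ C2 := by
    rw [hC2def]
    exact one_le_mul_of_one_le_of_one_le
      (one_le_mul_of_one_le_of_one_le (one_le_pow₀ (by norm_num)) hω1) (one_le_pow₀ (by norm_num))
  set A : ℝ := 2 * 10 ^ 90 + 2 * (r : ℝ) + 1 with hAdef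
  set Cb : ℝ := A * ((ω * (1 / κ) ^ 80 * 2 + 2) * (40 / κ + 1) * (8 * r)) with hCbdef
  have hCb : 0 ≤ Cb := by positivity
  set c1 : ℝ := 100000000 * κ / 10 with hc1def
  have hc1 : 0 < c1 := by positivity
  set l0 : ℝ := min (min 1 (κ ^ 3)) ((ε * c1 / (4 * (Cb + 1))) ^ 2) with hl0def
  refine ⟨l0, lt_min (lt_min one_pos (by positivity)) (by positivity),
    fun {M X} _ _ _ _ _ _ _ C P hP hPβ hPS hPl => ?_⟩
  classical
  have hPκ : P.κ = κ := by rw [Prm.κ, hPβ]
  have hκ1 : κ ≤ 1 := by rw [← hPκ]; linarith [P.κ_le, P.κ_pos]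
  have hl := P.l_pos
  have hΛ := P.Λ_pos
  have hl3 : P.l ^ 3 ≤ P.κ ^ 8 := by
    have h1 : P.l ≤ κ ^ 3 := hPl.trans ((min_le_left _ _).trans (min_le_right _ _))
    rw [hPκ]
    refine (pow_le_pow_left₀ hl.le h1 3).trans ?_
    rw [← pow_mul]
    exact pow_le_pow_of_le_one hκ.le hκ1 (by norm_num)
  have hsq : √P.l * (4 * (Cb + 1)) ≤ ε * c1 := by
    have h := Real.sqrt_le_sqrt (hPl.trans (min_le_right _ _))
    rw [Real.sqrt_sq (by positivity), le_div_iff₀ (by positivity)] at h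
    exact h
  have hsl : 0 < √P.l := Real.sqrt_pos.2 hl
  have hlsl : P.l ≤ √P.l := by
    rw [Real.le_sqrt hl.le hl.le, sq]; exact mul_le_of_le_one_left hl.le P.l_le
  have hpmin : P.pmin = P.l * c1 := by rw [Prm.pmin, hPκ, hc1def]; ring
  have hpm := P.pmin_pos
  have hc11 : c1 ≤ 1 := by
    rw [hc1def]; linarith [P.κ_le, hPκ]
  have hpmax : P.pmax r ≤ √P.l * A := by
    rw [Prm.pmax, hPS, hpmin, hAdef]
    have := mul_le_mul hlsl hc11 hc1.le hsl.le
    linarith
  have hpM : 0 < P.pmax r := by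
    have := P.S_ge; unfold Prm.pmax; positivity
  set B : ℝ := (1 / P.κ) ^ 8 + 8 * P.Λ ^ 2 + 1 with hBdef
  have hB1 : 1 ≤ B := by
    have := P.κ_pos
    rw [hBdef]; exact le_add_of_nonneg_left (by positivity)
  set η : ℝ := ε * P.pmin / 64 with hηdef
  have hη : 0 < η := by positivity
  set TW : ℝ := (r + 1) * (2 * B ^ 3) ^ 2 with hTW
  set m : ℕ := ⌈2 * TW / η⌉₊ + 1 with hmdef
  have hm : 0 < m := Nat.succ_pos _
  set Kr : ℝ := 64 * (r : ℝ) ^ 2 * (1 + P.Λ) ^ 8 * B ^ 4 with hKrdef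
  have hKr : 0 ≤ Kr := by positivity
  set a : ℝ := η / (Kr + 1) with hadef
  have ha : 0 < a := by positivity
  set Y : ℝ := ((r : ℝ) + 1) * (P.pmax r + (C2 * (16 * C2) + 2) * P.pmin) with hYdef
  have hY : 0 ≤ Y := by positivity
  set δ : ℝ := η / ((Kr + 1) + Y) with hδdef
  have hδ : 0 < δ := by positivity
  obtain ⟨ζ1, hζ1, hctx⟩ := exists_ctx hP r hδ
  obtain ⟨ζ2, hζ2, hsecond⟩ := exists_second hP r (show 0 ≤ B * 2 ^ m by positivity) hη
  refine ⟨min ζ1 ζ2, lt_min hζ1 hζ2, fun s hs hg hmin hPsi => ?_⟩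
  obtain ⟨ctx⟩ := hctx s hs hg fun u hu =>
    (hmin u hu).trans (add_le_add le_rfl (min_le_left _ _))
  choose F hFs hFN hFK hF1 hFt using fun c => exists_family_pair C (s.col c).G
    (hs.col c).G_nonneg ha hΛ.le (hg.G_le c)
  have hd : (ctx.data F B).OkW := ctx.data_ok hP hs hg F hFs
    (by rw [hBdef]; linarith [sq_nonneg P.Λ])
    (fun c x => (hF1 c x).trans (by
      have := P.κ_pos
      rw [hBdef]; linarith [pow_nonneg (one_div_nonneg.2 this.le) 8]))
  have hδX : δ * ((Kr + 1) + Y) = η := by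
    rw [hδdef]; exact div_mul_cancel₀ _ (by positivity)
  have h1 : 2 * ((ctx.data F B).TW / m) ≤ η := by
    have hT : (ctx.data F B).TW = TW := rfl
    rw [hT, ← mul_div_assoc, div_le_iff₀ (by positivity)]
    have : 2 * TW / η ≤ (m : ℝ) := (Nat.le_ceil _).trans (by rw [hmdef]; push_cast; linarith)
    rw [div_le_iff₀ hη] at this
    linarith
  have h2 : Kr * (a + δ) ≤ 2 * η := by
    have e1 : a * (Kr + 1) = η := by rw [hadef]; exact div_mul_cancel₀ _ (by positivity)
    linarith [mul_nonneg hδ.le hY]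
  have hc := test_kernels hP hs hg ctx hl3 hB1 ha hω1 hη hd hFN hFK hFt hm
    (by rw [← hKrdef]; linarith) (hsecond s hs hg fun t ht =>
      (hmin t ht).trans (add_le_add le_rfl (min_le_right _ _)))
  have hch := mul_le_mul_of_nonneg_left (ctx.sum_charge_le hP hs hg F B hd hFN hFK m
    (L := 16 * C2) (by linarith)) (show 0 ≤ (10 : ℝ) ^ 14 * ω by positivity)
  obtain ⟨i1, i2, i3, i4⟩ := integrated hP hs hg ctx
  obtain ⟨hBd0, -, hBd, hZ⟩ := small_bounds hs ctx hPsi
  rw [hPκ] at hBd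
  rw [hcoef, hPκ] at hc
  have hH : ∀ u w : ℝ, (10 : ℝ) ^ 14 * ω * (10 ^ 10 * (16 * C2 * u + 1 / (16 * C2) * w))
      = C2 * (16 * C2) * u + 1 / 16 * w := fun u w => by
    rw [show (10 : ℝ) ^ 14 * ω * (10 ^ 10 * (16 * C2 * u + 1 / (16 * C2) * w))
      = C2 * (16 * C2 * u + 1 / (16 * C2) * w) by rw [hC2def]; ring]
    field_simp
  rw [hH] at hch
  have hIp0 : 0 ≤ C.ig (P.price C s * s.U) := C.ig_nonneg (ContinuousMap.le_def.2 fun x => by
    have h1 := (price_bounds (r := r) hs x).1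
    rcases hs.U_01 x with h | h <;> simp [h, h1])
  have hrδ : (r : ℝ) * δ * (P.pmax r + (C2 * (16 * C2) + 2) * P.pmin) ≤ η := by
    have h0 : 0 ≤ δ * (Kr + 1) := by positivity
    have h1 : 0 ≤ δ * (P.pmax r + (C2 * (16 * C2) + 2) * P.pmin) := by positivity
    rw [hYdef] at hδX
    linarith
  have hfinal := arith hc hch i1 i2 i3 i4 (by positivity) (by rw [hPS]; exact hS) hIp0 hBd0
    hpM.le hpm.le (by positivity) hrδ
  have hcost := hfinal.trans (add_le_add (cost (A := √P.l * A)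
    (by positivity : (0:ℝ) ≤ ω * (1 / κ) ^ 80) hκ hpM.le hpmax (by positivity) hBd hZ) le_rfl)
  have hCbeq : √P.l * A * ((ω * (1 / κ) ^ 80 * 2 + 2) * (40 / κ + 1) * (8 * r * P.l))
      = √P.l * Cb * P.l := by rw [hCbdef]; ring
  rw [hCbeq] at hcost
  have hfin : √P.l * Cb * P.l ≤ ε * P.pmin / 4 := by
    rw [hpmin]
    have h := mul_le_mul_of_nonneg_right hsq hl.le
    linarith [mul_nonneg hsl.le hl.le]
  have hη64 : η * 64 = ε * P.pmin := by rw [hηdef]; ring
  refine le_of_mul_le_mul_left ?_ hpm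
  linarith [mul_pos hε hpm]

end Vale.Agent.P078.Quad
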