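import Vale.Agent.P078.Quad.Clean
import Vale.Agent.P078.Quad.Start
import Vale.Agent.P078.Quad.Step
import Vale.Agent.P078.AllMasa.Reduction
import Vale.Agent.P078.Tracial.Statement

/-! Quadratically many pieces suffice for every MASA of every von Neumann algebra. -/

namespace Vale.Agent.P078.Quad

set_option linter.unusedSectionVars false

open Filter Topology ComplexOrder
open Vale.Agent.P078.Tracial Vale.Agent.P078.AllMasa

/-- A state that is nearly minimal gives a paving once the budget is that of the step. -/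
theorem exists_pavingConclusion :
    ∃ S0 : ℝ, 1 ≤ S0 ∧ ∀ ε : ℝ, 0 < ε → ε ≤ 1 → ∀ r : ℕ, 0 < r →
      S0 ≤ r * (6 * (ε / 2400000000) ^ 2) → AllMasa.PavingConclusion ε (r + 1) := by
  obtain ⟨S0, hS0, hU⟩ := U_small
  refine ⟨S0, hS0, fun ε hε hε1 r hr hrS => ?_⟩
  intro M X _ _ _ _ _ _ _ C x hx hx1 δ hδ
  set β := ε / 2400000000 with hβ
  have hβ0 : 0 < β := by positivity
  have hβle : β ≤ 1 / 1000000 := by rw [hβ]; linarith
  set x' := (1 / 2 : ℝ) • (x - C.r (C.Er x)) with hx'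
  have hx's : IsSelfAdjoint x' :=
    (IsSelfAdjoint.all _).smul (hx.sub (C.r_isSelfAdjoint _))
  have hx'1 : ‖x'‖ ≤ 1 := by
    rw [hx', norm_smul]
    have := norm_sub_le x (C.r (C.Er x))
    have := (C.norm_r_le (C.Er x)).trans (C.norm_Er_le hx)
    norm_num
    linarith
  have hE : C.Er x' = 0 := by
    rw [hx', C.Er_smul, C.Er_sub, C.Er_r, sub_self, smul_zero]
  set y := β • x' with hy
  have hys : IsSelfAdjoint y := (IsSelfAdjoint.all _).smul hx's
  have hEy : C.Er y = 0 := by rw [hy, C.Er_smul, hE, smul_zero]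
  have hyn : ‖y‖ ≤ β := by
    rw [hy, norm_smul, Real.norm_of_nonneg hβ0.le]
    exact mul_le_of_le_one_right hβ0.le hx'1
  have hrR : (0 : ℝ) < r := Nat.cast_pos.2 hr
  obtain ⟨l0, hl0, hUl⟩ := hU β hβ0 hβle r (show 0 < δ / 8 by positivity)
  set l := min (min 1 l0) (min (δ * β / (64 * r)) ((δ / (1024 * r)) ^ 2)) with hl
  have hlp : 0 < l := lt_min (lt_min one_pos hl0) (lt_min (by positivity) (by positivity))
  set P : Prm M := ⟨y, β, S0, l, hβ0, hβle, hS0, hlp, (min_le_left _ _).trans (min_le_left _ _)⟩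
    with hP
  have hPok : P.Ok C := ⟨hys, hEy, hyn⟩
  obtain ⟨ζ, hζ, hmain⟩ := hUl C P hPok rfl rfl ((min_le_left _ _).trans (min_le_right _ _))
  obtain ⟨s00, hs00, hstart⟩ := exists_start (C := C) hPok hr hrS
  obtain ⟨s0, hs0, hle0, hmin⟩ := exists_near_min hPok hs00 hζ
  obtain ⟨s, hs, hgood, hle⟩ := exists_improve hPok hs0
  have hΨ : P.Psi C s ≤ 8 * r * l := hle.trans (hle0.trans hstart)
  have hΨ0 := Psi_nonneg hPok hs
  have hUle := hmain s hs hgood (fun u hu => hle.trans (hmin u hu)) hΨ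
  obtain ⟨p, Z, hp, hZ, htr, hup, hdown⟩ := exists_paving_of_state hPok hs
  have hkey : C.spinch p x - C.r (C.Er x) = (2 / β) • C.spinch p y := by
    rw [hy, C.spinch_smul, smul_smul, div_mul_cancel₀ _ hβ0.ne', hx', C.spinch_smul,
      smul_smul, show (2 : ℝ) * (1 / 2) = 1 by norm_num, one_smul, sub_eq_add_neg,
      sub_eq_add_neg, C.spinch_add, C.spinch_neg, C.spinch_r hp]
  have h2β : (0 : ℝ) ≤ 2 / β := by positivity
  have hsc : (2 / β) • algebraMap ℝ M (1 - P.Wf) ≤ algebraMap ℝ M ε := by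
    rw [Algebra.algebraMap_eq_smul_one, smul_smul, ← Algebra.algebraMap_eq_smul_one]
    refine algebraMap_mono M (le_of_eq ?_)
    show 2 / β * (1 - (1 - 200000000 * (6 * β ^ 2))) = ε
    rw [hβ]; field_simp; ring
  refine ⟨p, (2 / β) • Z, hp.1, hp.2, smul_nonneg h2β hZ, ?_, ?_, ?_⟩
  · have hsl : 0 < √l := Real.sqrt_pos.2 hlp
    have a1 : 8 * (r : ℝ) * l ≤ δ * β / 8 := by
      calc 8 * (r : ℝ) * l ≤ 8 * r * (δ * β / (64 * r)) := by
            gcongr; exact (min_le_right _ _).trans (min_le_left _ _)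
        _ = δ * β / 8 := by field_simp; ring
    have a2 : 16 * P.Psi C s / (√l * S0 ^ 2) ≤ δ / 8 := by
      have h1 : √l ≤ δ / (1024 * r) := by
        rw [Real.sqrt_le_iff]
        exact ⟨by positivity, (min_le_right _ _).trans (min_le_right _ _)⟩
      have h2 : (1 : ℝ) ≤ S0 ^ 2 := one_le_pow₀ hS0
      calc 16 * P.Psi C s / (√l * S0 ^ 2) ≤ 16 * (8 * r * l) / √l :=
            div_le_div₀ (by positivity) (by linarith) hsl (le_mul_of_one_le_right hsl.le h2)
        _ = 128 * r * √l := by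
            rw [div_eq_iff hsl.ne', mul_assoc (128 * (r : ℝ)), Real.mul_self_sqrt hlp.le]; ring
        _ ≤ 128 * r * (δ / (1024 * r)) := mul_le_mul_of_nonneg_left h1 (by positivity)
        _ = δ / 8 := by field_simp; ring
    have htr' : C.tr Z ≤ δ * β / 2 := by
      refine htr.trans ?_
      show P.Psi C s + β * (C.ig s.U + 16 * P.Psi C s / (√l * S0 ^ 2)) ≤ δ * β / 2
      have := mul_le_mul_of_nonneg_left (add_le_add hUle a2) hβ0.le
      nlinarith [mul_pos hδ hβ0]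
    rw [C.tr_smul]
    calc 2 / β * C.tr Z ≤ 2 / β * (δ * β / 2) := mul_le_mul_of_nonneg_left htr' h2β
      _ = δ := by field_simp
  · rw [hkey]
    refine (smul_le_smul_of_nonneg_left hup h2β).trans ?_
    rw [smul_add]
    exact add_le_add hsc le_rfl
  · rw [hkey]
    refine le_trans ?_ (smul_le_smul_of_nonneg_left hdown h2β)
    rw [smul_neg, smul_add]
    exact neg_le_neg (add_le_add hsc le_rfl)

/-- Quadratically many pieces so-pave every self-adjoint element over every MASA of every von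
Neumann algebra. -/
theorem soPavableIn_all_quadratic :
    ∃ C : ℝ, 0 < C ∧ ∀ ε : ℝ, 0 < ε → ε ≤ 1 → ∃ n : ℕ, (n : ℝ) ≤ C * (1 / ε) ^ 2 ∧
      ∀ (H : Type) [NormedAddCommGroup H] [InnerProductSpace ℂ H] [CompleteSpace H]
        (M : VonNeumannAlgebra H) (A : StarSubalgebra ℂ (H →L[ℂ] H)),
        SubalgebraOf M A → IsAbelianAlg A → ContainsRelCommutant M A →
        AllSoPavableIn M A ε n := by
  obtain ⟨S0, hS0, hpav⟩ := exists_pavingConclusion
  refine ⟨S0 * 4800000000 ^ 2 + 4, by positivity, fun ε hε hε1 => ?_⟩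
  set r := ⌈S0 / (6 * (ε / 2 / 2400000000) ^ 2)⌉₊ with hr
  have hr0 : 0 < r := Nat.ceil_pos.2 (by positivity)
  have hrS : S0 ≤ (r : ℝ) * (6 * (ε / 2 / 2400000000) ^ 2) :=
    (div_le_iff₀ (by positivity)).1 (Nat.le_ceil _)
  refine ⟨r + 1 + (⌊1 / ε⌋₊ + 1), ?_, fun H _ _ _ M A h1 h2 h3 x hx hxs =>
    soPavableIn_of_paving_all M A h1 h3 h2 hε
      (hpav (ε / 2) (by positivity) (by linarith) r hr0 hrS) hx hxs⟩
  set a := 1 / ε with ha
  have he : 1 ≤ a := one_le_one_div hε hε1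
  have h1' : (⌊a⌋₊ : ℝ) ≤ a := Nat.floor_le (by linarith)
  have h4 : (r : ℝ) ≤ S0 * 4800000000 ^ 2 * a ^ 2 + 1 := by
    have h3 : (r : ℝ) < S0 / (6 * (ε / 2 / 2400000000) ^ 2) + 1 :=
      Nat.ceil_lt_add_one (by positivity)
    have e : S0 / (6 * (ε / 2 / 2400000000) ^ 2) = S0 * 4800000000 ^ 2 * a ^ 2 / 6 := by
      rw [ha]; field_simp; ring
    have : 0 ≤ S0 * 4800000000 ^ 2 * a ^ 2 := by positivity
    linarith
  have h5 : 1 ≤ a ^ 2 := one_le_pow₀ he
  have h7 : a ≤ a ^ 2 := le_self_pow₀ he (by norm_num)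
  push_cast
  linarith

end Vale.Agent.P078.Quad
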