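import Vale.Agent.P078.Quad.Defs
import Vale.Agent.P078.Quad.Kernel

/-! Pointwise facts at active points, and at active points of small excess. -/

namespace Vale.Agent.P078.Quad

set_option linter.unusedSectionVars false

open Filter Topology ComplexOrder
open Vale.Agent.P078.Tracial Vale.Agent.P078.AllMasa

variable {M X : Type} [CStarAlgebra M] [PartialOrder M] [StarOrderedRing M]
variable [TopologicalSpace X] [CompactSpace X] [T2Space X] [TotallyDisconnectedSpace X]
variable {P : Prm M} {C : SCore M X} {r : ℕ}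

namespace Prm

/-- The excess of the diagonal of one inverse resolvent. -/
noncomputable def excess (P : Prm M) (C : SCore M X) (s : Col M X) (i : Bool) : C(X, ℝ) :=
  ⟨fun x => C.Er (↑(s.G i)⁻¹ : M) x - xi P.κ (s.W x),
    (map_continuous _).sub ((continuous_xi P.κ).comp (map_continuous s.W))⟩

/-- The Jensen inequality of the diagonal. -/
theorem one_le_γ_mul (s : Col M X) (i : Bool) (hG : 0 ≤ (s.G i : M)) (x : X) :
    1 ≤ C.Er (s.G i : M) x * C.Er (↑(s.G i)⁻¹ : M) x := by
  set a := (s.G i : M) with ha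
  set b := (↑(s.G i)⁻¹ : M) with hb
  have hb' : star b = b := by
    have h : star (s.G i) = s.G i := Units.ext (IsSelfAdjoint.of_nonneg hG).star_eq
    rw [hb, ← Units.coe_star_inv, h]
  have key : ∀ t : ℝ, 0 ≤ C.Er b x * (t * t) + (-2) * t + C.Er a x := fun t => by
    have h0 : 0 ≤ star (1 - t • b) * a * (1 - t • b) := star_left_conjugate_nonneg hG _
    have hab : a * b = 1 := Units.mul_inv _
    have hba : b * a = 1 := Units.inv_mul _
    have e : star (1 - t • b) * a * (1 - t • b) = a - (2 * t) • (1 : M) + (t * t) • b := by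
      rw [star_sub, star_one, star_smul, hb', star_trivial t, sub_mul, one_mul, smul_mul_assoc,
        hba, sub_mul, mul_sub, mul_one, mul_smul_comm, hab, mul_sub, mul_one, smul_mul_assoc,
        one_mul, smul_smul, two_mul, add_smul]
      abel
    rw [e] at h0
    have h1 := ContinuousMap.le_def.1 (C.Er_nonneg h0) x
    simp only [C.Er_add, C.Er_sub, C.Er_smul, C.Er_one, ContinuousMap.zero_apply,
      ContinuousMap.add_apply, ContinuousMap.sub_apply, ContinuousMap.smul_apply,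
      ContinuousMap.one_apply, smul_eq_mul, mul_one] at h1
    linarith
  have h := discrim_le_zero key
  rw [discrim] at h
  linarith

/-- What is known at every active point. -/
theorem act_facts (hP : P.Ok C) {s : Col M X} (hs : s.Ok P C) {x : X} (hx : s.act x = 1) :
    P.b1 ≤ s.W x ∧ (∀ i, 0 < P.γ C s i x ∧ P.γ C s i x * xi P.κ (s.W x) ≤ 3) ∧
      P.b1 ≤ P.Dc C s x ∧ P.Dc C s x ≤ 5 / xi P.κ (s.W x) ∧
      P.b1 * xi P.κ (s.W x) / 4 ≤ P.nc s x ∧ P.nc s x ≤ xi P.κ (s.W x) ∧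
      (∀ i, P.excess C s i x ≤ C.Er (s.Z i) x) := by
  have hκ := P.κ_pos
  have hκ1 := P.κ_le
  set w := s.W x with hw
  have hw0 : 0 ≤ w := (hs.W_mem x).1
  have hwa : w ≤ 1 - 100000000 * P.κ := (hs.W_mem x).2
  have hξ := xi_eq hwa
  have hwt : P.wt s x = w := by simp [Prm.wt, hx, hs.act_ass x hx, hw]
  have hγ0 : ∀ i, 0 ≤ P.γ C s i x := fun i =>
    ContinuousMap.le_def.1 (C.Er_nonneg (hs.G_nonneg i)) x
  have hγpos : ∀ i, 0 < P.γ C s i x := fun i => by
    refine lt_of_le_of_ne (hγ0 i) fun h => ?_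
    have := one_le_γ_mul (C := C) s i (hs.G_nonneg i) x
    simp only [Prm.γ] at h
    rw [← h, zero_mul] at this
    linarith
  set Γ := P.Γc C s x with hΓdef
  have hΓe : Γ = (P.γ C s true x + P.γ C s false x) / 2 := by
    simp [hΓdef, Prm.Γc]; ring
  have hΓ : 0 ≤ Γ := by rw [hΓe]; linarith [hγ0 true, hγ0 false]
  have hT : P.b1 ≤ TF P.κ Γ w := hs.inv x hx
  have hb1 : P.b1 ≤ w := hT.trans (TF_le hκ hκ1 hΓ hw0 hwa)
  have hwp : 0 < w := lt_of_lt_of_le P.b1_pos hb1
  have hT0 : 0 ≤ TF P.κ Γ w := P.b1_pos.le.trans hT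
  obtain ⟨-, hΓx⟩ := gam_le hκ hκ1 hΓ hwp hwa hT0
  have hu := uF_le hκ w
  have hxp := xi_pos hκ w
  obtain ⟨-, hs1, hs2⟩ := sF_bounds hκ hκ1 hw0 hwa
  have hnc : P.nc s x = sF P.κ w / 2 := by
    simp [Prm.nc, Prm.sc, ← hw]; ring
  refine ⟨hb1, fun i => ⟨hγpos i, ?_⟩, hb1.trans (le_DF hκ hκ1 hΓ hwp hwa hT0),
    DF_le hκ hκ1 hΓ hwp hwa hT0, ?_, ?_, fun i => ?_⟩
  · have hi : P.γ C s i x ≤ 2 * Γ := by
      rw [hΓe]; cases i <;> linarith [hγ0 true, hγ0 false]
    nlinarith [mul_le_mul_of_nonneg_right hi hxp.le]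
  · rw [hnc]
    linarith [mul_le_mul_of_nonneg_right hb1 hxp.le]
  · rw [hnc]
    linarith [mul_le_mul_of_nonneg_right (show w ≤ 1 by linarith) hxp.le,
      sF_nonneg hκ hκ1 hw0 hwa]
  · have hE : C.Er (sgn i • P.y) x = 0 := by simp [C.Er_smul, hP.Er_y]
    have h := ContinuousMap.le_def.1 (C.Er_nonneg (hs.mat_nonneg i)) x
    simp only [Prm.mat, C.Er_sub, C.Er_add, C.Er_one, C.Er_r, ContinuousMap.zero_apply,
      ContinuousMap.sub_apply, ContinuousMap.add_apply, ContinuousMap.one_apply, hE, hwt] at h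
    simp only [Prm.excess, ContinuousMap.coe_mk, ← hw, hξ]
    linarith

/-- An active point of small excess is a good point of the profile. -/
theorem goodPt (hP : P.Ok C) {s : Col M X} (hs : s.Ok P C) {x : X} (hx : s.act x = 1)
    (hex : ∀ i, P.excess C s i x ≤ P.κ / 20) :
    GoodPt P.κ (s.W x) (P.γ C s true x) (P.γ C s false x) (P.excess C s true x)
      (P.excess C s false x) := by
  obtain ⟨hb1, hγ, -, -, -, -, -⟩ := act_facts hP hs hx
  have hκ := P.κ_pos
  have hlow : ∀ i, 1 ≤ P.γ C s i x * (xi P.κ (s.W x) + P.excess C s i x) := fun i => by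
    refine (one_le_γ_mul (C := C) s i (hs.G_nonneg i) x).trans_eq ?_
    simp [Prm.γ, Prm.excess]
  exact {
    κ_pos := hκ
    κ_le := P.κ_le
    w_pos := lt_of_lt_of_le P.b1_pos hb1
    w_le := (hs.W_mem x).2
    a_pos := (hγ true).1
    b_pos := (hγ false).1
    Pa_le := hex true
    Pb_le := hex false
    a_low := hlow true
    b_low := hlow false
    T_nonneg := by
      have h := le_trans P.b1_pos.le (hs.inv x hx)
      refine h.trans_eq ?_
      simp only [Prm.Tc, Prm.Γc, ContinuousMap.coe_mk, ContinuousMap.smul_apply,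
        ContinuousMap.add_apply, smul_eq_mul]
      ring_nf }

/-- The relative slack at an active point of small excess. -/
theorem Th_le (hP : P.Ok C) {s : Col M X} (hs : s.Ok P C) {x : X} (hx : s.act x = 1)
    (hex : ∀ i, P.excess C s i x ≤ P.κ / 20) (i : Bool) :
    Th C (s.G i) x ≤ 48 * P.uc s x * P.γ C s i x := by
  have g := goodPt hP hs hx hex
  obtain ⟨-, hγ, -⟩ := act_facts hP hs hx
  have hg : ∀ i, P.γ C s i x * (xi P.κ (s.W x) + P.excess C s i x) - 1
      ≤ 48 * uF P.κ (s.W x) := by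
    intro i; cases i
    · exact g.swap.theta_le
    · exact g.theta_le
  have h := mul_le_mul_of_nonneg_left (hg i) (hγ i).1.le
  rw [Th_eq C (hs.G_nonneg i) x]
  simp only [Prm.γ, Prm.excess, Prm.uc, ContinuousMap.coe_mk] at h ⊢
  rw [add_sub_cancel] at h
  linarith

/-- The relative slack at every active point. -/
theorem Th_le_crude (hP : P.Ok C) {s : Col M X} (hs : s.Ok P C) {x : X} (hx : s.act x = 1)
    (i : Bool) :
    Th C (s.G i) x ≤ P.γ C s i x * (3 + 3 / xi P.κ (s.W x) * C.Er (s.Z i) x) := by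
  obtain ⟨-, hγ, -, -, -, -, hex⟩ := act_facts hP hs hx
  obtain ⟨hγ0, hγ3⟩ := hγ i
  have hξ := xi_pos P.κ_pos (s.W x)
  have hZ : 0 ≤ C.Er (s.Z i) x := ContinuousMap.le_def.1 (C.Er_nonneg (hs.Z_nonneg i)) x
  have he := hex i
  simp only [Prm.excess, ContinuousMap.coe_mk] at he
  rw [Th_eq C (hs.G_nonneg i) x]
  have h3 : P.γ C s i x ≤ 3 / xi P.κ (s.W x) := (le_div_iff₀ hξ).2 hγ3
  refine mul_le_mul_of_nonneg_left ?_ hγ0.le
  have h4 := mul_le_mul_of_nonneg_left
    (show C.Er (↑(s.G i)⁻¹ : M) x ≤ xi P.κ (s.W x) + C.Er (s.Z i) x by linarith) hγ0.le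
  have h5 := mul_le_mul_of_nonneg_right h3 hZ
  simp only [Prm.γ] at h4 h5 hγ3
  linarith

end Prm

end Vale.Agent.P078.Quad
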