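import Vale.Agent.P078.Quad.MoveDefs
import Vale.Agent.P078.Quad.Point
import Vale.Agent.P078.AllMasa.Step.Alg
import Vale.Agent.P078.AllMasa.StepColour

/-! First and second order at an approximate minimiser. The weight goes up by `η k` on the active
points and the inverse of each resolvent down by the same amount, so the slack is unchanged. -/

namespace Vale.Agent.P078.Quad

set_option linter.unusedSectionVars false

open Filter Topology ComplexOrder
open Vale.Agent.P078.Tracial Vale.Agent.P078.AllMasa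

/-- The level under a small move, to second order. -/
private theorem level_step {κ w η k Γ Γ' a1 a2 a3 L B A : ℝ} (hκ : 0 < κ)
    (hκ1 : 100000000 * κ ≤ 1 / 100) (hw0 : 0 ≤ w) (hw : w ≤ 1 - 100000000 * κ)
    (hw' : w + η * k ≤ 1 - 100000000 * κ) (hd : |η * k| ≤ xi κ w / 2) (hη : |η| ≤ 1)
    (hk : |k| ≤ B) (hΓ : 0 ≤ Γ ∧ Γ ≤ L) (hΓ' : 0 ≤ Γ')
    (h : Γ' = Γ + η * a1 + η ^ 2 * a2 + η ^ 3 * a3) (h1 : |a1| ≤ A) (h2 : |a2| ≤ A)
    (h3 : |a3| ≤ A) :
    TF κ Γ w + η * (DF κ Γ w * k - sF κ w * a1)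
        + η ^ 2 * (-(sF κ w * a2 + Γ * (s2 κ w / 2) * (k * k) + s1 κ w * k * a1))
        - |η| ^ 3 * (A + 4 * B * A + (2 + 1 / κ) * B ^ 2 * (3 * A)
          + (L + 3 * A) * (100 * κ / (100000000 * κ) ^ 3) * B ^ 3)
      ≤ TF κ Γ' (w + η * k)
      ∧ |DF κ Γ w * k - sF κ w * a1| ≤ (1 + 2 * L) * B + A
      ∧ |sF κ w * a2 + Γ * (s2 κ w / 2) * (k * k) + s1 κ w * k * a1|
          ≤ A + L * (2 + 1 / κ) * B ^ 2 + 2 * B * A := by
  have hB : 0 ≤ B := (abs_nonneg k).trans hk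
  have hA : 0 ≤ A := (abs_nonneg a1).trans h1
  have hL : 0 ≤ L := hΓ.1.trans hΓ.2
  have hw1 : w ≤ 1 := by linarith
  have hκi : 0 ≤ 1 / κ := by positivity
  obtain ⟨-, -, hs⟩ := sF_bounds hκ hκ1 hw0 hw
  have hs0 := sF_nonneg hκ hκ1 hw0 hw
  have hsa : |sF κ w| ≤ 1 := by
    rw [abs_of_nonneg hs0]
    exact hs.trans (mul_le_one₀ hw1 (xi_pos hκ w).le (xi_le_one hκ1 hw0))
  have ht1 := abs_s1_le hκ hκ1 hw0 hw1
  have ht2 : |s2 κ w / 2| ≤ 2 + 1 / κ := by
    obtain ⟨c0, c2'⟩ := c2_bounds hκ w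
    have hc : 11 / 5 * uF κ w / xi κ w ≤ 1 / κ := by
      calc 11 / 5 * uF κ w / xi κ w ≤ 11 / 5 * (1 / 100000000) / (100000000 * κ) := by
            gcongr
            · exact uF_le hκ w
            · exact xi_ge κ w
        _ ≤ 1 / κ := by
            rw [div_le_div_iff₀ (by positivity) hκ]; linarith
    exact abs_le.2 ⟨by unfold s2; linarith, by unfold s2; linarith⟩
  have he2 : η ^ 2 = |η| ^ 2 := (sq_abs η).symm
  have hη0 := abs_nonneg η
  have p3 : ∀ n : ℕ, 3 ≤ n → |η| ^ n ≤ |η| ^ 3 := fun n hn =>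
    pow_le_pow_of_le_one hη0 hη hn
  have hΔ : |η * a1 + η ^ 2 * a2 + η ^ 3 * a3| ≤ |η| * (3 * A) := by
    refine (abs_add_three _ _ _).trans ?_
    rw [abs_mul, abs_mul, abs_mul, abs_pow, abs_pow]
    have e2 : |η| ^ 2 * |a2| ≤ |η| * A :=
      mul_le_mul (pow_le_of_le_one hη0 hη two_ne_zero) h2 (abs_nonneg _) hη0
    have e3 : |η| ^ 3 * |a3| ≤ |η| * A :=
      mul_le_mul (pow_le_of_le_one hη0 hη three_ne_zero) h3 (abs_nonneg _) hη0
    linarith [mul_le_mul_of_nonneg_left h1 hη0]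
  have hGb : Γ' ≤ L + 3 * A := by
    have := le_abs_self (η * a1 + η ^ 2 * a2 + η ^ 3 * a3)
    have := mul_le_mul_of_nonneg_right hη (by positivity : (0:ℝ) ≤ 3 * A)
    linarith [hΓ.2]
  refine ⟨?_, ?_, ?_⟩
  · refine le_trans ?_ (TF_step hκ (Γ := Γ) hw hw' hd hΓ')
    have hE : Γ' * (100 * κ / xi κ w ^ 3 * |η * k| ^ 3)
        ≤ |η| ^ 3 * ((L + 3 * A) * (100 * κ / (100000000 * κ) ^ 3) * B ^ 3) := by
      rw [abs_mul, mul_pow]
      calc Γ' * (100 * κ / xi κ w ^ 3 * (|η| ^ 3 * |k| ^ 3))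
          ≤ (L + 3 * A) * (100 * κ / (100000000 * κ) ^ 3 * (|η| ^ 3 * B ^ 3)) := by
            have := xi_ge κ w
            gcongr
            · have := xi_pos hκ w; positivity
        _ = _ := by ring
    have hc1 : |sF κ w * (η ^ 3 * a3)| ≤ |η| ^ 3 * A := by
      rw [abs_mul, abs_mul, abs_pow]
      exact mul_le_of_le_one_left (by positivity) hsa |>.trans
        (mul_le_mul_of_nonneg_left h3 (by positivity))
    have hc2 : |s1 κ w * k * (η ^ 3 * a2 + η ^ 4 * a3)| ≤ |η| ^ 3 * (4 * B * A) := by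
      rw [abs_mul, abs_mul]
      have e : |η ^ 3 * a2 + η ^ 4 * a3| ≤ |η| ^ 3 * (2 * A) := by
        refine (abs_add_le _ _).trans ?_
        rw [abs_mul, abs_mul, abs_pow, abs_pow]
        linarith [mul_le_mul_of_nonneg_left h2 (pow_nonneg hη0 3),
          mul_le_mul (p3 4 (by norm_num)) h3 (abs_nonneg _) (pow_nonneg hη0 3)]
      calc |s1 κ w| * |k| * |η ^ 3 * a2 + η ^ 4 * a3| ≤ 2 * B * (|η| ^ 3 * (2 * A)) := by
            gcongr
        _ = _ := by ring
    have hc3 : |s2 κ w / 2 * (η * k) ^ 2 * (η * a1 + η ^ 2 * a2 + η ^ 3 * a3)|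
        ≤ |η| ^ 3 * ((2 + 1 / κ) * B ^ 2 * (3 * A)) := by
      rw [abs_mul, abs_mul, abs_pow, abs_mul, mul_pow]
      calc |s2 κ w / 2| * (|η| ^ 2 * |k| ^ 2) * |η * a1 + η ^ 2 * a2 + η ^ 3 * a3|
          ≤ (2 + 1 / κ) * (|η| ^ 2 * B ^ 2) * (|η| * (3 * A)) := by gcongr
        _ = _ := by ring
    have eΔ : Γ' - Γ = η * a1 + η ^ 2 * a2 + η ^ 3 * a3 := by rw [h]; ring
    rw [eΔ]
    linear_combination hE + (abs_le.1 hc1).2 + (abs_le.1 hc2).2 + (abs_le.1 hc3).2
  · refine (abs_sub _ _).trans (add_le_add ?_ ?_)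
    · rw [abs_mul]
      refine mul_le_mul ?_ hk (abs_nonneg _) (by positivity)
      refine (abs_sub _ _).trans ?_
      rw [abs_one, abs_mul, abs_of_nonneg hΓ.1]
      linarith [mul_le_mul hΓ.2 ht1 (abs_nonneg _) hL]
    · rw [abs_mul]
      exact (mul_le_of_le_one_left (abs_nonneg _) hsa).trans h1
  · refine (abs_add_three _ _ _).trans (add_le_add (add_le_add ?_ ?_) ?_)
    · rw [abs_mul]
      exact (mul_le_of_le_one_left (abs_nonneg _) hsa).trans h2
    · rw [abs_mul, abs_mul, abs_of_nonneg hΓ.1, abs_mul, ← sq]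
      gcongr
      exact hΓ.2
    · rw [abs_mul, abs_mul]
      gcongr

variable {M X : Type} [CStarAlgebra M] [PartialOrder M] [StarOrderedRing M]
variable [TopologicalSpace X] [CompactSpace X] [T2Space X] [TotallyDisconnectedSpace X]
variable {P : Prm M} {C : SCore M X}

/-- The second order term of one resolvent. -/
private noncomputable def J2 (C : SCore M X) (G : Mˣ) (k : C(X, ℝ)) : M :=
  (G : M) * C.r k * (G : M) * C.r k * (G : M)

/-- A resolvent whose inverse goes down by a small function. -/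
private theorem exists_res_move (C : SCore M X) {G : Mˣ} (hG : 0 ≤ (G : M)) {L B η : ℝ}
    (hL : 0 < L) (hGL : (G : M) ≤ algebraMap ℝ M L) {k : C(X, ℝ)} (hk : ‖k‖ ≤ B)
    (hη : |η| * B * L ≤ 1 / 2) :
    ∃ G' : Mˣ, (↑G'⁻¹ : M) = ↑G⁻¹ - η • C.r k ∧ 0 ≤ (G' : M) ∧
      (∀ x, |C.Er (G' : M) x - (C.Er (G : M) x + η * C.K (G : M) k x
          + η ^ 2 * C.Er (J2 C G k) x)| ≤ |η| ^ 3 * (2 * L ^ 4 * B ^ 3)) ∧
      C.tr (G' : M) ≤ C.tr (G : M) + η * C.tr ((G : M) * C.r k * (G : M))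
          + η ^ 2 * C.tr (J2 C G k) + |η| ^ 3 * (2 * L ^ 4 * B ^ 3) ∧
      (∀ x, |C.K (G : M) k x| ≤ L ^ 2 * B ∧ |C.Er (J2 C G k) x| ≤ L ^ 3 * B ^ 2) := by
  have hB : 0 ≤ B := (norm_nonneg k).trans hk
  have hGsa : IsSelfAdjoint (G : M) := .of_nonneg hG
  have hGn : ‖(G : M)‖ ≤ L := StepAux.norm_le_of_le_algebraMap hL.le hG hGL
  have hkn : ‖C.r k‖ ≤ B := (C.norm_r_le k).trans hk
  set u : Mˣ := Units.map (algebraMap ℝ M).toMonoidHom (Units.mk0 L hL.ne') with hu
  have hlow : algebraMap ℝ M (1 / L) ≤ (↑G⁻¹ : M) := by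
    have h := CStarAlgebra.inv_le_inv (a := G) (b := u) hG (by simpa [hu] using hGL)
    simpa [hu, one_div] using h
  have hDn : ‖-(η • C.r k)‖ ≤ |η| * B := by
    rw [norm_neg, norm_smul, Real.norm_eq_abs]; gcongr
  have hsa : IsSelfAdjoint (-(η • C.r k)) :=
    ((IsSelfAdjoint.all η).smul (C.r_isSelfAdjoint k)).neg
  obtain ⟨hp, hexp⟩ := StepColour.inverse_expand (by positivity : 0 < 1 / L) hlow hsa
    (hDn.trans (by rw [div_div, le_div_iff₀ (by positivity)]; linarith))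
  rw [← sub_eq_add_neg] at hp hexp
  set G' : Mˣ := hp.isUnit.unit⁻¹ with hG'
  have hi : (↑G'⁻¹ : M) = ↑G⁻¹ - η • C.r k := by rw [hG', inv_inv, IsUnit.unit_spec]
  have hv : Ring.inverse ((↑G⁻¹ : M) - η • C.r k) = (G' : M) := by
    rw [← hi, Ring.inverse_unit, inv_inv]
  have hG'0 : 0 ≤ (G' : M) :=
    Core.units_inv_nonneg (G := hp.isUnit.unit) (by rw [IsUnit.unit_spec]; exact hp.nonneg)
  have hJsa : IsSelfAdjoint (J2 C G k) := by
    show star _ = _
    simp only [J2, star_mul, hGsa.star_eq, C.star_r, mul_assoc]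
  have h1sa : IsSelfAdjoint ((G : M) * C.r k * (G : M)) :=
    (C.r_isSelfAdjoint k).conjugate_self hGsa
  set ρ := (G' : M) - (G + η • ((G : M) * C.r k * G) + η ^ 2 • J2 C G k) with hρ
  have hρn : ‖ρ‖ ≤ |η| ^ 3 * (2 * L ^ 4 * B ^ 3) := by
    rw [hv, Ring.inverse_unit, inv_inv] at hexp
    simp only [mul_neg, neg_mul, smul_neg, neg_neg, sub_neg_eq_add, mul_smul_comm, smul_mul_assoc,
      smul_smul, ← sq] at hexp
    refine (le_of_eq ?_).trans (hexp.trans ?_)
    · rw [hρ, J2]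
    · calc ‖-(η • C.r k)‖ ^ 3 * (2 / (1 / L) ^ 4) ≤ (|η| * B) ^ 3 * (2 / (1 / L) ^ 4) := by
            gcongr
        _ = _ := by field_simp
  have hρsa : IsSelfAdjoint ρ :=
    (IsSelfAdjoint.of_nonneg hG'0).sub ((hGsa.add ((IsSelfAdjoint.all η).smul h1sa)).add
      ((IsSelfAdjoint.all (η ^ 2)).smul hJsa))
  have hGe : (G' : M) = G + η • ((G : M) * C.r k * G) + η ^ 2 • J2 C G k + ρ := by
    rw [hρ, add_sub_cancel]
  have hKe : C.K (G : M) k = C.Er ((G : M) * C.r k * G) := by rw [SCore.K, hGsa.star_eq]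
  refine ⟨G', hi, hG'0, fun x => ?_, ?_, fun x => ⟨?_, ?_⟩⟩
  · rw [hGe, hKe]
    simp only [C.Er_add, C.Er_smul, ContinuousMap.add_apply, ContinuousMap.smul_apply,
      smul_eq_mul, add_sub_cancel_left]
    exact Tracial.abs_apply_le ((C.norm_Er_le hρsa).trans hρn) x
  · rw [hGe]
    simp only [C.tr_add, C.tr_smul]
    linarith [(C.tr_le_norm hρsa).trans hρn]
  · refine (StepAux.abs_K_le (C := C) hGn k x).trans ?_
    gcongr
  · refine Tracial.abs_apply_le ((C.norm_Er_le hJsa).trans ?_) x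
    calc ‖J2 C G k‖ ≤ ‖(G : M)‖ * ‖C.r k‖ * ‖(G : M)‖ * ‖C.r k‖ * ‖(G : M)‖ :=
          StepColour.norm_mul₅_le _ _ _ _ _
      _ ≤ L * B * L * B * L := by gcongr
      _ = L ^ 3 * B ^ 2 := by ring

namespace Prm

/-- The second order loss of the level of one colour. -/
private noncomputable def qc (P : Prm M) (C : SCore M X) (s : Col M X) (k : C(X, ℝ)) : C(X, ℝ) :=
  s.act * ((1 / 2 : ℝ) • (P.Γc C s * P.s2c s * (k * k))
    + (1 / 2 : ℝ) • (P.s1c s * k * ∑ i, C.K (s.G i : M) k)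
    + P.nc s * ∑ i, C.Er (J2 C (s.G i) k))

/-- The first order change of the cost of one colour. -/
private noncomputable def linC (P : Prm M) (C : SCore M X) (s : Col M X) (k : C(X, ℝ)) : ℝ :=
  P.l * C.ig k + P.lG * ∑ i, C.tr ((s.G i : M) * C.r k * (s.G i : M))

/-- The second order change of the cost of one colour. -/
private noncomputable def jC (P : Prm M) (C : SCore M X) (s : Col M X) (k : C(X, ℝ)) : ℝ :=
  P.lG * ∑ i, C.tr (J2 C (s.G i) k)

/-- The level and the first two orders of one colour at an active point. -/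
private theorem col_point {s : Col M X} (hs : s.Ok P C) {L B η : ℝ} (hL : 0 < L)
    (hG : ∀ i, (s.G i : M) ≤ algebraMap ℝ M L) {k : C(X, ℝ)} (hk : ‖k‖ ≤ B) (hη1 : |η| ≤ 1)
    {G' : Bool → Mˣ} (hG'0 : ∀ i, 0 ≤ (G' i : M))
    (hEr : ∀ i x, |C.Er (G' i : M) x - (C.Er (s.G i : M) x + η * C.K (s.G i : M) k x
      + η ^ 2 * C.Er (J2 C (s.G i) k) x)| ≤ |η| ^ 3 * (2 * L ^ 4 * B ^ 3))
    (hbd : ∀ i x, |C.K (s.G i : M) k x| ≤ L ^ 2 * B ∧
      |C.Er (J2 C (s.G i) k) x| ≤ L ^ 3 * B ^ 2)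
    {x : X} (hx : s.act x = 1) (hw' : s.W x + η * k x ≤ P.Wa) (hd : |η * k x| ≤ P.b1) :
    let A := L ^ 2 * B + L ^ 3 * B ^ 2 + 2 * L ^ 4 * B ^ 3
    P.Tc C s x + η * P.dirT C s k x - η ^ 2 * P.qc C s k x
        - |η| ^ 3 * (A + 4 * B * A + (2 + 1 / P.κ) * B ^ 2 * (3 * A)
          + (L + 3 * A) * (100 * P.κ / (100000000 * P.κ) ^ 3) * B ^ 3)
      ≤ P.Tc C ⟨s.act, s.ass, s.W + η • k, G', s.Z⟩ x
    ∧ |P.dirT C s k x| ≤ (1 + 2 * L) * B + A
    ∧ |P.qc C s k x| ≤ A + L * (2 + 1 / P.κ) * B ^ 2 + 2 * B * A := by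
  intro A
  have hκ := P.κ_pos
  have hκ1 := P.κ_le
  have hb := P.b1_pos
  have hB : 0 ≤ B := (norm_nonneg k).trans hk
  have hA : A = L ^ 2 * B + L ^ 3 * B ^ 2 + 2 * L ^ 4 * B ^ 3 := rfl
  clear_value A
  set s' : Col M X := ⟨s.act, s.ass, s.W + η • k, G', s.Z⟩ with hs'
  have hw := hs.W_mem x
  have hγ : ∀ i, 0 ≤ P.γ C s i x ∧ P.γ C s i x ≤ L := fun i =>
    StepAux.Er_mem (hs.G_nonneg i) (hG i) x
  have hγ' : ∀ i, 0 ≤ C.Er (G' i : M) x := fun i =>
    ContinuousMap.le_def.1 (C.Er_nonneg (hG'0 i)) x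
  have hξ := xi_ge P.κ (s.W x)
  set ρ : Bool → ℝ := fun i => C.Er (G' i : M) x - (C.Er (s.G i : M) x
    + η * C.K (s.G i : M) k x + η ^ 2 * C.Er (J2 C (s.G i) k) x) with hρ
  set a3 := (ρ true + ρ false) / (2 * η ^ 3) with ha3
  have hρb : ∀ i, |ρ i| ≤ |η| ^ 3 * (2 * L ^ 4 * B ^ 3) := fun i => hEr i x
  have hρ0 : ρ true + ρ false = 2 * η ^ 3 * a3 := by
    by_cases h0 : η = 0
    · have ht := hρb true
      have hf := hρb false
      rw [h0, abs_zero, zero_pow three_ne_zero, zero_mul, abs_nonpos_iff] at ht hf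
      rw [ht, hf, h0]; ring
    · rw [ha3]; field_simp
  have ha3b : |a3| ≤ A := by
    have h4 : (|ρ true| + |ρ false|) / (2 * |η| ^ 3) ≤ 2 * L ^ 4 * B ^ 3 :=
      div_le_of_le_mul₀ (by positivity) (by positivity)
        (by linarith [hρb true, hρb false])
    have h5 : |a3| ≤ (|ρ true| + |ρ false|) / (2 * |η| ^ 3) := by
      rw [ha3, abs_div, abs_mul, abs_pow, abs_two]
      gcongr
      exact abs_add_le _ _
    have : (0:ℝ) ≤ L ^ 2 * B + L ^ 3 * B ^ 2 := by positivity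
    linarith
  have hΓ' : (C.Er (G' true : M) x + C.Er (G' false : M) x) / 2
      = (P.γ C s true x + P.γ C s false x) / 2
        + η * ((C.K (s.G true : M) k x + C.K (s.G false : M) k x) / 2)
        + η ^ 2 * ((C.Er (J2 C (s.G true) k) x + C.Er (J2 C (s.G false) k) x) / 2)
        + η ^ 3 * a3 := by
    simp only [hρ] at hρ0
    simp only [Prm.γ]
    linarith
  obtain ⟨h1, h2, h3⟩ := level_step (L := L) (B := B) (A := A) hκ hκ1 hw.1 hw.2
    hw'
    (hd.trans (by unfold Prm.b1; linarith)) hη1 (Tracial.abs_apply_le hk x)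
    ⟨by linarith [hγ true, hγ false], by linarith [hγ true, hγ false]⟩
    (by linarith [hγ' true, hγ' false]) hΓ'
    (by
      obtain ⟨a, -⟩ := hbd true x
      obtain ⟨b, -⟩ := hbd false x
      rw [abs_div, abs_two, div_le_iff₀ two_pos]
      have : (0:ℝ) ≤ L ^ 3 * B ^ 2 + 2 * L ^ 4 * B ^ 3 := by positivity
      linarith [abs_add_le (C.K (s.G true : M) k x) (C.K (s.G false : M) k x)])
    (by
      obtain ⟨-, a⟩ := hbd true x
      obtain ⟨-, b⟩ := hbd false x
      rw [abs_div, abs_two, div_le_iff₀ two_pos]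
      have : (0:ℝ) ≤ L ^ 2 * B + 2 * L ^ 4 * B ^ 3 := by positivity
      linarith [abs_add_le (C.Er (J2 C (s.G true) k) x) (C.Er (J2 C (s.G false) k) x)])
    ha3b
  have ed : P.dirT C s k x = DF P.κ ((P.γ C s true x + P.γ C s false x) / 2) (s.W x) * k x
      - sF P.κ (s.W x) * ((C.K (s.G true : M) k x + C.K (s.G false : M) k x) / 2) := by
    simp [Prm.dirT, Prm.Dc, Prm.nc, Prm.sc, Prm.Γc, hx]
    ring_nf
  have eq : P.qc C s k x = sF P.κ (s.W x)
        * ((C.Er (J2 C (s.G true) k) x + C.Er (J2 C (s.G false) k) x) / 2)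
      + (P.γ C s true x + P.γ C s false x) / 2 * (s2 P.κ (s.W x) / 2) * (k x * k x)
      + s1 P.κ (s.W x) * k x
        * ((C.K (s.G true : M) k x + C.K (s.G false : M) k x) / 2) := by
    simp [Prm.qc, Prm.nc, Prm.sc, Prm.s1c, Prm.s2c, Prm.Γc, hx]
    ring
  have et : P.Tc C s x = TF P.κ ((P.γ C s true x + P.γ C s false x) / 2) (s.W x) := by
    simp [Prm.Tc, Prm.Γc]; ring_nf
  have et' : P.Tc C s' x = TF P.κ ((C.Er (G' true : M) x + C.Er (G' false : M) x) / 2)
      (s.W x + η * k x) := by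
    simp [Prm.Tc, Prm.Γc, Prm.γ, hs']; ring_nf
  rw [ed, eq, et, et']
  exact ⟨by linear_combination h1, h2, h3⟩

/-- The move of one colour. -/
private theorem exists_col_move (hP : P.Ok C) {B : ℝ} (hB : 0 ≤ B) :
    ∃ η0 > 0, ∃ E ≥ 0, ∀ s : Col M X, s.Ok P C → (∀ x, s.act x = 1 → s.W x ≤ P.Wm) →
      (∀ x, s.act x = 1 → 3 / 2 * P.b1 ≤ P.Tc C s x) →
      (∀ i, (s.G i : M) ≤ algebraMap ℝ M P.Λ) →
      ∀ k : C(X, ℝ), ‖k‖ ≤ B → k * s.act = k → ∀ η : ℝ, |η| ≤ η0 →
      ∃ s' : Col M X, s'.Ok P C ∧ s'.act = s.act ∧ s'.ass = s.ass ∧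
        (∀ x, P.bc C s x + η * P.dirT C s k x - η ^ 2 * P.qc C s k x - |η| ^ 3 * E
          ≤ P.bc C s' x) ∧
        P.pot C s' ≤ P.pot C s + η * linC P C s k + η ^ 2 * jC P C s k + |η| ^ 3 * E ∧
        (∀ x, |P.dirT C s k x| ≤ E ∧ |P.qc C s k x| ≤ E) ∧ jC P C s k ≤ E := by
  have hκ := P.κ_pos
  have hκ1 := P.κ_le
  have hb := P.b1_pos
  have hL := P.Λ_pos
  have hlG := P.lG_pos
  set L := P.Λ with hLdef
  obtain ⟨A, hA⟩ : ∃ A, A = L ^ 2 * B + L ^ 3 * B ^ 2 + 2 * L ^ 4 * B ^ 3 := ⟨_, rfl⟩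
  have hA0 : 0 ≤ A := by rw [hA]; positivity
  obtain ⟨E1, hE1⟩ : ∃ a, a = A + 4 * B * A + (2 + 1 / P.κ) * B ^ 2 * (3 * A)
    + (L + 3 * A) * (100 * P.κ / (100000000 * P.κ) ^ 3) * B ^ 3 := ⟨_, rfl⟩
  obtain ⟨E0, hE0⟩ : ∃ a, a = (1 + 2 * L) * B + A := ⟨_, rfl⟩
  obtain ⟨E2, hE2⟩ : ∃ a, a = A + L * (2 + 1 / P.κ) * B ^ 2 + 2 * B * A := ⟨_, rfl⟩
  have hE10 : 0 ≤ E1 := by rw [hE1]; positivity
  have hE00 : 0 ≤ E0 := by rw [hE0]; positivity
  have hE20 : 0 ≤ E2 := by rw [hE2]; positivity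
  obtain ⟨E, hE⟩ : ∃ a, a = E1 + E0 + E2 + 2 * (P.lG * A) := ⟨_, rfl⟩
  have hlA : 0 ≤ P.lG * A := mul_nonneg hlG.le hA0
  have hEn : 0 ≤ E := by linarith
  set η0 := min 1 (min (1 / (2 * B * L + 1)) (min (P.b1 / (B + 1)) (P.b1 / (2 * (E + 1)))))
  refine ⟨η0, by positivity, E, hEn, fun s hs hhigh hlow hG k hk hka η hη => ?_⟩
  have hη1 : |η| ≤ 1 := hη.trans (min_le_left _ _)
  have hηL : |η| * B * L ≤ 1 / 2 := by
    have h := (le_div_iff₀ (by positivity)).1 <|
      hη.trans ((min_le_right _ _).trans (min_le_left _ _))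
    linarith [abs_nonneg η]
  have hηB : |η| * B ≤ P.b1 := by
    have h := (le_div_iff₀ (by positivity)).1 <|
      hη.trans ((min_le_right _ _).trans ((min_le_right _ _).trans (min_le_left _ _)))
    linarith [abs_nonneg η]
  have hηE : |η| * E ≤ P.b1 / 2 := by
    have h := (le_div_iff₀ (by positivity)).1 <|
      hη.trans ((min_le_right _ _).trans ((min_le_right _ _).trans (min_le_right _ _)))
    linarith [abs_nonneg η]
  choose G' hi hG'0 hEr htr hbd using fun i =>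
    exists_res_move C (η := η) (hs.G_nonneg i) hL (hG i) hk hηL
  have hkx : ∀ x, |k x| ≤ B := Tracial.abs_apply_le hk
  have hdk : ∀ x, |η * k x| ≤ P.b1 := fun x => by
    rw [abs_mul]; exact (mul_le_mul_of_nonneg_left (hkx x) (abs_nonneg η)).trans hηB
  set s' : Col M X := ⟨s.act, s.ass, s.W + η • k, G', s.Z⟩ with hs'
  have hW' : ∀ x, s'.W x = s.W x + η * k x := fun x => by simp [hs']
  have hwt : P.wt s' = P.wt s + η • k := by
    show s.act * (s.W + η • k) + P.Wf • s.ass = s.act * s.W + P.Wf • s.ass + η • k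
    rw [mul_add, mul_smul_comm, mul_comm s.act k, hka]; abel
  have hmat : ∀ i, P.mat C s' i = P.mat C s i := fun i => by
    simp only [Prm.mat, hwt, C.r_add, C.r_smul]
    rw [show (↑(s'.G i)⁻¹ : M) = _ from hi i, show s'.Z i = s.Z i from rfl]
    abel
  have hk0 : ∀ x, s.act x = 0 → k x = 0 := fun x hx => by
    have := congrArg (fun f : C(X, ℝ) => f x) hka
    simpa [hx] using this.symm
  have hwin : ∀ x, s.act x = 1 → 0 ≤ s'.W x ∧ s'.W x ≤ P.Wa := fun x hx => by
    obtain ⟨hw, -⟩ := act_facts hP hs hx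
    obtain ⟨h1, h2⟩ := abs_le.1 (hdk x)
    have := hhigh x hx
    rw [hW']
    constructor <;> simp only [Prm.Wa, Prm.Wm, Prm.b1] at * <;> linarith
  have hWmem : ∀ x, 0 ≤ s'.W x ∧ s'.W x ≤ P.Wa := fun x => by
    rcases hs.act_01 x with hx | hx
    · rw [hW', hk0 x hx, mul_zero, add_zero]; exact hs.W_mem x
    · exact hwin x hx
  have hpt : ∀ x, |P.dirT C s k x| ≤ E0 ∧ |P.qc C s k x| ≤ E2 ∧
      (s.act x = 1 → P.Tc C s x + η * P.dirT C s k x - η ^ 2 * P.qc C s k x - |η| ^ 3 * E1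
        ≤ P.Tc C s' x) := fun x => by
    rcases hs.act_01 x with hx | hx
    · refine ⟨?_, ?_, fun h => by linarith⟩ <;>
        simp [Prm.dirT, Prm.qc, hx, hE00, hE20]
    · obtain ⟨h1, h2, h3⟩ := col_point hs hL hG hk hη1 hG'0 hEr hbd hx
        (hW' x ▸ (hWmem x).2) (hdk x)
      rw [← hA, ← hE1] at h1
      rw [← hA, ← hE0] at h2
      rw [← hA, ← hE2] at h3
      exact ⟨h2, h3, fun _ => h1⟩
  refine ⟨s', ⟨hs.act_01, hs.ass_01, hs.act_ass, hWmem, hG'0, hs.Z_nonneg,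
    fun i => hmat i ▸ hs.mat_nonneg i, fun x hx => ?_⟩, rfl, rfl, fun x => ?_, ?_,
    fun x => ⟨(hpt x).1.trans (by linarith), (hpt x).2.1.trans (by linarith)⟩, ?_⟩
  · obtain ⟨a, b, c⟩ := hpt x
    have h1 : -(|η| * E0) ≤ η * P.dirT C s k x := by
      refine le_trans ?_ (neg_abs_le _)
      rw [abs_mul]; gcongr
    have h2 : η ^ 2 * P.qc C s k x ≤ |η| * E2 := by
      refine (le_abs_self _).trans ?_
      rw [abs_mul, abs_pow]
      exact mul_le_mul (pow_le_of_le_one (abs_nonneg _) hη1 two_ne_zero) b (abs_nonneg _)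
        (abs_nonneg _)
    have h3 : |η| ^ 3 * E1 ≤ |η| * E1 := by
      gcongr
      exact pow_le_of_le_one (abs_nonneg _) hη1 three_ne_zero
    have h4 : 0 ≤ |η| * (P.lG * A) := mul_nonneg (abs_nonneg _) hlA
    have := hlow x hx
    have := c hx
    rw [hE] at hηE
    linarith
  · rcases hs.act_01 x with hx | hx
    · have : 0 ≤ |η| ^ 3 * E := by positivity
      simp [Prm.bc, Prm.dirT, Prm.qc, hs', hx]
      exact this
    · have h3 : |η| ^ 3 * E1 ≤ |η| ^ 3 * E := by gcongr; linarith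
      have := (hpt x).2.2 hx
      show s.act x * (P.Tc C s x - 2 * P.b1) + _ - _ - _
        ≤ s.act x * (P.Tc C s' x - 2 * P.b1)
      rw [hx]
      linarith
  · have ht : ∀ i, P.lG * C.tr (G' i : M) ≤ P.lG * (C.tr (s.G i : M)
        + η * C.tr ((s.G i : M) * C.r k * (s.G i : M)) + η ^ 2 * C.tr (J2 C (s.G i) k)
        + |η| ^ 3 * (2 * L ^ 4 * B ^ 3)) := fun i => mul_le_mul_of_nonneg_left (htr i) hlG.le
    have hE3 : |η| ^ 3 * (2 * (P.lG * (2 * L ^ 4 * B ^ 3))) ≤ |η| ^ 3 * E := by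
      gcongr
      have : 2 * L ^ 4 * B ^ 3 ≤ A := by
        have : (0:ℝ) ≤ L ^ 2 * B + L ^ 3 * B ^ 2 := by positivity
        linarith
      linarith [mul_le_mul_of_nonneg_left this hlG.le]
    have hig : C.ig (P.wt s') = C.ig (P.wt s) + η * C.ig k := by
      rw [hwt, C.ig_add, C.ig_smul]
    simp only [Prm.pot, Prm.linC, Prm.jC, Fintype.sum_bool, hig]
    simp only [hs']
    linarith [ht true, ht false]
  · have hj : ∀ i, C.tr (J2 C (s.G i) k) ≤ A := fun i => by
      have hsa : IsSelfAdjoint (J2 C (s.G i) k) := by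
        show star _ = _
        simp only [J2, star_mul, (IsSelfAdjoint.of_nonneg (hs.G_nonneg i)).star_eq, C.star_r,
          mul_assoc]
      rw [← C.ig_Er hsa]
      refine C.ig_le_of_le fun x => (le_abs_self _).trans ((hbd i x).2.trans ?_)
      have : (0:ℝ) ≤ L ^ 2 * B + 2 * L ^ 4 * B ^ 3 := by positivity
      linarith
    simp only [Prm.jC, Fintype.sum_bool]
    linarith [mul_le_mul_of_nonneg_left (hj true) hlG.le,
      mul_le_mul_of_nonneg_left (hj false) hlG.le]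

/-- The first order change of the potential. -/
private noncomputable def lin (P : Prm M) (C : SCore M X) {r : ℕ} (s : Config M X r)
    (v : Fin r → C(X, ℝ)) : ℝ :=
  (∑ c, linC P C (s.col c) (v c)) - C.ig (P.price C s * P.resid C s v)

private theorem max_sq_le (a d : ℝ) :
    max (a + d) 0 * max (a + d) 0 ≤ max a 0 * max a 0 + 2 * max a 0 * d + d ^ 2 := by
  rcases le_total (a + d) 0 with h | h
  · rw [max_eq_right h]; nlinarith [sq_nonneg (max a 0 + d)]
  · rw [max_eq_left h]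
    nlinarith [mul_self_le_mul_self h (by linarith [le_max_left a 0] : a + d ≤ max a 0 + d)]

/-- The two forms of the second order change. -/
private theorem quad_eq {r : ℕ} {s : Config M X r} (hs : StateOk P C s) (v : Fin r → C(X, ℝ)) :
    P.quad C s v = (∑ c, jC P C (s.col c) (v c))
      + C.ig (P.price C s * ∑ c, P.qc C (s.col c) (v c))
      + √P.l * C.ig (s.U * (P.resid C s v * P.resid C s v)) := by
  rw [Prm.quad, Finset.mul_sum, C.ig_sum, ← Finset.sum_add_distrib]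
  congr 1
  refine Finset.sum_congr rfl fun c _ => ?_
  set J : Bool → C(X, ℝ) := fun i => C.Er (J2 C ((s.col c).G i) (v c)) with hJ
  have htr : ∀ i, C.tr (C.r (P.Nfn C s c) * J2 C ((s.col c).G i) (v c))
      = C.ig (P.price C s * (s.col c).act * P.nc (s.col c) * J i)
        + P.lG * C.tr (J2 C ((s.col c).G i) (v c)) := fun i => by
    have hsa : IsSelfAdjoint (J2 C ((s.col c).G i) (v c)) := by
      show star _ = _
      simp only [J2, star_mul, (IsSelfAdjoint.of_nonneg ((hs.col c).G_nonneg i)).star_eq,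
        C.star_r, mul_assoc]
    rw [C.tr_r_mul _ hsa, ← C.ig_Er hsa, Prm.Nfn, add_mul, C.ig_add, ← C.ig_smul]
    congr 2
  have ht := htr true
  have hf := htr false
  simp only [J2] at ht hf
  simp only [Prm.quadC, Fintype.sum_bool]
  rw [ht, hf]
  simp only [Fintype.sum_bool, Prm.jC, Prm.qc, J2, hJ, mul_add, C.ig_add, mul_assoc]
  ring

/-- The joint move. -/
private theorem exists_move (hP : P.Ok C) (r : ℕ) {B : ℝ} (hB : 0 ≤ B) :
    ∃ η0 > 0, ∃ E ≥ 0, ∀ s : Config M X r, StateOk P C s → P.Good C s →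
      ∀ v : Fin r → C(X, ℝ), (∀ c, ‖v c‖ ≤ B) → (∀ c, v c * (s.col c).act = v c) →
      P.quad C s v ≤ E ∧ ∀ η : ℝ, |η| ≤ η0 → ∃ u : Config M X r, StateOk P C u ∧
        P.Psi C u ≤ P.Psi C s + η * lin P C s v + η ^ 2 * P.quad C s v + |η| ^ 3 * E := by
  obtain ⟨η1, hη1, E, hE, hcol⟩ := exists_col_move (P := P) (C := C) hP hB
  have hl0 := Real.sqrt_nonneg P.l
  have hS : 0 ≤ P.S := by linarith [P.S_ge]
  set R := (r : ℝ) * E with hR
  have hR0 : 0 ≤ R := by positivity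
  set E' := R + √P.l * (2 * P.S * R + 8 * R ^ 2) with hE'
  refine ⟨min η1 1, by positivity, E', by positivity, fun s hs hg v hv hva => ?_⟩
  have hc := fun c η hη => hcol (s.col c) (hs.col c) (hg.high c) (hg.low c) (hg.G_le c) (v c)
    (hv c) (hva c) η hη
  have hb : ∀ c x, |P.dirT C (s.col c) (v c) x| ≤ E ∧ |P.qc C (s.col c) (v c) x| ≤ E :=
    fun c x => by
      obtain ⟨_, -, -, -, -, -, h, -⟩ := hc c 0 (by simpa using hη1.le)
      exact h x
  have hres : ∀ x, |P.resid C s v x| ≤ R ∧ |(∑ c, P.qc C (s.col c) (v c)) x| ≤ R := fun x => by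
    constructor <;>
    · simp only [Prm.resid, ContinuousMap.sum_apply]
      refine (Finset.abs_sum_le_sum_abs _ _).trans
        ((Finset.sum_le_sum fun c _ => ?_).trans (le_of_eq (by simp [hR] :
          ∑ _c : Fin r, E = R)))
      first | exact (hb c x).1 | exact (hb c x).2
  have hsh : ∀ x, 0 ≤ P.short C s x ∧ 0 ≤ s.U x ∧ s.U x ≤ 1 ∧
      s.U x * P.short C s x ≤ P.S := fun x => by
    have h0 : 0 ≤ P.short C s x := le_max_right _ _
    rcases hs.U_01 x with h | h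
    · exact ⟨h0, h.ge, by linarith, by rw [h, zero_mul]; exact hS⟩
    · refine ⟨h0, by linarith, h.le, ?_⟩
      rw [h, one_mul]
      exact max_le (by linarith [hg.half x h]) hS
  refine ⟨?_, fun η hη => ?_⟩
  · rw [quad_eq hs]
    have h1 : ∑ c, jC P C (s.col c) (v c) ≤ R := by
      refine (Finset.sum_le_sum fun c _ => ?_).trans (le_of_eq (by simp [hR] :
        ∑ _c : Fin r, E = R))
      obtain ⟨_, -, -, -, -, -, -, h⟩ := hc c 0 (by simpa using hη1.le)
      exact h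
    have h2 : C.ig (P.price C s * ∑ c, P.qc C (s.col c) (v c)) ≤ √P.l * (2 * P.S * R) :=
      C.ig_le_of_le fun x => by
        obtain ⟨a, b, -, d⟩ := hsh x
        refine (le_abs_self _).trans ?_
        rw [ContinuousMap.mul_apply, abs_mul]
        have : |P.price C s x| ≤ √P.l * (2 * P.S) := by
          rw [show P.price C s x = 2 * √P.l * (s.U x * P.short C s x) by simp [Prm.price],
            abs_of_nonneg (by positivity)]
          linarith [mul_le_mul_of_nonneg_left d (by positivity : 0 ≤ 2 * √P.l)]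
        refine (mul_le_mul this (hres x).2 (abs_nonneg _) (by positivity)).trans ?_
        linarith
    have h3 : C.ig (s.U * (P.resid C s v * P.resid C s v)) ≤ R ^ 2 := C.ig_le_of_le fun x => by
      obtain ⟨-, b, c', -⟩ := hsh x
      refine (mul_le_of_le_one_left (mul_self_nonneg _) c').trans ?_
      show P.resid C s v x * P.resid C s v x ≤ R ^ 2
      rw [← sq, ← sq_abs]
      exact pow_le_pow_left₀ (abs_nonneg _) (hres x).1 2
    have := mul_le_mul_of_nonneg_left h3 hl0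
    have : 0 ≤ √P.l * (7 * R ^ 2) := by positivity
    linarith
  · choose col hok hact hass hbc hpot using fun c =>
      (by
        obtain ⟨s', a, b, c', d, e, -, -⟩ := hc c η (hη.trans (min_le_left _ _))
        exact ⟨s', a, b, c', d, e⟩ : ∃ s' : Col M X, s'.Ok P C ∧ s'.act = (s.col c).act ∧
          s'.ass = (s.col c).ass ∧ (∀ x, P.bc C (s.col c) x + η * P.dirT C (s.col c) (v c) x
            - η ^ 2 * P.qc C (s.col c) (v c) x - |η| ^ 3 * E ≤ P.bc C s' x) ∧
          P.pot C s' ≤ P.pot C (s.col c) + η * linC P C (s.col c) (v c)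
            + η ^ 2 * jC P C (s.col c) (v c) + |η| ^ 3 * E)
    set u : Config M X r := ⟨col, s.U⟩ with hu
    have hdead : u.dead = s.dead := by simp [hu, Config.dead, hass]
    refine ⟨u, ⟨hok, hs.U_01, hdead ▸ hs.dead_01, fun c x => ?_⟩, ?_⟩
    · show (col c).act x ≤ s.U x
      rw [hact c]; exact hs.act_le c x
    have hη1' : |η| ≤ 1 := hη.trans (min_le_right _ _)
    have hη0 := abs_nonneg η
    set Q : C(X, ℝ) := ∑ c, P.qc C (s.col c) (v c) with hQ
    set Rv := P.resid C s v with hRv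
    have hx : ∀ x, s.U x * (P.short C u x * P.short C u x) ≤
        s.U x * (P.short C s x * P.short C s x) + η * (-(2 * (s.U x * P.short C s x * Rv x)))
          + η ^ 2 * (2 * (s.U x * P.short C s x * Q x) + s.U x * (Rv x * Rv x))
          + |η| ^ 3 * (2 * P.S * R + 8 * R ^ 2) := fun x => by
      obtain ⟨a, b, c', d⟩ := hsh x
      obtain ⟨e1, e2⟩ := hres x
      set D := -(η * Rv x) + η ^ 2 * Q x + |η| ^ 3 * R with hD
      have hsum : (∑ c, P.bc C (s.col c)) x - D ≤ (∑ c, P.bc C (u.col c)) x := by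
        rw [hD, hRv, hQ, Prm.resid]
        simp only [ContinuousMap.sum_apply]
        refine le_trans (le_of_eq ?_) (Finset.sum_le_sum fun c _ => hbc c x)
        simp only [Finset.sum_add_distrib, Finset.sum_sub_distrib, Finset.mul_sum,
          Finset.sum_const, Finset.card_univ, Fintype.card_fin, nsmul_eq_mul, hR]
        ring
      have hs1 : P.short C u x ≤ max ((P.S - (∑ c, P.bc C (s.col c)) x) + D) 0 :=
        max_le_max (by linarith) le_rfl
      have hs2 := (mul_self_le_mul_self (le_max_right _ _) hs1).trans (max_sq_le _ D)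
      have hs3 := mul_le_mul_of_nonneg_left hs2 b
      have hD2 : D ^ 2 ≤ η ^ 2 * (Rv x * Rv x) + |η| ^ 3 * (8 * R ^ 2) := by
        have hq : |η ^ 2 * Q x + |η| ^ 3 * R| ≤ |η| ^ 2 * (2 * R) := by
          refine (abs_add_le _ _).trans ?_
          rw [abs_mul, abs_mul, abs_pow, abs_pow, abs_abs, abs_of_nonneg hR0]
          have := mul_le_mul_of_nonneg_left e2 (pow_nonneg hη0 2)
          have := mul_le_mul_of_nonneg_right
            (pow_le_pow_of_le_one hη0 hη1' (by norm_num : 2 ≤ 3)) hR0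
          linarith
        set q := η ^ 2 * Q x + |η| ^ 3 * R
        have e : D ^ 2 = η ^ 2 * (Rv x * Rv x) + (-(2 * (η * Rv x) * q)) + q ^ 2 := by
          rw [hD]; ring
        have h1 : -(2 * (η * Rv x) * q) ≤ |η| ^ 3 * (4 * R ^ 2) := by
          refine (neg_le_abs _).trans ?_
          rw [abs_mul, abs_mul, abs_mul, abs_two]
          calc 2 * (|η| * |Rv x|) * |q| ≤ 2 * (|η| * R) * (|η| ^ 2 * (2 * R)) := by gcongr
            _ = _ := by ring
        have h2 : q ^ 2 ≤ |η| ^ 3 * (4 * R ^ 2) := by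
          rw [← sq_abs]
          calc |q| ^ 2 ≤ (|η| ^ 2 * (2 * R)) ^ 2 := by gcongr
            _ = |η| ^ 4 * (4 * R ^ 2) := by ring
            _ ≤ _ := mul_le_mul_of_nonneg_right
                (pow_le_pow_of_le_one hη0 hη1' (by norm_num)) (by positivity)
        linarith
      have h3 : s.U x * D ^ 2
          ≤ η ^ 2 * (s.U x * (Rv x * Rv x)) + |η| ^ 3 * (8 * R ^ 2) := by
        refine (mul_le_mul_of_nonneg_left hD2 b).trans ?_
        have := mul_le_of_le_one_left (by positivity : 0 ≤ |η| ^ 3 * (8 * R ^ 2)) c'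
        linarith
      have h4 := mul_le_mul_of_nonneg_right d (by positivity : 0 ≤ |η| ^ 3 * (2 * R))
      refine hs3.trans ?_
      show s.U x * (P.short C s x * P.short C s x + 2 * P.short C s x * D + D ^ 2) ≤ _
      rw [hD] at h3 ⊢
      linarith
    have hig : C.ig (u.U * (P.short C u * P.short C u)) ≤
        C.ig (s.U * (P.short C s * P.short C s)) + η * (-(2 * C.ig (s.U * P.short C s * Rv)))
          + η ^ 2 * (2 * C.ig (s.U * P.short C s * Q) + C.ig (s.U * (Rv * Rv)))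
          + |η| ^ 3 * (2 * P.S * R + 8 * R ^ 2) := by
      refine (C.ig_mono (g := s.U * (P.short C s * P.short C s)
        + η • (-((2:ℝ) • (s.U * P.short C s * Rv)))
        + η ^ 2 • ((2:ℝ) • (s.U * P.short C s * Q) + s.U * (Rv * Rv))
        + ContinuousMap.const X (|η| ^ 3 * (2 * P.S * R + 8 * R ^ 2)))
        (ContinuousMap.le_def.2 fun x => by simpa [hu, mul_add] using hx x)).trans (le_of_eq ?_)
      simp [C.ig_add, C.ig_smul, C.ig_neg, C.ig_const]
      ring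
    have hpr : ∀ f, C.ig (P.price C s * f) = √P.l * (2 * C.ig (s.U * P.short C s * f)) :=
      fun f => by rw [Prm.price, smul_mul_assoc, C.ig_smul]; ring
    have hsum : ∑ c, P.pot C (col c) ≤ ∑ c, P.pot C (s.col c)
        + η * ∑ c, linC P C (s.col c) (v c) + η ^ 2 * ∑ c, jC P C (s.col c) (v c)
        + |η| ^ 3 * R := by
      refine (Finset.sum_le_sum fun c _ => hpot c).trans (le_of_eq ?_)
      simp [Finset.sum_add_distrib, Finset.mul_sum, hR]
      ring
    have h5 := mul_le_mul_of_nonneg_left hig hl0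
    rw [Prm.Psi, Prm.Psi, hdead, quad_eq hs, Prm.lin, ← hQ, ← hRv, hpr, hpr]
    show ∑ c, P.pot C (col c) + _ ≤ _
    linarith

end Prm

variable {P : Prm M}

/-- Lowering the weight and the resolvents together: the price is a supersolution. -/
theorem exists_super (hP : P.Ok C) (r : ℕ) {ε : ℝ} (hε : 0 < ε) :
    ∃ ζ > 0, ∀ s : Config M X r, StateOk P C s → P.Good C s → P.IsMin C s ζ →
      ∀ c, ∀ f : C(X, ℝ), (∀ x, 0 ≤ f x ∧ f x ≤ (s.col c).act x) →
        (∑ i, C.tr (C.r (P.Nfn C s c) * ((s.col c).G i : M) * C.r f * ((s.col c).G i : M)))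
            + P.l * C.ig f
          ≤ C.ig (P.price C s * P.Dc C (s.col c) * f) + ε := by
  classical
  obtain ⟨η0, hη0, E, hE, hmove⟩ := Prm.exists_move (P := P) (C := C) hP r zero_le_one
  set η := min (min η0 1) (ε / (2 * (2 * E + 1))) with hηdef
  have hη : 0 < η := by positivity
  refine ⟨η * (ε / 2), by positivity, fun s hs hg hmin c f hf => ?_⟩
  have h01 := (hs.col c).act_01
  have hfa : f * (s.col c).act = f := StepAux.mul_ind_eq h01 fun x hx => by
    have := hf x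
    linarith
  set v : Fin r → C(X, ℝ) := Pi.single c (-f) with hv
  obtain ⟨hq, hm⟩ := hmove s hs hg v (fun d => by
    rcases eq_or_ne d c with rfl | hd
    · rw [hv, Pi.single_eq_same, norm_neg]
      refine (ContinuousMap.norm_le _ zero_le_one).2 fun x => ?_
      rw [Real.norm_eq_abs, abs_of_nonneg (hf x).1]
      rcases h01 x with h | h <;> linarith [(hf x).2]
    · simp [hv, hd]) (fun d => by
    rcases eq_or_ne d c with rfl | hd
    · rw [hv, Pi.single_eq_same, neg_mul, hfa]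
    · simp [hv, hd])
  have hη0' : |η| ≤ η0 := by
    rw [abs_of_pos hη]; exact (min_le_left _ _).trans (min_le_left _ _)
  obtain ⟨u, hu, hle⟩ := hm η hη0'
  have hmu := hmin u hu
  have hη1 : η ≤ 1 := (min_le_left _ _).trans (min_le_right _ _)
  rw [abs_of_pos hη] at hle
  have h1 : η * (-(ε / 2) - 2 * η * E) ≤ η * P.lin C s v := by
    have := mul_le_mul_of_nonneg_left hq (sq_nonneg η)
    have h3 : η ^ 3 * E ≤ η ^ 2 * E :=
      mul_le_mul_of_nonneg_right (pow_le_pow_of_le_one hη.le hη1 (by norm_num)) hE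
    linarith
  have h2 : -(ε / 2) - 2 * η * E ≤ P.lin C s v := le_of_mul_le_mul_left h1 hη
  have h4 : η * (2 * (2 * E + 1)) ≤ ε := (le_div_iff₀ (by positivity)).1 (min_le_right _ _)
  have hlin : P.lin C s v = C.ig (P.price C s * P.Dc C (s.col c) * f)
      - (∑ i, C.tr (C.r (P.Nfn C s c) * ((s.col c).G i : M) * C.r f * ((s.col c).G i : M)))
      - P.l * C.ig f := by
    have hd : ∀ d, d ≠ c → P.linC C (s.col d) (v d) = 0 ∧ P.dirT C (s.col d) (v d) = 0 :=
      fun d hd => by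
        have h0 : v d = 0 := by simp [hv, hd]
        simp [h0, Prm.linC, Prm.dirT, SCore.K, C.ig_zero, C.r_zero, C.Er_zero, C.tr_zero]
    rw [Prm.lin, Prm.resid, Finset.sum_eq_single c (fun d _ h => (hd d h).1) (by simp),
      Finset.sum_eq_single c (fun d _ h => (hd d h).2) (by simp), hv, Pi.single_eq_same]
    have htr : ∀ i, C.tr (C.r (P.Nfn C s c) * ((s.col c).G i : M) * C.r f * ((s.col c).G i : M))
        = C.ig (P.price C s * (s.col c).act * P.nc (s.col c) * C.K ((s.col c).G i : M) f)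
          + P.lG * C.tr (((s.col c).G i : M) * C.r f * ((s.col c).G i : M)) := fun i => by
      have hGsa := IsSelfAdjoint.of_nonneg ((hs.col c).G_nonneg i)
      have hsa := (C.r_isSelfAdjoint f).conjugate_self hGsa
      rw [mul_assoc (C.r (P.Nfn C s c)), mul_assoc (C.r (P.Nfn C s c)), C.tr_r_mul _ hsa,
        ← C.ig_Er hsa, SCore.K, hGsa.star_eq, Prm.Nfn, add_mul, C.ig_add, ← C.ig_smul]
      congr 2
    have hK : ∀ i, C.K ((s.col c).G i : M) (-f) = -C.K ((s.col c).G i : M) f := fun i => by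
      simp [SCore.K, C.r_neg, C.Er_neg]
    simp only [Prm.linC, Prm.dirT, htr, hK, C.ig_neg, C.r_neg, mul_neg, neg_mul, C.tr_neg,
      Fintype.sum_bool]
    have e : P.price C s * ((s.col c).act * (-(P.Dc C (s.col c) * f)
          - P.nc (s.col c) * (-C.K ((s.col c).G true : M) f + -C.K ((s.col c).G false : M) f)))
        = P.price C s * (s.col c).act * P.nc (s.col c) * C.K ((s.col c).G true : M) f
          + P.price C s * (s.col c).act * P.nc (s.col c) * C.K ((s.col c).G false : M) f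
          - P.price C s * P.Dc C (s.col c) * (f * (s.col c).act) := by ring
    rw [e, hfa, C.ig_sub, C.ig_add]
    ring
  linarith

/-- Moving along a direction and against it: the quadratic form is nonnegative. -/
theorem exists_second (hP : P.Ok C) (r : ℕ) {B : ℝ} (hB : 0 ≤ B) {ε : ℝ} (hε : 0 < ε) :
    ∃ ζ > 0, ∀ s : Config M X r, StateOk P C s → P.Good C s → P.IsMin C s ζ →
      ∀ v : Fin r → C(X, ℝ), (∀ c, ‖v c‖ ≤ B) → (∀ c, v c * (s.col c).act = v c) →
        0 ≤ P.quad C s v + ε := by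
  obtain ⟨η0, hη0, E, hE, hmove⟩ := Prm.exists_move (P := P) (C := C) hP r hB
  set η := min η0 (ε / (2 * (E + 1))) with hηdef
  have hη : 0 < η := by positivity
  refine ⟨η ^ 2 * (ε / 2), by positivity, fun s hs hg hmin v hv hva => ?_⟩
  obtain ⟨-, hm⟩ := hmove s hs hg v hv hva
  obtain ⟨u, hu, h1⟩ := hm η (by rw [abs_of_pos hη]; exact min_le_left _ _)
  obtain ⟨w, hw, h2⟩ := hm (-η) (by rw [abs_neg, abs_of_pos hη]; exact min_le_left _ _)
  rw [abs_neg, abs_of_pos hη, neg_sq] at h2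
  rw [abs_of_pos hη] at h1
  have h3 : η * (2 * (E + 1)) ≤ ε := (le_div_iff₀ (by positivity)).1 (min_le_right _ _)
  have h4 : η ^ 2 * (-(ε / 2) - η * E) ≤ η ^ 2 * P.quad C s v := by
    linarith [hmin u hu, hmin w hw]
  have := le_of_mul_le_mul_left h4 (by positivity)
  linarith

end Vale.Agent.P078.Quad
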