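import Vale.Agent.P078.Quad.Defs

/-! The joint move of the weight and the two resolvents: it keeps the slack exactly. -/

namespace Vale.Agent.P078.Quad

set_option linter.unusedSectionVars false

open Filter Topology ComplexOrder
open Vale.Agent.P078.Tracial Vale.Agent.P078.AllMasa

variable {M X : Type} [CStarAlgebra M] [PartialOrder M] [StarOrderedRing M]
variable [TopologicalSpace X] [CompactSpace X] [T2Space X] [TotallyDisconnectedSpace X]

namespace Prm

variable (P : Prm M) (C : SCore M X)

/-- The first order change of the level of one colour. -/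
noncomputable def dirT (s : Col M X) (k : C(X, ℝ)) : C(X, ℝ) :=
  s.act * (P.Dc C s * k - P.nc s * ∑ i, C.K (s.G i : M) k)

/-- The first order change of the total budget. -/
noncomputable def resid {r : ℕ} (s : Config M X r) (v : Fin r → C(X, ℝ)) : C(X, ℝ) :=
  ∑ c, P.dirT C (s.col c) (v c)

/-- The second order loss of one colour at the price, before any estimate. -/
noncomputable def quadC {r : ℕ} (s : Config M X r) (c : Fin r) (k : C(X, ℝ)) : ℝ :=
  C.ig (P.price C s * (s.col c).act * ((1 / 2 : ℝ) • (P.Γc C (s.col c) * P.s2c (s.col c) * (k * k))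
      + (1 / 2 : ℝ) • (P.s1c (s.col c) * k * ∑ i, C.K ((s.col c).G i : M) k)))
    + ∑ i, C.tr (C.r (P.Nfn C s c)
        * (((s.col c).G i : M) * C.r k * ((s.col c).G i : M) * C.r k * ((s.col c).G i : M)))

/-- The second order change of the potential. -/
noncomputable def quad {r : ℕ} (s : Config M X r) (v : Fin r → C(X, ℝ)) : ℝ :=
  (∑ c, P.quadC C s c (v c)) + √P.l * C.ig (s.U * (P.resid C s v * P.resid C s v))

end Prm

end Vale.Agent.P078.Quad
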