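import Vale.Agent.P078.AllMasa.Ops

/-! The linearised budget with a multiplier and a scale of the noise for each colour: the part of
one colour sends `v` to `n * Lc (μ * v)`, its transpose sends `f` to `μ * Lc (n * f)`. -/

namespace Vale.Agent.P078.Quad

open Filter Topology
open Vale.Agent.P078.Tracial Vale.Agent.P078.AllMasa

variable {X : Type} [TopologicalSpace X]

/-- The data of the weighted linearised budget. -/
structure WData (X : Type) [TopologicalSpace X] (r : ℕ) extends LData X r where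
  n : Fin r → C(X, ℝ)
  μ : Fin r → C(X, ℝ)

namespace WData

variable {r : ℕ} (d : WData X r)

/-- The part of one colour. -/
noncomputable def Lw (c : Fin r) : C(X, ℝ) →ₗ[ℝ] C(X, ℝ) :=
  (LinearMap.mulLeft ℝ (d.n c)).comp
    ((d.toLData.Lc c).comp (LinearMap.mulLeft ℝ (d.μ c)))

/-- The transpose of the part of one colour. -/
noncomputable def Lt (c : Fin r) : C(X, ℝ) →ₗ[ℝ] C(X, ℝ) :=
  (LinearMap.mulLeft ℝ (d.μ c)).comp
    ((d.toLData.Lc c).comp (LinearMap.mulLeft ℝ (d.n c)))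

/-- The weighted linearised budget. -/
noncomputable def LW : (Fin r → C(X, ℝ)) →ₗ[ℝ] C(X, ℝ) :=
  ∑ c, (d.Lw c).comp (LinearMap.proj c)

/-- The normalising constant. -/
noncomputable def TW : ℝ := (r + 1) * (2 * d.B ^ 3) ^ 2

/-- One step of the smoothing. -/
noncomputable def stepW : (Fin r → C(X, ℝ)) →ₗ[ℝ] (Fin r → C(X, ℝ)) :=
  LinearMap.id - d.TW⁻¹ • LinearMap.pi fun c => (d.Lt c).comp d.LW

/-- The smoothed projection onto the kernel of the weighted linearised budget. -/
noncomputable def PW (m : ℕ) : (Fin r → C(X, ℝ)) →ₗ[ℝ] (Fin r → C(X, ℝ)) :=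
  (d.stepW ^ m).comp d.toLData.cut

/-- Validity of the data. -/
structure OkW [CompactSpace X] : Prop where
  base : d.toLData.Ok
  n_pos : ∀ c x, 0 < d.n c x
  n_le : ∀ c x, d.n c x ≤ d.B
  μ_pos : ∀ c x, 0 < d.μ c x
  μ_le : ∀ c x, d.μ c x ≤ d.B

theorem Lw_apply (c : Fin r) (f : C(X, ℝ)) :
    d.Lw c f = d.n c * d.toLData.Lc c (d.μ c * f) := rfl

theorem Lt_apply (c : Fin r) (f : C(X, ℝ)) :
    d.Lt c f = d.μ c * d.toLData.Lc c (d.n c * f) := rfl

theorem LW_apply (u : Fin r → C(X, ℝ)) : d.LW u = ∑ c, d.Lw c (u c) := by simp [LW]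

theorem stepW_apply (u : Fin r → C(X, ℝ)) (c : Fin r) :
    d.stepW u c = u c - d.TW⁻¹ • d.Lt c (d.LW u) := by
  simp [stepW]

end WData

end Vale.Agent.P078.Quad
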