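import Mathlib

/-! The scalar profile of the quadratic argument for arbitrary MASAs: two signs sharing one weight,
an arithmetic mean and a correction of exponent one tenth. -/

namespace Vale.Agent.P078.Quad

/-- The clamped complement of the weight. -/
noncomputable def xi (κ w : ℝ) : ℝ := max (1 - w) (100000000 * κ)

/-- The scale `κ / ξ`. -/
noncomputable def uF (κ w : ℝ) : ℝ := κ / xi κ w

/-- The correction of the profile. -/
noncomputable def cF (κ w : ℝ) : ℝ :=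
  20 * κ * (uF κ w ^ (1 / 10 : ℝ) - κ ^ (1 / 10 : ℝ))

/-- The derivative of the correction. -/
noncomputable def c1 (κ w : ℝ) : ℝ := 2 * κ * uF κ w ^ (1 / 10 : ℝ) / xi κ w

/-- The second derivative of the correction. -/
noncomputable def c2 (κ w : ℝ) : ℝ := 11 / 5 * κ * uF κ w ^ (1 / 10 : ℝ) / xi κ w ^ 2

/-- The profile. -/
noncomputable def sF (κ w : ℝ) : ℝ := w * (1 - w) - 2 * κ * w - cF κ w

/-- Its derivative. -/
noncomputable def s1 (κ w : ℝ) : ℝ := 1 - 2 * w - 2 * κ - c1 κ w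

/-- Its second derivative. -/
noncomputable def s2 (κ w : ℝ) : ℝ := -2 - c2 κ w

/-- The level function. -/
noncomputable def TF (κ Γ w : ℝ) : ℝ := w - Γ * sF κ w

/-- Its derivative in the weight. -/
noncomputable def DF (κ Γ w : ℝ) : ℝ := 1 - Γ * s1 κ w

/-- The mass left by the two diagonal squares. -/
noncomputable def eF (κ w a b : ℝ) : ℝ :=
  DF κ ((a + b) / 2) w - sF κ w / 2 * (a ^ 2 + b ^ 2)

/-- The diagonal coefficient of the second order loss of the budget. -/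
noncomputable def diagF (κ w a b : ℝ) : ℝ :=
  (a + b) / 2 * (s2 κ w / 2) + s1 κ w * ((a ^ 2 + b ^ 2) / 2)
    + sF κ w / 2 * (a ^ 3 + b ^ 3) + ((a + b) / 2 + |(a - b) / 2|) * eF κ w a b

variable {κ w : ℝ}

theorem xi_pos (hκ : 0 < κ) (w : ℝ) : 0 < xi κ w := by
  unfold xi
  exact lt_max_of_lt_right (by positivity)

theorem uF_pos (hκ : 0 < κ) (w : ℝ) : 0 < uF κ w := div_pos hκ (xi_pos hκ w)

theorem continuous_xi (κ : ℝ) : Continuous (xi κ) := by unfold xi; fun_prop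

theorem continuous_uF (hκ : 0 < κ) : Continuous (uF κ) := by
  unfold uF
  exact continuous_const.div (continuous_xi κ) fun w => (xi_pos hκ w).ne'

theorem continuous_uF_rpow (hκ : 0 < κ) (p : ℝ) : Continuous fun w => uF κ w ^ p :=
  (continuous_uF hκ).rpow_const fun w => Or.inl (uF_pos hκ w).ne'

theorem continuous_cF (hκ : 0 < κ) : Continuous (cF κ) := by
  have := continuous_uF_rpow hκ (1 / 10 : ℝ)
  unfold cF
  fun_prop

theorem continuous_c1 (hκ : 0 < κ) : Continuous (c1 κ) := by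
  have := continuous_uF_rpow hκ (1 / 10 : ℝ)
  have := continuous_xi κ
  unfold c1
  exact Continuous.div (by fun_prop) (by fun_prop) fun w => (xi_pos hκ w).ne'

theorem continuous_c2 (hκ : 0 < κ) : Continuous (c2 κ) := by
  have := continuous_uF_rpow hκ (1 / 10 : ℝ)
  have := continuous_xi κ
  unfold c2
  exact Continuous.div (by fun_prop) (by fun_prop) fun w => pow_ne_zero _ (xi_pos hκ w).ne'

theorem continuous_sF (hκ : 0 < κ) : Continuous (sF κ) := by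
  have := continuous_cF hκ
  unfold sF
  fun_prop

theorem continuous_s1 (hκ : 0 < κ) : Continuous (s1 κ) := by
  have := continuous_c1 hκ
  unfold s1
  fun_prop

theorem continuous_s2 (hκ : 0 < κ) : Continuous (s2 κ) := by
  have := continuous_c2 hκ
  unfold s2
  fun_prop

theorem xi_eq (h : w ≤ 1 - 100000000 * κ) : xi κ w = 1 - w := by
  unfold xi
  exact max_eq_left (by linarith)

theorem xi_ge (κ w : ℝ) : 100000000 * κ ≤ xi κ w := le_max_right _ _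

theorem xi_le_one (hκ1 : 100000000 * κ ≤ 1 / 100) (h0 : 0 ≤ w) : xi κ w ≤ 1 :=
  max_le (by linarith) (by linarith)

theorem uF_mul (hκ : 0 < κ) (w : ℝ) : uF κ w * xi κ w = κ :=
  div_mul_cancel₀ _ (xi_pos hκ w).ne'

theorem uF_le (hκ : 0 < κ) (w : ℝ) : uF κ w ≤ 1 / 100000000 := by
  unfold uF
  rw [div_le_iff₀ (xi_pos hκ w)]
  linarith [xi_ge κ w]

theorem le_uF (hκ : 0 < κ) (hκ1 : 100000000 * κ ≤ 1 / 100) (h0 : 0 ≤ w) : κ ≤ uF κ w := by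
  rw [uF, le_div_iff₀ (xi_pos hκ w)]
  exact mul_le_of_le_one_right hκ.le (xi_le_one hκ1 h0)

theorem uF_rpow_bounds (hκ : 0 < κ) (w : ℝ) {p : ℝ} (hp : 0 ≤ p) :
    0 < uF κ w ^ p ∧ uF κ w ^ p ≤ 1 :=
  ⟨Real.rpow_pos_of_pos (uF_pos hκ w) p,
    Real.rpow_le_one (uF_pos hκ w).le (by linarith [uF_le hκ w]) hp⟩

theorem kappa_rpow_eq (hκ : 0 < κ) (w p : ℝ) : κ ^ p = uF κ w ^ p * xi κ w ^ p := by
  rw [← Real.mul_rpow (uF_pos hκ w).le (xi_pos hκ w).le, uF_mul hκ w]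

theorem cF_zero (hκ1 : 100000000 * κ ≤ 1 / 100) : cF κ 0 = 0 := by
  have : xi κ 0 = 1 := by rw [xi_eq (by linarith)]; ring
  simp [cF, uF, this]

theorem cF_nonneg (hκ : 0 < κ) (hκ1 : 100000000 * κ ≤ 1 / 100) (h0 : 0 ≤ w) : 0 ≤ cF κ w := by
  unfold cF
  have := Real.rpow_le_rpow hκ.le (le_uF hκ hκ1 h0) (by norm_num : (0:ℝ) ≤ 1 / 10)
  exact mul_nonneg (by positivity) (by linarith)

/-- The correction is at most linear in the weight. -/
theorem cF_le (hκ : 0 < κ) (hκ1 : 100000000 * κ ≤ 1 / 100) (h0 : 0 ≤ w)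
    (hw : w ≤ 1 - 100000000 * κ) : cF κ w ≤ 20 * κ * w * uF κ w ^ (1 / 10 : ℝ) := by
  have h1 : xi κ w ≤ xi κ w ^ (1 / 10 : ℝ) :=
    Real.self_le_rpow_of_le_one (xi_pos hκ w).le (xi_le_one hκ1 h0) (by norm_num)
  have hp := (uF_rpow_bounds hκ w (by norm_num : (0:ℝ) ≤ 1 / 10)).1
  unfold cF
  rw [kappa_rpow_eq hκ w]
  rw [xi_eq hw] at h1 ⊢
  nlinarith [mul_le_mul_of_nonneg_left h1 (mul_nonneg hκ.le hp.le)]

/-- Convexity of the correction. -/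
theorem cF_le_c1 (hκ : 0 < κ) (hκ1 : 100000000 * κ ≤ 1 / 100) (h0 : 0 ≤ w)
    (hw : w ≤ 1 - 100000000 * κ) : cF κ w ≤ w * c1 κ w := by
  have hx := xi_pos hκ w
  have hx1 := xi_le_one hκ1 h0
  have hp := (uF_rpow_bounds hκ w (by norm_num : (0:ℝ) ≤ 1 / 10)).1
  have h1 : (1 + (1 / xi κ w - 1)) ^ (1 / 10 : ℝ) ≤ 1 + 1 / 10 * (1 / xi κ w - 1) :=
    rpow_one_add_le_one_add_mul_self
      (by linarith [(le_div_iff₀ hx).2 (show (0:ℝ) * xi κ w ≤ 1 by simp)]) (by norm_num)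
      (by norm_num)
  rw [add_sub_cancel, one_div (xi κ w), Real.inv_rpow hx.le] at h1
  have hP : 0 < xi κ w ^ (1 / 10 : ℝ) := Real.rpow_pos_of_pos hx _
  have hP1 : xi κ w ^ (1 / 10 : ℝ) ≤ 1 := Real.rpow_le_one hx.le hx1 (by norm_num)
  have h2 : 1 - xi κ w ^ (1 / 10 : ℝ) ≤ (xi κ w ^ (1 / 10 : ℝ))⁻¹ - 1 := by
    nlinarith [mul_inv_cancel₀ hP.ne', sq_nonneg (xi κ w ^ (1 / 10 : ℝ) - 1)]
  have h3 : 1 - xi κ w ^ (1 / 10 : ℝ) ≤ 1 / 10 * w / xi κ w := by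
    refine h2.trans ((by linarith : _ ≤ 1 / 10 * ((xi κ w)⁻¹ - 1)).trans (le_of_eq ?_))
    have hw0 : (1 - w) ≠ 0 := by rw [xi_eq hw] at hx; exact hx.ne'
    rw [xi_eq hw]
    field_simp
    ring
  calc cF κ w = 20 * κ * uF κ w ^ (1 / 10 : ℝ) * (1 - xi κ w ^ (1 / 10 : ℝ)) := by
        unfold cF; rw [kappa_rpow_eq hκ w]; ring
    _ ≤ 20 * κ * uF κ w ^ (1 / 10 : ℝ) * (1 / 10 * w / xi κ w) :=
        mul_le_mul_of_nonneg_left h3 (by positivity)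
    _ = w * c1 κ w := by unfold c1; ring

theorem c1_eq (κ w : ℝ) : c1 κ w = 2 * uF κ w * uF κ w ^ (1 / 10 : ℝ) := by
  unfold c1 uF; ring

theorem c1_bounds (hκ : 0 < κ) (w : ℝ) : 0 ≤ c1 κ w ∧ c1 κ w ≤ 2 * uF κ w := by
  obtain ⟨h1, h2⟩ := uF_rpow_bounds hκ w (by norm_num : (0:ℝ) ≤ 1 / 10)
  have := uF_pos hκ w
  rw [c1_eq]
  exact ⟨by positivity, mul_le_of_le_one_right (by positivity) h2⟩

theorem abs_s1_le (hκ : 0 < κ) (hκ1 : 100000000 * κ ≤ 1 / 100) (h0 : 0 ≤ w) (h1 : w ≤ 1) :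
    |s1 κ w| ≤ 2 := by
  obtain ⟨a1, a2⟩ := c1_bounds hκ w
  have := uF_le hκ w
  unfold s1
  exact abs_le.2 ⟨by linarith, by linarith⟩

theorem c2_bounds (hκ : 0 < κ) (w : ℝ) :
    0 ≤ c2 κ w ∧ c2 κ w ≤ 11 / 5 * uF κ w / xi κ w := by
  obtain ⟨h1, h2⟩ := uF_rpow_bounds hκ w (by norm_num : (0:ℝ) ≤ 1 / 10)
  have hx := xi_pos hκ w
  have hu := uF_pos hκ w
  have e : c2 κ w = 11 / 5 * uF κ w / xi κ w * uF κ w ^ (1 / 10 : ℝ) := by
    unfold c2 uF; field_simp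
  rw [e]
  exact ⟨by positivity, mul_le_of_le_one_right (by positivity) h2⟩

theorem sF_bounds (hκ : 0 < κ) (hκ1 : 100000000 * κ ≤ 1 / 100) (h0 : 0 ≤ w)
    (hw : w ≤ 1 - 100000000 * κ) :
    w * (xi κ w - 22 * κ) ≤ sF κ w ∧ w * xi κ w / 2 ≤ sF κ w ∧ sF κ w ≤ w * xi κ w := by
  have h1 := cF_le hκ hκ1 h0 hw
  have h2 := cF_nonneg hκ hκ1 h0
  obtain ⟨-, h3⟩ := uF_rpow_bounds hκ w (by norm_num : (0:ℝ) ≤ 1 / 10)
  have h4 : cF κ w ≤ 20 * κ * w := h1.trans (mul_le_of_le_one_right (by positivity) h3)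
  unfold sF
  rw [xi_eq hw]
  refine ⟨by linarith, ?_, by nlinarith [mul_nonneg hκ.le h0]⟩
  nlinarith [mul_le_mul_of_nonneg_left (show 44 * κ ≤ 1 - w by linarith) h0]

theorem sF_nonneg (hκ : 0 < κ) (hκ1 : 100000000 * κ ≤ 1 / 100) (h0 : 0 ≤ w)
    (hw : w ≤ 1 - 100000000 * κ) : 0 ≤ sF κ w := by
  obtain ⟨-, h, -⟩ := sF_bounds hκ hκ1 h0 hw
  exact le_trans (by have := xi_pos hκ w; positivity) h

theorem sF_pos (hκ : 0 < κ) (hκ1 : 100000000 * κ ≤ 1 / 100) (h0 : 0 < w)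
    (hw : w ≤ 1 - 100000000 * κ) : 0 < sF κ w := by
  obtain ⟨-, h, -⟩ := sF_bounds hκ hκ1 h0.le hw
  exact lt_of_lt_of_le (by have := xi_pos hκ w; positivity) h

theorem TF_le (hκ : 0 < κ) (hκ1 : 100000000 * κ ≤ 1 / 100) {Γ : ℝ} (hΓ : 0 ≤ Γ) (h0 : 0 ≤ w)
    (hw : w ≤ 1 - 100000000 * κ) : TF κ Γ w ≤ w := by
  unfold TF
  linarith [mul_nonneg hΓ (sF_nonneg hκ hκ1 h0 hw)]

/-- The mean is bounded where the level is nonnegative. -/
theorem gam_le (hκ : 0 < κ) (hκ1 : 100000000 * κ ≤ 1 / 100) {Γ : ℝ} (hΓ : 0 ≤ Γ) (h0 : 0 < w)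
    (hw : w ≤ 1 - 100000000 * κ) (hT : 0 ≤ TF κ Γ w) :
    Γ * (xi κ w - 22 * κ) ≤ 1 ∧ Γ * xi κ w ≤ 1 + 23 * uF κ w := by
  obtain ⟨h1, -, -⟩ := sF_bounds hκ hκ1 h0.le hw
  have hx := xi_pos hκ w
  have hu := uF_mul hκ w
  have hu1 := uF_le hκ w
  have hu0 := uF_pos hκ w
  unfold TF at hT
  have h3 : Γ * (xi κ w - 22 * κ) ≤ 1 := by
    have h2 : Γ * (xi κ w - 22 * κ) * w ≤ 1 * w := by
      nlinarith [mul_le_mul_of_nonneg_left h1 hΓ]
    exact le_of_mul_le_mul_right h2 h0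
  refine ⟨h3, ?_⟩
  set q := Γ * xi κ w with hq
  have h4 : q * (1 - 22 * uF κ w) ≤ 1 := by
    refine le_of_eq_of_le ?_ h3
    rw [hq]; linear_combination (-(22 * Γ)) * hu
  nlinarith [mul_le_mul_of_nonneg_right hu1 hu0.le]

/-- The slope is at least the weight. -/
theorem le_DF (hκ : 0 < κ) (hκ1 : 100000000 * κ ≤ 1 / 100) {Γ : ℝ} (hΓ : 0 ≤ Γ) (h0 : 0 < w)
    (hw : w ≤ 1 - 100000000 * κ) (hT : 0 ≤ TF κ Γ w) : w ≤ DF κ Γ w := by
  rcases le_or_gt (s1 κ w) 0 with h | h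
  · unfold DF
    nlinarith [mul_nonpos_of_nonneg_of_nonpos hΓ h]
  · obtain ⟨-, -, h2⟩ := sF_bounds hκ hκ1 h0.le hw
    have h3 := cF_le_c1 hκ hκ1 h0.le hw
    have hs := sF_pos hκ hκ1 h0 hw
    have hx1 := xi_le_one hκ1 h0.le
    have h4 : w ^ 2 ≤ DF κ Γ w * sF κ w := by
      have e : sF κ w - w * s1 κ w = w ^ 2 + (w * c1 κ w - cF κ w) := by unfold sF s1; ring
      have e2 : DF κ Γ w * sF κ w = (sF κ w - w * s1 κ w) + TF κ Γ w * s1 κ w := by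
        unfold DF TF; ring
      nlinarith [mul_nonneg hT h.le]
    have h5 : sF κ w * w ≤ DF κ Γ w * sF κ w := by
      refine le_trans ?_ h4
      nlinarith [mul_le_mul_of_nonneg_left hx1 h0.le]
    exact le_of_mul_le_mul_left (by linarith : sF κ w * w ≤ sF κ w * DF κ Γ w) hs

theorem DF_le (hκ : 0 < κ) (hκ1 : 100000000 * κ ≤ 1 / 100) {Γ : ℝ} (hΓ : 0 ≤ Γ) (h0 : 0 < w)
    (hw : w ≤ 1 - 100000000 * κ) (hT : 0 ≤ TF κ Γ w) : DF κ Γ w ≤ 5 / xi κ w := by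
  obtain ⟨-, h⟩ := gam_le hκ hκ1 hΓ h0 hw hT
  have hs := abs_s1_le hκ hκ1 h0.le (by linarith)
  have hx := xi_pos hκ w
  have := uF_le hκ w
  have hx1 := xi_le_one hκ1 h0.le
  rw [le_div_iff₀ hx]
  unfold DF
  nlinarith [mul_nonneg (mul_nonneg hΓ hx.le) (by linarith [neg_le_of_abs_le hs] : 0 ≤ s1 κ w + 2)]

/-! Points with small excess. -/

/-- An active point in the window with small excesses `Pa`, `Pb`. -/
structure GoodPt (κ w a b Pa Pb : ℝ) : Prop where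
  κ_pos : 0 < κ
  κ_le : 100000000 * κ ≤ 1 / 100
  w_pos : 0 < w
  w_le : w ≤ 1 - 100000000 * κ
  a_pos : 0 < a
  b_pos : 0 < b
  Pa_le : Pa ≤ κ / 20
  Pb_le : Pb ≤ κ / 20
  a_low : 1 ≤ a * (xi κ w + Pa)
  b_low : 1 ≤ b * (xi κ w + Pb)
  T_nonneg : 0 ≤ TF κ ((a + b) / 2) w

namespace GoodPt

variable {a b Pa Pb : ℝ}

theorem swap (h : GoodPt κ w a b Pa Pb) : GoodPt κ w b a Pb Pa where
  κ_pos := h.κ_pos
  κ_le := h.κ_le
  w_pos := h.w_pos
  w_le := h.w_le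
  a_pos := h.b_pos
  b_pos := h.a_pos
  Pa_le := h.Pb_le
  Pb_le := h.Pa_le
  a_low := h.b_low
  b_low := h.a_low
  T_nonneg := by rw [add_comm b a]; exact h.T_nonneg

theorem bounds (h : GoodPt κ w a b Pa Pb) :
    1 - uF κ w / 5 ≤ a * xi κ w ∧ a * xi κ w ≤ 1 + 47 * uF κ w := by
  obtain ⟨-, hΓ⟩ := gam_le h.κ_pos h.κ_le (by linarith [h.a_pos, h.b_pos]) h.w_pos h.w_le h.T_nonneg
  have hu := uF_mul h.κ_pos w
  have hu0 := uF_pos h.κ_pos w
  have hu1 := uF_le h.κ_pos w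
  have hx := xi_pos h.κ_pos w
  have low : ∀ {a b Pa Pb : ℝ}, GoodPt κ w a b Pa Pb → (a + b) / 2 * xi κ w ≤ 1 + 23 * uF κ w →
      1 - uF κ w / 5 ≤ a * xi κ w := fun {a b Pa Pb} h hΓ => by
    have h1 : a * xi κ w ≤ 4 := by nlinarith [mul_pos h.b_pos hx]
    have h2 : a * Pa ≤ a * (uF κ w * xi κ w / 20) :=
      mul_le_mul_of_nonneg_left (by rw [hu]; exact h.Pa_le) h.a_pos.le
    nlinarith [h.a_low, mul_le_mul_of_nonneg_left h1 hu0.le]
  have ha := low h hΓ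
  have hb := low h.swap (by rw [add_comm b a]; exact hΓ)
  exact ⟨ha, by linarith⟩

theorem diff_le (h : GoodPt κ w a b Pa Pb) :
    |(a - b) / 2| * xi κ w ≤ 24 * uF κ w := by
  have h1 := h.bounds
  have h2 := h.swap.bounds
  have := uF_pos h.κ_pos w
  have hx := xi_pos h.κ_pos w
  rw [show |(a - b) / 2| * xi κ w = |(a - b) / 2 * xi κ w| by rw [abs_mul, abs_of_pos hx]]
  exact abs_le.2 ⟨by linarith, by linarith⟩

/-- The mass of the part off the diagonal is small. -/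
theorem theta_le (h : GoodPt κ w a b Pa Pb) : a * (xi κ w + Pa) - 1 ≤ 48 * uF κ w := by
  obtain ⟨-, h1⟩ := h.bounds
  have hu0 := uF_pos h.κ_pos w
  have hu1 := uF_le h.κ_pos w
  have h2 : a * Pa ≤ a * (uF κ w * xi κ w / 20) :=
    mul_le_mul_of_nonneg_left (by rw [uF_mul h.κ_pos]; exact h.Pa_le) h.a_pos.le
  nlinarith [mul_le_mul_of_nonneg_left h1 hu0.le, mul_le_mul_of_nonneg_left hu1 hu0.le]

theorem T_le (h : GoodPt κ w a b Pa Pb) : TF κ ((a + b) / 2) w ≤ 23 * uF κ w * w := by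
  obtain ⟨h1, -⟩ := h.bounds
  obtain ⟨h2, -⟩ := h.swap.bounds
  obtain ⟨hs, -, -⟩ := sF_bounds h.κ_pos h.κ_le h.w_pos.le h.w_le
  have hu := uF_mul h.κ_pos w
  have hu0 := uF_pos h.κ_pos w
  have hu1 := uF_le h.κ_pos w
  have hΓ : 0 ≤ (a + b) / 2 := by linarith [h.a_pos, h.b_pos]
  set q := (a + b) / 2 * xi κ w with hq
  have hq1 : 1 - uF κ w / 5 ≤ q := by rw [hq]; linarith
  have h3 : w * (q * (1 - 22 * uF κ w)) ≤ (a + b) / 2 * sF κ w := by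
    refine le_of_eq_of_le ?_ (mul_le_mul_of_nonneg_left hs hΓ)
    rw [hq]; linear_combination (-(22 * w * ((a + b) / 2))) * hu
  have h4 : (1 - uF κ w / 5) * (1 - 22 * uF κ w) ≤ q * (1 - 22 * uF κ w) :=
    mul_le_mul_of_nonneg_right hq1 (by linarith)
  unfold TF
  nlinarith [mul_le_mul_of_nonneg_left h4 h.w_pos.le, mul_pos h.w_pos hu0,
    mul_pos h.w_pos (mul_pos hu0 hu0)]

/-- A level of order `κ` keeps the weight away from zero. -/
theorem w_ge (h : GoodPt κ w a b Pa Pb) (hT : κ / 8 ≤ TF κ ((a + b) / 2) w) : 1 / 185 ≤ w := by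
  have hx := xi_pos h.κ_pos w
  have h1 : κ / 8 * xi κ w ≤ 23 * κ * w := by
    refine (mul_le_mul_of_nonneg_right (hT.trans h.T_le) hx.le).trans (le_of_eq ?_)
    linear_combination (23 * w) * uF_mul h.κ_pos w
  rw [xi_eq h.w_le] at h1
  nlinarith [h.κ_pos]

theorem eF_le (h : GoodPt κ w a b Pa Pb) : eF κ w a b * xi κ w ≤ 100 * uF κ w := by
  obtain ⟨hz1, -⟩ := h.bounds
  obtain ⟨hz2, -⟩ := h.swap.bounds
  obtain ⟨-, hzu⟩ :=
    gam_le h.κ_pos h.κ_le (by linarith [h.a_pos, h.b_pos]) h.w_pos h.w_le h.T_nonneg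
  obtain ⟨hc1, hc1'⟩ := c1_bounds h.κ_pos w
  have hs := sF_nonneg h.κ_pos h.κ_le h.w_pos.le h.w_le
  have hc := cF_le h.κ_pos h.κ_le h.w_pos.le h.w_le
  obtain ⟨-, hp⟩ := uF_rpow_bounds h.κ_pos w (by norm_num : (0:ℝ) ≤ 1 / 10)
  have hc' : cF κ w ≤ 20 * κ * w :=
    hc.trans (mul_le_of_le_one_right (by have := h.κ_pos; have := h.w_pos; positivity) hp)
  have hc0 := cF_nonneg h.κ_pos h.κ_le h.w_pos.le
  have hu := uF_mul h.κ_pos w
  have hu0 := uF_pos h.κ_pos w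
  have hu1 := uF_le h.κ_pos w
  have hκu := le_uF h.κ_pos h.κ_le h.w_pos.le
  have hx := xi_pos h.κ_pos w
  have hΓ : 0 ≤ (a + b) / 2 := by linarith [h.a_pos, h.b_pos]
  set Γ := (a + b) / 2 with hΓdef
  set q := Γ * xi κ w with hq
  have hq1 : 1 - uF κ w / 5 ≤ q := by rw [hq, hΓdef]; linarith
  have e : eF κ w a b * xi κ w =
      (1 - q) - w * (1 - q) ^ 2 + 2 * κ * q + c1 κ w * q + (2 * κ * w + cF κ w) * Γ * q
        - sF κ w * ((a - b) / 2) ^ 2 * xi κ w := by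
    rw [hq, hΓdef, eF, DF, s1, sF]
    have := xi_eq (κ := κ) h.w_le
    rw [this]
    ring
  rw [e]
  have h1 : (2 * κ * w + cF κ w) * Γ * q ≤ 22 * uF κ w * (q * q) := by
    calc (2 * κ * w + cF κ w) * Γ * q ≤ 22 * κ * Γ * q := by
          refine mul_le_mul_of_nonneg_right (mul_le_mul_of_nonneg_right ?_ hΓ)
            (mul_nonneg hΓ hx.le)
          nlinarith [mul_le_mul_of_nonneg_left (show w ≤ 1 by linarith [h.w_le, h.κ_pos]) h.κ_pos.le]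
      _ = 22 * uF κ w * (q * q) := by rw [hq]; linear_combination (-(22 * Γ * Γ * xi κ w)) * hu
  have hq2 : q ≤ 2 := by linarith
  have hq0 : 0 ≤ q := mul_nonneg hΓ hx.le
  nlinarith [mul_le_mul hq2 hq2 hq0 zero_le_two, mul_nonneg (sq_nonneg (1 - q)) h.w_pos.le,
    mul_nonneg (mul_nonneg hs (sq_nonneg ((a - b) / 2))) hx.le]

/-- The diagonal part of the second order loss has the margin of the correction. -/
theorem diag_le (h : GoodPt κ w a b Pa Pb) :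
    diagF κ w a b ≤ -(uF κ w * uF κ w ^ (1 / 10 : ℝ) / (2 * xi κ w ^ 2)) := by
  obtain ⟨hz1, -⟩ := h.bounds
  obtain ⟨hz2, -⟩ := h.swap.bounds
  obtain ⟨-, hzu⟩ :=
    gam_le h.κ_pos h.κ_le (by linarith [h.a_pos, h.b_pos]) h.w_pos h.w_le h.T_nonneg
  obtain ⟨-, -, hs2⟩ := sF_bounds h.κ_pos h.κ_le h.w_pos.le h.w_le
  have hs0 := sF_nonneg h.κ_pos h.κ_le h.w_pos.le h.w_le
  have hw1 : w ≤ 1 := by linarith [h.w_le, h.κ_pos]
  have hsa := abs_s1_le h.κ_pos h.κ_le h.w_pos.le hw1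
  have hd := h.diff_le
  have he := h.eF_le
  have hu0 := uF_pos h.κ_pos w
  have hu1 := uF_le h.κ_pos w
  have hx := xi_pos h.κ_pos w
  have hx2 : 0 < xi κ w ^ 2 := pow_pos hx 2
  set u := uF κ w with hudef
  set Γ := (a + b) / 2 with hΓdef
  set d := (a - b) / 2 with hddef
  set P := u ^ (1 / 10 : ℝ) with hP
  have hP0 : 0 < P := Real.rpow_pos_of_pos hu0 _
  have hΓ : 0 ≤ Γ := by rw [hΓdef]; linarith [h.a_pos, h.b_pos]
  have hq : 1 - u / 5 ≤ Γ * xi κ w := by rw [hΓdef]; linarith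
  have hid : diagF κ w a b = -(Γ * c2 κ w / 2) + d ^ 2 * (s1 κ w + 2 * sF κ w * Γ)
      + |d| * eF κ w a b := by
    rw [diagF, s2, ← hΓdef, ← hddef]
    rw [eF, DF, ← hΓdef]
    rw [hΓdef, hddef]
    ring
  have hc2 : c2 κ w * xi κ w = 11 / 5 * u * P := by
    rw [c2, hP, hudef, uF]; field_simp
  have h1 : Γ * c2 κ w / 2 * xi κ w ^ 2 = Γ * xi κ w * (11 / 10 * (u * P)) := by
    linear_combination (Γ * xi κ w / 2) * hc2
  have h2 : s1 κ w + 2 * sF κ w * Γ ≤ 6 := by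
    have : sF κ w * Γ ≤ w * (Γ * xi κ w) := by
      calc sF κ w * Γ ≤ w * xi κ w * Γ := mul_le_mul_of_nonneg_right hs2 hΓ
        _ = w * (Γ * xi κ w) := by ring
    nlinarith [le_of_abs_le hsa, mul_le_mul hw1 hzu (mul_nonneg hΓ hx.le) zero_le_one]
  have h3 : d ^ 2 * (s1 κ w + 2 * sF κ w * Γ) * xi κ w ^ 2 ≤ 6 * (24 * u) ^ 2 := by
    calc d ^ 2 * (s1 κ w + 2 * sF κ w * Γ) * xi κ w ^ 2 ≤ d ^ 2 * 6 * xi κ w ^ 2 :=
          mul_le_mul_of_nonneg_right (mul_le_mul_of_nonneg_left h2 (sq_nonneg d)) hx2.le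
      _ = 6 * (|d| * xi κ w) ^ 2 := by rw [mul_pow, sq_abs]; ring
      _ ≤ 6 * (24 * u) ^ 2 := by
          refine mul_le_mul_of_nonneg_left (pow_le_pow_left₀ ?_ hd 2) (by norm_num)
          positivity
  have h4 : |d| * eF κ w a b * xi κ w ^ 2 ≤ 2400 * u ^ 2 := by
    calc |d| * eF κ w a b * xi κ w ^ 2 = (|d| * xi κ w) * (eF κ w a b * xi κ w) := by ring
      _ ≤ (|d| * xi κ w) * (100 * u) := mul_le_mul_of_nonneg_left he (by positivity)
      _ ≤ (24 * u) * (100 * u) := mul_le_mul_of_nonneg_right hd (by positivity)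
      _ = 2400 * u ^ 2 := by ring
  have h5 : u ^ 2 ≤ 1 / 10000 * (u * P) := by
    have e1 : u = P * u ^ (9 / 10 : ℝ) := by
      rw [hP, ← Real.rpow_add hu0]; norm_num
    have e2 : u ^ (9 / 10 : ℝ) ≤ 1 / 10000 := by
      refine (Real.rpow_le_rpow_of_exponent_ge hu0 (by linarith)
        (by norm_num : (1 / 2 : ℝ) ≤ 9 / 10)).trans ?_
      rw [← Real.sqrt_eq_rpow, Real.sqrt_le_iff]
      exact ⟨by norm_num, by linarith⟩
    calc u ^ 2 = u * (P * u ^ (9 / 10 : ℝ)) := by rw [← e1]; ring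
      _ ≤ u * (P * (1 / 10000)) := by gcongr
      _ = 1 / 10000 * (u * P) := by ring
  have h6 : diagF κ w a b * xi κ w ^ 2 ≤ -(u * P / 2) := by
    rw [hid, add_mul, add_mul, neg_mul, h1]
    nlinarith [mul_le_mul_of_nonneg_right hq (by positivity : (0:ℝ) ≤ 11 / 10 * (u * P)),
      mul_le_mul_of_nonneg_right hu1 (by positivity : (0:ℝ) ≤ u * P)]
  calc diagF κ w a b = diagF κ w a b * xi κ w ^ 2 / xi κ w ^ 2 := by field_simp
    _ ≤ -(u * P / 2) / xi κ w ^ 2 := div_le_div_of_nonneg_right h6 hx2.le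
    _ = _ := by field_simp

end GoodPt

/-! The expansion. -/

theorem rpow_neg_taylor {x : ℝ} (hx : |x| ≤ 1 / 2) :
    1 + 1 / 10 * x + 11 / 200 * x ^ 2 - 5 * |x| ^ 3 ≤ ((1 - x) ^ (1 / 10 : ℝ))⁻¹ := by
  have hx1 : |x| < 1 := by linarith
  have h1x : 0 < 1 - x := by linarith [le_abs_self x]
  have hl := Real.abs_log_sub_add_sum_range_le hx1 2
  norm_num [Finset.sum_range_succ] at hl
  have hl2 : |x| ^ 3 / (1 - |x|) ≤ 2 * |x| ^ 3 := by
    rw [div_le_iff₀ (by linarith)]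
    nlinarith [pow_nonneg (abs_nonneg x) 3]
  have hlog : x + x ^ 2 / 2 - 2 * |x| ^ 3 ≤ -Real.log (1 - x) := by
    linarith [(abs_le.1 hl).2]
  set t := 1 / 10 * (x + x ^ 2 / 2 - 2 * |x| ^ 3) with ht
  have e : ((1 - x) ^ (1 / 10 : ℝ))⁻¹ = Real.exp (1 / 10 * -Real.log (1 - x)) := by
    rw [Real.rpow_def_of_pos h1x, ← Real.exp_neg]; congr 1; ring
  rw [e]
  refine le_trans ?_ (Real.exp_le_exp.2 (show t ≤ _ by rw [ht]; linarith))
  have ht1 : |t| ≤ |x| / 5 := by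
    have hA := abs_nonneg x
    have h2 : x ^ 2 = |x| * |x| := by rw [← sq_abs]; ring
    have h3 : |x| ^ 3 = |x| * |x| * |x| := by ring
    rw [ht, h2, h3]
    exact abs_le.2 ⟨by nlinarith [neg_abs_le x, mul_le_mul hx hx hA (by norm_num)],
      by nlinarith [le_abs_self x]⟩
  have hb := Real.exp_bound (show |t| ≤ 1 by linarith) (show 0 < 3 by norm_num)
  norm_num [Finset.sum_range_succ, Nat.factorial] at hb
  have hb1 := (abs_le.1 hb).1
  have ht3 : |t| ^ 3 ≤ |x| ^ 3 := pow_le_pow_left₀ (abs_nonneg t) (by linarith [abs_nonneg x]) 3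
  have hx3 : x ^ 3 ≤ |x| ^ 3 ∧ -|x| ^ 3 ≤ x ^ 3 := by
    rw [← abs_pow]; exact ⟨le_abs_self _, neg_abs_le _⟩
  have ht2 : x ^ 2 / 100 - |x| ^ 3 ≤ t ^ 2 := by
    set q := x ^ 2 / 2 - 2 * |x| ^ 3 with hq
    have h2 : x ^ 2 = |x| * |x| := by rw [← sq_abs]; ring
    have hq1 : |q| ≤ 2 * (|x| * |x|) := by
      rw [hq, h2]
      exact abs_le.2 ⟨by nlinarith [mul_le_mul_of_nonneg_left hx (mul_self_nonneg |x|)],
        by nlinarith [pow_nonneg (abs_nonneg x) 3, mul_self_nonneg |x|]⟩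
    have e2 : t ^ 2 = x ^ 2 / 100 + x * q / 50 + q ^ 2 / 100 := by rw [ht, hq]; ring
    have h3 : -(2 * |x| ^ 3) ≤ x * q := by
      have := mul_le_mul_of_nonneg_left hq1 (abs_nonneg x)
      rw [← abs_mul] at this
      nlinarith [neg_abs_le (x * q)]
    nlinarith [sq_nonneg q, pow_nonneg (abs_nonneg x) 3]
  have e3 : t = x / 10 + x ^ 2 / 20 - |x| ^ 3 / 5 := by rw [ht]; ring
  nlinarith [pow_nonneg (abs_nonneg x) 3]

/-- The profile is below its second order expansion up to a cubic error. -/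
theorem sF_step (hκ : 0 < κ) {d : ℝ} (hw : w ≤ 1 - 100000000 * κ)
    (hw' : w + d ≤ 1 - 100000000 * κ) (hd : |d| ≤ xi κ w / 2) :
    sF κ (w + d) ≤ sF κ w + s1 κ w * d + s2 κ w / 2 * d ^ 2
      + 100 * κ / xi κ w ^ 3 * |d| ^ 3 := by
  have hx := xi_pos hκ w
  have hu := uF_pos hκ w
  obtain ⟨hp, hp1⟩ := uF_rpow_bounds hκ w (by norm_num : (0:ℝ) ≤ 1 / 10)
  set P := uF κ w ^ (1 / 10 : ℝ) with hPdef
  set x := d / xi κ w with hxdef
  have hax : |x| ≤ 1 / 2 := by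
    rw [hxdef, abs_div, abs_of_pos hx, div_le_iff₀ hx]; linarith
  have hxi' : xi κ (w + d) = xi κ w * (1 - x) := by
    rw [xi_eq hw', mul_sub, hxdef, mul_div_cancel₀ _ hx.ne', xi_eq hw]; ring
  have h1x : 0 < 1 - x := by linarith [le_abs_self x]
  have hu' : uF κ (w + d) ^ (1 / 10 : ℝ) = P * ((1 - x) ^ (1 / 10 : ℝ))⁻¹ := by
    rw [uF, hxi', ← div_div, show κ / xi κ w = uF κ w from rfl,
      Real.div_rpow hu.le h1x.le, div_eq_mul_inv]
  have hT := mul_le_mul_of_nonneg_left (rpow_neg_taylor hax) (mul_nonneg hκ.le hp.le)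
  have e1 : c1 κ w * d = 2 * κ * P * x := by rw [c1, hxdef, ← hPdef]; ring
  have e2 : c2 κ w / 2 * d ^ 2 = 11 / 10 * κ * P * x ^ 2 := by
    rw [c2, hxdef, div_pow, ← hPdef]; ring
  have e3 : 100 * κ / xi κ w ^ 3 * |d| ^ 3 = 100 * κ * |x| ^ 3 := by
    rw [hxdef, abs_div, abs_of_pos hx, div_pow]; ring
  have h3 : κ * P * |x| ^ 3 ≤ κ * |x| ^ 3 :=
    mul_le_mul_of_nonneg_right (mul_le_of_le_one_right hκ.le hp1) (by positivity)
  have ec : cF κ (w + d) = 20 * κ * (P * ((1 - x) ^ (1 / 10 : ℝ))⁻¹ - κ ^ (1 / 10 : ℝ)) := by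
    rw [cF, hu']
  have ec0 : cF κ w = 20 * κ * (P - κ ^ (1 / 10 : ℝ)) := by rw [cF]
  have lhs : sF κ (w + d) = (w + d) * (1 - (w + d)) - 2 * κ * (w + d) - cF κ (w + d) := rfl
  have rhs : sF κ w + s1 κ w * d + s2 κ w / 2 * d ^ 2 = (w + d) * (1 - (w + d))
      - 2 * κ * (w + d) - (cF κ w + c1 κ w * d + c2 κ w / 2 * d ^ 2) := by
    unfold sF s1 s2; ring
  rw [lhs, rhs, e1, e2, e3, ec, ec0]
  linarith

/-- The level function is above its second order expansion up to a cubic error. -/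
theorem TF_step (hκ : 0 < κ) {d Γ Γ' : ℝ} (hw : w ≤ 1 - 100000000 * κ)
    (hw' : w + d ≤ 1 - 100000000 * κ) (hd : |d| ≤ xi κ w / 2) (hΓ' : 0 ≤ Γ') :
    TF κ Γ w + DF κ Γ w * d - sF κ w * (Γ' - Γ) - Γ * (s2 κ w / 2) * d ^ 2
        - s1 κ w * d * (Γ' - Γ) - (s2 κ w / 2) * d ^ 2 * (Γ' - Γ)
        - Γ' * (100 * κ / xi κ w ^ 3 * |d| ^ 3) ≤ TF κ Γ' (w + d) := by
  have h := mul_le_mul_of_nonneg_left (sF_step hκ hw hw' hd) hΓ'
  unfold TF DF
  linarith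

end Vale.Agent.P078.Quad
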