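import Vale.Agent.P078.Quad.Ops
import Vale.Agent.P078.AllMasa.Cov

/-! The weighted budget inside the algebra of weighted translations: rows of the smoothed
projection, its diagonal block and the complement of that block. -/

namespace Vale.Agent.P078.Quad

set_option linter.unusedSectionVars false

open Filter Topology ComplexOrder
open Vale.Agent.P078.Tracial Vale.Agent.P078.AllMasa

variable {M X : Type} [CStarAlgebra M] [PartialOrder M] [StarOrderedRing M]
variable [TopologicalSpace X] [CompactSpace X] [T2Space X] [TotallyDisconnectedSpace X]
variable {r : ℕ}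

namespace WData

variable (d : WData X r) (C : SCore M X) (hF : ∀ c, (d.F c).FromNrm C)

/-- One colour of the weighted budget inside the algebra. -/
noncomputable def lwS (c : Fin r) : C.ops :=
  C.mulS (d.n c) * d.toLData.lcS C hF c * C.mulS (d.μ c)

/-- Its transpose inside the algebra. -/
noncomputable def ltS (c : Fin r) : C.ops :=
  C.mulS (d.μ c) * d.toLData.lcS C hF c * C.mulS (d.n c)

/-- The sum of a row against the transposed colours. -/
noncomputable def rowSumW : (Fin r → C.ops) →ₗ[ℝ] C.ops :=
  ∑ c, (LinearMap.mulRight ℝ (d.ltS C hF c)).comp (LinearMap.proj c)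

/-- The contraction on rows. -/
noncomputable def xW : Module.End ℝ (Fin r → C.ops) :=
  d.TW⁻¹ • LinearMap.pi fun c => (LinearMap.mulRight ℝ (d.lwS C hF c)).comp (d.rowSumW C hF)

/-- One row of the smoothed projection. -/
noncomputable def rowW (W : C.ops) (c : Fin r) (m : ℕ) : Fin r → C.ops :=
  ((oneSub (V := Fin r → C.ops) (d.xW C hF)) ^ m) (Pi.single c (W * C.mulS (d.act c)))

/-- The diagonal block of the smoothed projection of `m` steps. -/
noncomputable def RW (c : Fin r) (m : ℕ) : C.ops := d.rowW C hF 1 c m c

/-- The complement of the diagonal block of `2 m` steps. -/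
noncomputable def HW (c : Fin r) (m : ℕ) : C.ops :=
  C.mulS (d.act c) - d.RW C hF c (2 * m)

end WData

end Vale.Agent.P078.Quad
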